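import Claimed.Agent.R030.Avg

/-!
# Row 30, (A0): a locally integrable majorant of all disc averages of `F ≥ 0`, `F ∈ W^{1,1}`

1. `dAvg_sub_self_L1` : `∫ |dAvg F x ρ - F x| dx ≤ ρ ∫‖g‖`.  Indeed `dAvg F x ρ - F x = (π ρ²)⁻¹ ∫_{ball x ρ} (F y - F x) dy`
   (`vol_ball_real`), so `|…| ≤ (π ρ²)⁻¹ ∫_{ball x ρ} |F y - F x| dy`; `fub_ball` with `c = ρ ∫‖g‖` (from `W11.trans_est`).
   `x ↦ dAvg F x ρ` is continuous (`dAvg_lip`), so measurable.
2. `A k x = dAvg F x ((1/2)^k)`.  `∫ |A (k+1) - A k| ≤ ((1/2)^(k+1) + (1/2)^k) ∫‖g‖`, summable.  Hence `∑ k, |A (k+1) x - A k x|` is a.e. summable with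
   integrable sum (`lintegral_tsum` + `ae_lt_top`, or `MeasureTheory.hasSum_integral_of_summable_integral_norm` and friends), and
   `A k x ≤ S x := |A 0 x| + ∑' k, |A (k+1) x - A k x|` (telescoping).
3. `F ≥ 0`, `ρ/2 < r ≤ ρ`:  `dAvg F x r ≤ 4 dAvg F x ρ` (bigger ball, `1/r² < 4/ρ²`).
4. `r ≥ 1`: `dAvg F x r ≤ (∫|F|)/π`.  `r ≤ 1`: choose `k` with `(1/2)^(k+1) < r ≤ (1/2)^k`.  `D = 4 S + (∫|F|)/π`.
-/

set_option autoImplicit false

open MeasureTheory Set Filter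
open scoped ENNReal NNReal Topology ContDiff

namespace Claimed.Agent.R030

theorem dAvg_continuous {F : Plane → ℝ} {g : Plane → Plane} (hW : W11 F g) {ρ : ℝ} (hρ : 0 < ρ) :
    Continuous (fun x => dAvg F x ρ) := by
  have hK : 0 ≤ (∫ z, ‖g z‖) / (Real.pi * ρ ^ 2) := by positivity
  have hL : LipschitzWith (Real.toNNReal ((∫ z, ‖g z‖) / (Real.pi * ρ ^ 2)))
      (fun x => dAvg F x ρ) := by
    apply LipschitzWith.of_dist_le_mul
    intro x y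
    rw [Real.dist_eq, Real.coe_toNNReal _ hK]
    exact dAvg_lip hW hρ le_rfl x y
  exact hL.continuous

/-- pointwise: `|dAvg F x ρ - F x| ≤ (π ρ²)⁻¹ ∫_{ball x ρ} ‖F y - F x‖ dy`. -/
theorem dAvg_sub_self_le {F : Plane → ℝ} (hF : LocallyIntegrable F) {ρ : ℝ} (hρ : 0 < ρ) (x : Plane) :
    |dAvg F x ρ - F x| ≤ (Real.pi * ρ ^ 2)⁻¹ * ∫ y in Metric.ball x ρ, ‖F y - F x‖ := by
  have hp : 0 < Real.pi * ρ ^ 2 := by positivity
  have hi : IntegrableOn F (Metric.ball x ρ) := loc_integrableOn_ball hF x ρ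
  have hc : IntegrableOn (fun _ : Plane => F x) (Metric.ball x ρ) :=
    loc_integrableOn_ball (locallyIntegrable_const _) x ρ
  have e1 : ∫ y in Metric.ball x ρ, (F y - F x)
      = (∫ y in Metric.ball x ρ, F y) - Real.pi * ρ ^ 2 * F x := by
    rw [integral_sub hi hc, setIntegral_const, vol_ball_real x hρ.le, smul_eq_mul]
  have e2 : dAvg F x ρ - F x = (Real.pi * ρ ^ 2)⁻¹ * ∫ y in Metric.ball x ρ, (F y - F x) := by
    rw [e1]
    unfold dAvg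
    field_simp
  rw [e2, abs_mul, abs_of_pos (inv_pos.2 hp), ← Real.norm_eq_abs]
  exact mul_le_mul_of_nonneg_left (norm_integral_le_integral_norm _) (inv_pos.2 hp).le

theorem dAvg_sub_self_L1 {F : Plane → ℝ} {g : Plane → Plane} (hW : W11 F g) {ρ : ℝ} (hρ : 0 < ρ) :
    Integrable (fun x => dAvg F x ρ - F x) ∧ ∫ x, |dAvg F x ρ - F x| ≤ ρ * ∫ x, ‖g x‖ := by
  have hg0 : 0 ≤ ∫ x, ‖g x‖ := integral_nonneg fun _ => norm_nonneg _
  have hpos : 0 < Real.pi * ρ ^ 2 := by have := Real.pi_pos; positivity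
  have hfub := fub_ball hρ (ρ * ∫ x, ‖g x‖) F hW.intF (fun t ht => by
    have h1 := hW.trans_est t
    have h2 : ‖t‖ * ∫ x, ‖g x‖ ≤ ρ * ∫ x, ‖g x‖ := mul_le_mul_of_nonneg_right ht hg0
    exact h1.trans h2)
  have hmaj : Integrable (fun x => (Real.pi * ρ ^ 2)⁻¹ * ∫ y in Metric.ball x ρ, ‖F y - F x‖) :=
    hfub.1.const_mul _
  have hpt : ∀ x, |dAvg F x ρ - F x| ≤ (Real.pi * ρ ^ 2)⁻¹ * ∫ y in Metric.ball x ρ, ‖F y - F x‖ :=
    fun x => dAvg_sub_self_le hW.intF.locallyIntegrable hρ x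
  have hmeas : AEStronglyMeasurable (fun x => dAvg F x ρ - F x) volume :=
    (dAvg_continuous hW hρ).aestronglyMeasurable.sub hW.intF.aestronglyMeasurable
  refine ⟨hmaj.mono' hmeas (Eventually.of_forall fun x => hpt x), ?_⟩
  calc ∫ x, |dAvg F x ρ - F x|
      ≤ ∫ x, (Real.pi * ρ ^ 2)⁻¹ * ∫ y in Metric.ball x ρ, ‖F y - F x‖ :=
        integral_mono_of_nonneg (Eventually.of_forall fun _ => abs_nonneg _) hmaj
          (Eventually.of_forall fun x => hpt x)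
    _ = (Real.pi * ρ ^ 2)⁻¹ * ∫ x, ∫ y in Metric.ball x ρ, ‖F y - F x‖ := integral_const_mul _ _
    _ ≤ (Real.pi * ρ ^ 2)⁻¹ * ((ρ * ∫ x, ‖g x‖) * (Real.pi * ρ ^ 2)) :=
        mul_le_mul_of_nonneg_left hfub.2 (inv_nonneg.2 hpos.le)
    _ = ρ * ∫ x, ‖g x‖ := by
        field_simp

theorem dyadic_diff_L1 {F : Plane → ℝ} {g : Plane → Plane} (hW : W11 F g) (k : ℕ) :
    Integrable (fun x => dAvg F x ((1 / 2 : ℝ) ^ (k + 1)) - dAvg F x ((1 / 2 : ℝ) ^ k)) ∧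
      ∫ x, |dAvg F x ((1 / 2 : ℝ) ^ (k + 1)) - dAvg F x ((1 / 2 : ℝ) ^ k)| ≤
        2 * (1 / 2 : ℝ) ^ k * ∫ x, ‖g x‖ := by
  have hg0 : 0 ≤ ∫ x, ‖g x‖ := integral_nonneg fun _ => norm_nonneg _
  have h1 := dAvg_sub_self_L1 hW (ρ := (1 / 2 : ℝ) ^ (k + 1)) (by positivity)
  have h2 := dAvg_sub_self_L1 hW (ρ := (1 / 2 : ℝ) ^ k) (by positivity)
  have he : (fun x => dAvg F x ((1 / 2 : ℝ) ^ (k + 1)) - dAvg F x ((1 / 2 : ℝ) ^ k))
      = fun x => (dAvg F x ((1 / 2 : ℝ) ^ (k + 1)) - F x) - (dAvg F x ((1 / 2 : ℝ) ^ k) - F x) := by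
    funext x; ring
  refine ⟨by rw [he]; exact h1.1.sub h2.1, ?_⟩
  calc ∫ x, |dAvg F x ((1 / 2 : ℝ) ^ (k + 1)) - dAvg F x ((1 / 2 : ℝ) ^ k)|
      ≤ ∫ x, (|dAvg F x ((1 / 2 : ℝ) ^ (k + 1)) - F x| + |dAvg F x ((1 / 2 : ℝ) ^ k) - F x|) := by
        refine integral_mono_of_nonneg (Eventually.of_forall fun _ => abs_nonneg _)
          (h1.1.abs.add h2.1.abs) (Eventually.of_forall fun x => ?_)
        show |dAvg F x ((1 / 2 : ℝ) ^ (k + 1)) - dAvg F x ((1 / 2 : ℝ) ^ k)|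
          ≤ |dAvg F x ((1 / 2 : ℝ) ^ (k + 1)) - F x| + |dAvg F x ((1 / 2 : ℝ) ^ k) - F x|
        have e : dAvg F x ((1 / 2 : ℝ) ^ (k + 1)) - dAvg F x ((1 / 2 : ℝ) ^ k)
            = (dAvg F x ((1 / 2 : ℝ) ^ (k + 1)) - F x) - (dAvg F x ((1 / 2 : ℝ) ^ k) - F x) := by ring
        rw [e]
        exact abs_sub _ _
    _ = (∫ x, |dAvg F x ((1 / 2 : ℝ) ^ (k + 1)) - F x|) + ∫ x, |dAvg F x ((1 / 2 : ℝ) ^ k) - F x| :=
        integral_add h1.1.abs h2.1.abs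
    _ ≤ (1 / 2 : ℝ) ^ (k + 1) * (∫ x, ‖g x‖) + (1 / 2 : ℝ) ^ k * ∫ x, ‖g x‖ := add_le_add h1.2 h2.2
    _ ≤ 2 * (1 / 2 : ℝ) ^ k * ∫ x, ‖g x‖ := by
        have hk : 0 ≤ (1 / 2 : ℝ) ^ k * ∫ x, ‖g x‖ := by positivity
        rw [pow_succ]
        nlinarith

/-- general: a sequence of integrable functions with summable `L¹` norms of increments is a.e. dominated by an integrable function. -/
theorem exists_integrable_majorant {A : ℕ → Plane → ℝ} (h0 : Integrable (A 0))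
    (hd : ∀ k, Integrable (fun x => A (k + 1) x - A k x)) {c : ℕ → ℝ} (hc : Summable c)
    (hle : ∀ k, ∫ x, |A (k + 1) x - A k x| ≤ c k) :
    ∃ S : Plane → ℝ, Integrable S ∧ (∀ x, 0 ≤ S x) ∧ ∀ᵐ x, ∀ k, A k x ≤ S x := by
  set T : Plane → ℝ≥0∞ := fun x => ∑' k, ‖A (k + 1) x - A k x‖ₑ with hT
  have hTm : AEMeasurable T := AEMeasurable.tsum fun k => (hd k).1.enorm
  have hc0 : ∀ k, 0 ≤ c k := fun k => (integral_nonneg fun x => abs_nonneg _).trans (hle k)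
  have hTi : ∫⁻ x, T x ≠ (⊤ : ℝ≥0∞) := by
    rw [hT, lintegral_tsum fun k => (hd k).1.enorm]
    have h1 : ∀ k, ∫⁻ x, ‖A (k + 1) x - A k x‖ₑ ≤ ENNReal.ofReal (c k) := by
      intro k
      rw [← ofReal_integral_norm_eq_lintegral_enorm (hd k)]
      exact ENNReal.ofReal_le_ofReal (hle k)
    refine ne_top_of_le_ne_top ?_ (ENNReal.tsum_le_tsum h1)
    exact hc.tsum_ofReal_ne_top
  have hfin : ∀ᵐ x, T x < (⊤ : ℝ≥0∞) := ae_lt_top' hTm hTi
  refine ⟨fun x => |A 0 x| + (T x).toReal, h0.abs.add (integrable_toReal_of_lintegral_ne_top hTm hTi),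
    fun x => add_nonneg (abs_nonneg _) ENNReal.toReal_nonneg, ?_⟩
  filter_upwards [hfin] with x hx k
  have h1 : A k x = A 0 x + ∑ j ∈ Finset.range k, (A (j + 1) x - A j x) := by
    rw [Finset.sum_range_sub (fun j => A j x)]; ring
  have h2 : ∑ j ∈ Finset.range k, (A (j + 1) x - A j x) ≤ (T x).toReal := by
    have h3 : ∑ j ∈ Finset.range k, ‖A (j + 1) x - A j x‖ₑ ≤ T x := ENNReal.sum_le_tsum _
    have h4 := ENNReal.toReal_mono hx.ne h3
    rw [ENNReal.toReal_sum (fun j _ => enorm_ne_top)] at h4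
    refine le_trans (Finset.sum_le_sum fun j _ => ?_) h4
    rw [toReal_enorm]
    exact le_abs_self _
  have := le_abs_self (A 0 x)
  show A k x ≤ |A 0 x| + (T x).toReal
  linarith

theorem dyadic_majorant {F : Plane → ℝ} {g : Plane → Plane} (hW : W11 F g) :
    ∃ S : Plane → ℝ, Integrable S ∧ (∀ x, 0 ≤ S x) ∧ ∀ᵐ x, ∀ k : ℕ, dAvg F x ((1 / 2 : ℝ) ^ k) ≤ S x := by
  have h0 : Integrable (fun x => dAvg F x ((1 / 2 : ℝ) ^ 0)) := by
    have h := ((dAvg_sub_self_L1 hW (ρ := (1 / 2 : ℝ) ^ 0) (by positivity)).1).add hW.intF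
    refine h.congr (Filter.Eventually.of_forall fun x => ?_)
    simp
  have hc : Summable (fun k : ℕ => 2 * (1 / 2 : ℝ) ^ k * ∫ x, ‖g x‖) :=
    (summable_geometric_two.mul_left 2).mul_right _
  exact exists_integrable_majorant (A := fun k x => dAvg F x ((1 / 2 : ℝ) ^ k)) h0
    (fun k => (dyadic_diff_L1 hW k).1) hc (fun k => (dyadic_diff_L1 hW k).2)

theorem dAvg_le_four {F : Plane → ℝ} (hF : LocallyIntegrable F) (h0 : ∀ x, 0 ≤ F x) {r ρ : ℝ} (hr : 0 < r)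
    (h1 : ρ / 2 < r) (h2 : r ≤ ρ) (x : Plane) : dAvg F x r ≤ 4 * dAvg F x ρ := by
  have hρ : 0 < ρ := lt_of_lt_of_le hr h2
  have hpi := Real.pi_pos
  have hI : ∫ y in Metric.ball x r, F y ≤ ∫ y in Metric.ball x ρ, F y :=
    setIntegral_mono_set (loc_integrableOn_ball hF x ρ) (Filter.Eventually.of_forall fun y => h0 y)
      (Metric.ball_subset_ball h2).eventuallyLE
  have hI0 : 0 ≤ ∫ y in Metric.ball x ρ, F y := integral_nonneg fun y => h0 y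
  have hpr : 0 < Real.pi * r ^ 2 := by positivity
  have hpρ : 0 < Real.pi * ρ ^ 2 := by positivity
  have hsq : ρ ^ 2 ≤ 4 * r ^ 2 := by nlinarith
  unfold dAvg
  calc (∫ y in Metric.ball x r, F y) / (Real.pi * r ^ 2)
      ≤ (∫ y in Metric.ball x ρ, F y) / (Real.pi * r ^ 2) := div_le_div_of_nonneg_right hI hpr.le
    _ ≤ 4 * ((∫ y in Metric.ball x ρ, F y) / (Real.pi * ρ ^ 2)) := by
        rw [div_le_iff₀ hpr]
        have h3 : 4 * ((∫ y in Metric.ball x ρ, F y) / (Real.pi * ρ ^ 2)) * (Real.pi * r ^ 2)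
            = (∫ y in Metric.ball x ρ, F y) * ((4 * r ^ 2) / ρ ^ 2) := by
          field_simp
        rw [h3]
        have h4 : 1 ≤ (4 * r ^ 2) / ρ ^ 2 := by
          rw [le_div_iff₀ (by positivity)]
          linarith
        nlinarith

/-- `exists_nat_pow_near_of_lt_one`-type statement -/
theorem exists_dyadic {r : ℝ} (hr : 0 < r) (hr1 : r ≤ 1) :
    ∃ k : ℕ, (1 / 2 : ℝ) ^ k / 2 < r ∧ r ≤ (1 / 2 : ℝ) ^ k := by
  have h1 : (1 : ℝ) ≤ 1 / r := by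
    rw [le_div_iff₀ hr]
    linarith
  obtain ⟨n, hn1, hn2⟩ := exists_nat_pow_near h1 (one_lt_two : (1 : ℝ) < 2)
  have h2n : (0 : ℝ) < 2 ^ n := by positivity
  refine ⟨n, ?_, ?_⟩
  · rw [one_div, inv_pow, div_lt_iff₀ (by norm_num : (0 : ℝ) < 2), inv_lt_comm₀ h2n (by positivity)]
    rw [pow_succ] at hn2
    have : (r * 2)⁻¹ * 2 = 1 / r := by
      field_simp
    have h5 : (r * 2)⁻¹ * 2 < 2 ^ n * 2 := by rw [this]; exact hn2
    exact lt_of_mul_lt_mul_right h5 (by norm_num)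
  · rw [one_div, inv_pow, le_inv_comm₀ hr h2n]
    rw [one_div] at hn1
    exact hn1

/-- (A0) -/
theorem exists_dominating {F : Plane → ℝ} {g : Plane → Plane} (hW : W11 F g) (h0 : ∀ x, 0 ≤ F x) :
    ∃ D : Plane → ℝ, LocallyIntegrable D ∧ ∀ᵐ x, ∀ r : ℝ, 0 < r → dAvg F x r ≤ D x := by
  obtain ⟨S, hS, hS0, hdom⟩ := dyadic_majorant hW
  refine ⟨fun x => 4 * S x + (∫ y, |F y|) / (Real.pi * 1 ^ 2),
    ((hS.const_mul 4).locallyIntegrable).add (locallyIntegrable_const _), ?_⟩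
  have hM : 0 ≤ (∫ y, |F y|) / (Real.pi * 1 ^ 2) := by positivity
  filter_upwards [hdom] with x hx r hr
  rcases le_total 1 r with h1 | h1
  · have := (le_abs_self _).trans (dAvg_abs_le hW.intF one_pos h1 x)
    have := hS0 x
    linarith
  · obtain ⟨k, hk1, hk2⟩ := exists_dyadic hr h1
    have := dAvg_le_four hW.intF.locallyIntegrable h0 hr hk1 hk2 x
    have := hx k
    linarith

end Claimed.Agent.R030
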