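import Claimed.Agent.R030.Defs

/-!
# Row 30, (Cut): the cut-off functions `cutS z d`

`cut0` is a `ContDiffBump` at `0` with radii `2 < 3`; `cutS z d y = cut0 (d⁻¹ • (y - z))` equals `1` on `ball z (2d)`, vanishes off
`ball z (3d)`, takes values in `[0,1]`, and `‖gradient (cutS z d) y‖ ≤ cutC / d`, where `cutC = sup ‖fderiv cut0‖`.

Mathlib API: `ContDiffBump.contDiff, one_of_mem_closedBall, zero_of_le_dist, nonneg, le_one, hasCompactSupport, support_eq`.
-/

set_option autoImplicit false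

open MeasureTheory Set Filter
open scoped ENNReal NNReal Topology ContDiff

namespace Claimed.Agent.R030

noncomputable section

/-- the model bump, `1` on `closedBall 0 2`, `0` off `ball 0 3` -/
def cut0 : ContDiffBump (0 : Plane) := ⟨2, 3, by norm_num, by norm_num⟩

/-- cut-off at `z` of scale `d` -/
def cutS (z : Plane) (d : ℝ) (y : Plane) : ℝ := cut0 (d⁻¹ • (y - z))

/-- bound of the derivative of the model bump -/
def cutC : ℝ := ⨆ y : Plane, ‖fderiv ℝ (cut0 : Plane → ℝ) y‖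

theorem cutS_contDiff (z : Plane) (d : ℝ) : ContDiff ℝ ∞ (cutS z d) := by
  unfold cutS
  exact cut0.contDiff.comp (by fun_prop)

theorem cutS_nonneg (z : Plane) (d : ℝ) (y : Plane) : 0 ≤ cutS z d y := cut0.nonneg

theorem cutS_le_one (z : Plane) (d : ℝ) (y : Plane) : cutS z d y ≤ 1 := cut0.le_one

theorem cutS_eq_one {z : Plane} {d : ℝ} (hd : 0 < d) {y : Plane} (hy : y ∈ Metric.closedBall z (2 * d)) :
    cutS z d y = 1 := by
  unfold cutS
  apply cut0.one_of_mem_closedBall
  rw [Metric.mem_closedBall, dist_eq_norm] at hy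
  rw [Metric.mem_closedBall, dist_zero_right, norm_smul, Real.norm_eq_abs, abs_of_pos (inv_pos.2 hd)]
  show d⁻¹ * ‖y - z‖ ≤ 2
  rw [inv_mul_le_iff₀ hd]
  linarith

theorem cutS_eq_zero {z : Plane} {d : ℝ} (hd : 0 < d) {y : Plane} (hy : y ∉ Metric.ball z (3 * d)) :
    cutS z d y = 0 := by
  unfold cutS
  apply cut0.zero_of_le_dist
  rw [Metric.mem_ball, dist_eq_norm, not_lt] at hy
  rw [dist_zero_right, norm_smul, Real.norm_eq_abs, abs_of_pos (inv_pos.2 hd)]
  show 3 ≤ d⁻¹ * ‖y - z‖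
  rw [le_inv_mul_iff₀ hd]
  linarith

/-- the support is contained in `closedBall z (3d)` (`HasCompactSupport.intro (isCompact_closedBall z (3*d))`). -/
theorem cutS_compact (z : Plane) {d : ℝ} (hd : 0 < d) : HasCompactSupport (cutS z d) := by
  refine HasCompactSupport.intro (isCompact_closedBall z (3 * d)) ?_
  intro y hy
  exact cutS_eq_zero hd (fun h => hy (Metric.ball_subset_closedBall h))

/-- the range of `‖fderiv cut0‖` is bounded (continuous with compact support:
`HasCompactSupport.fderiv`, `Continuous.bounded_above_of_compact_support` / `HasCompactSupport.exists_bound_of_continuous`). -/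
theorem cutC_bdd : BddAbove (range fun y : Plane => ‖fderiv ℝ (cut0 : Plane → ℝ) y‖) := by
  have hc : Continuous (fderiv ℝ (cut0 : Plane → ℝ)) :=
    (cut0.contDiff (n := 1)).continuous_fderiv (by simp)
  obtain ⟨C, hC⟩ := (cut0.hasCompactSupport.fderiv (𝕜 := ℝ)).exists_bound_of_continuous hc
  refine ⟨C, ?_⟩
  rintro _ ⟨y, rfl⟩
  exact hC y

theorem cutC_nonneg : 0 ≤ cutC :=
  le_trans (norm_nonneg _) (le_ciSup cutC_bdd (0 : Plane))

/-- chain rule: `fderiv (cutS z d) y = d⁻¹ • fderiv cut0 (d⁻¹ • (y - z))`; `norm_gradient`; `le_ciSup cutC_bdd`. -/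
theorem norm_gradient_cutS_le (z : Plane) {d : ℝ} (hd : 0 < d) (y : Plane) :
    ‖gradient (cutS z d) y‖ ≤ cutC / d := by
  have h0 : HasFDerivAt (cut0 : Plane → ℝ) (fderiv ℝ (cut0 : Plane → ℝ) (d⁻¹ • (y - z)))
      (d⁻¹ • (y - z)) :=
    ((cut0.contDiff (n := 1)).differentiable (by simp)).differentiableAt.hasFDerivAt
  have h1 : HasFDerivAt (fun y : Plane => d⁻¹ • (y - z)) (d⁻¹ • ContinuousLinearMap.id ℝ Plane) y :=
    ((hasFDerivAt_id y).sub_const z).const_smul d⁻¹
  have h2 : HasFDerivAt (cutS z d)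
      ((fderiv ℝ (cut0 : Plane → ℝ) (d⁻¹ • (y - z))).comp (d⁻¹ • ContinuousLinearMap.id ℝ Plane)) y :=
    h0.comp y h1
  have h3 : ‖gradient (cutS z d) y‖ = ‖fderiv ℝ (cutS z d) y‖ := by
    unfold gradient
    simp
  rw [h3, h2.fderiv]
  have h4 : (fderiv ℝ (cut0 : Plane → ℝ) (d⁻¹ • (y - z))).comp (d⁻¹ • ContinuousLinearMap.id ℝ Plane)
      = d⁻¹ • fderiv ℝ (cut0 : Plane → ℝ) (d⁻¹ • (y - z)) := by
    ext v
    simp
  rw [h4, norm_smul, Real.norm_eq_abs, abs_of_pos (inv_pos.2 hd), div_eq_inv_mul]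
  exact mul_le_mul_of_nonneg_left (le_ciSup cutC_bdd (d⁻¹ • (y - z))) (inv_pos.2 hd).le

/-- off the ball `cutS z d ≥ 0` has a minimum (`= 0`), so the derivative vanishes (`IsLocalMin.fderiv_eq_zero`). -/
theorem gradient_cutS_eq_zero {z : Plane} {d : ℝ} (hd : 0 < d) {y : Plane}
    (hy : y ∉ Metric.ball z (3 * d)) : gradient (cutS z d) y = 0 := by
  have hmin : IsLocalMin (cutS z d) y := by
    refine Filter.Eventually.of_forall (fun x => ?_)
    rw [cutS_eq_zero hd hy]
    exact cutS_nonneg z d x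
  unfold gradient
  rw [hmin.fderiv_eq_zero]
  simp

end

end Claimed.Agent.R030
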