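import Claimed.Agent.R030.Defs

/-!
# Row 30, (WG): calculus of weak gradients

All proofs are manipulations of the definition
`WGrad F g : ∀ φ smooth with compact support, ∀ i, ∫ F * fderiv φ · (eb i) = - ∫ g · i * φ`.

Integrability: `F` locally integrable, `ψ` continuous with compact support ⟹ `F * ψ` integrable (`loc_mul_cc`; Mathlib:
`LocallyIntegrable.integrable_smul_left_of_hasCompactSupport` / `..._right_...`).  For `φ` smooth with compact support,
`x ↦ fderiv ℝ φ x (eb i)` is continuous with compact support (`test_partial_cont`, `test_partial_compact`).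
-/

set_option autoImplicit false

open MeasureTheory Set Filter
open scoped ENNReal NNReal Topology ContDiff

namespace Claimed.Agent.R030

theorem loc_mul_cc {F ψ : Plane → ℝ} (hF : LocallyIntegrable F) (hψ : Continuous ψ)
    (hc : HasCompactSupport ψ) : Integrable (fun x => F x * ψ x) := by
  simpa only [smul_eq_mul] using hF.integrable_smul_right_of_hasCompactSupport hψ hc

/-- components of a locally integrable field are locally integrable (`|g x i| ≤ ‖g x‖`, `EuclideanSpace.proj i` continuous linear). -/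
theorem loc_comp {g : Plane → Plane} (hg : LocallyIntegrable g) (i : Fin 2) :
    LocallyIntegrable (fun x => g x i) := by
  intro x
  obtain ⟨s, hs, h⟩ := hg x
  exact ⟨s, hs, (EuclideanSpace.proj (𝕜 := ℝ) i).integrable_comp h⟩

theorem int_comp {g : Plane → Plane} (hg : Integrable g) (i : Fin 2) :
    Integrable (fun x => g x i) := by
  exact (EuclideanSpace.proj (𝕜 := ℝ) i).integrable_comp hg

/-- `|v i| ≤ ‖v‖` (`PiLp.norm_apply_le` / `EuclideanSpace.norm_eq`). -/
theorem abs_comp_le (v : Plane) (i : Fin 2) : |v i| ≤ ‖v‖ := by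
  have h := PiLp.norm_apply_le v i
  rwa [Real.norm_eq_abs] at h

theorem test_partial_cont {φ : Plane → ℝ} (hφ : ContDiff ℝ ∞ φ) (i : Fin 2) :
    Continuous (fun x => fderiv ℝ φ x (eb i)) := by
  exact (hφ.continuous_fderiv (by simp)).clm_apply continuous_const

theorem test_partial_compact {φ : Plane → ℝ} (hc : HasCompactSupport φ) (i : Fin 2) :
    HasCompactSupport (fun x => fderiv ℝ φ x (eb i)) := by
  exact hc.fderiv_apply ℝ (eb i)

/-- a continuous compactly supported function is bounded -/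
theorem cc_bounded {ψ : Plane → ℝ} (hψ : Continuous ψ) (hc : HasCompactSupport ψ) :
    ∃ M : ℝ, 0 ≤ M ∧ ∀ x, |ψ x| ≤ M := by
  obtain ⟨C, hC⟩ := hψ.bounded_above_of_compact_support hc
  refine ⟨C, (norm_nonneg _).trans (hC 0), fun x => ?_⟩
  have h := hC x
  rwa [Real.norm_eq_abs] at h

theorem WGrad.congr_ae {F F' : Plane → ℝ} {g g' : Plane → Plane} (h : WGrad F g)
    (hF : F =ᵐ[volume] F') (hg : g =ᵐ[volume] g') : WGrad F' g' := by
  intro φ hφ hc i
  have e1 : (∫ x, F' x * fderiv ℝ φ x (eb i)) = ∫ x, F x * fderiv ℝ φ x (eb i) := by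
    refine integral_congr_ae ?_
    filter_upwards [hF] with x hx
    rw [hx]
  have e2 : (∫ x, g' x i * φ x) = ∫ x, g x i * φ x := by
    refine integral_congr_ae ?_
    filter_upwards [hg] with x hx
    rw [hx]
  rw [e1, e2]
  exact h φ hφ hc i

/-- classical integration by parts, `integral_mul_fderiv_eq_neg_fderiv_mul_of_integrable` (all three products are continuous with compact
support since `φ` is); `gradient_apply`. -/
theorem wgrad_of_contDiff {u : Plane → ℝ} (hu : ContDiff ℝ 1 u) : WGrad u (gradient u) := by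
  intro φ hφ hc i
  have hucont : Continuous u := hu.continuous
  have hdu : Continuous (fun x => fderiv ℝ u x (eb i)) :=
    (hu.continuous_fderiv (by simp)).clm_apply continuous_const
  have i1 : Integrable (fun x => fderiv ℝ u x (eb i) * φ x) :=
    (hdu.mul hφ.continuous).integrable_of_hasCompactSupport hc.mul_left
  have i2 : Integrable (fun x => u x * fderiv ℝ φ x (eb i)) :=
    (hucont.mul (test_partial_cont hφ i)).integrable_of_hasCompactSupport
      (test_partial_compact hc i).mul_left
  have i3 : Integrable (fun x => u x * φ x) :=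
    (hucont.mul hφ.continuous).integrable_of_hasCompactSupport hc.mul_left
  have key := integral_mul_fderiv_eq_neg_fderiv_mul_of_integrable (μ := volume) (f := u) (g := φ)
    (v := eb i) i1 i2 i3
    (fun x _ => (hu.differentiable (by simp)).differentiableAt)
    (fun x _ => (hφ.differentiable (by simp)).differentiableAt)
  rw [key]
  congr 2
  funext x
  rw [gradient_apply]

theorem WGrad.sub {F₁ F₂ : Plane → ℝ} {g₁ g₂ : Plane → Plane} (h₁ : WGrad F₁ g₁) (h₂ : WGrad F₂ g₂)
    (hF₁ : LocallyIntegrable F₁) (hF₂ : LocallyIntegrable F₂) (hg₁ : LocallyIntegrable g₁)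
    (hg₂ : LocallyIntegrable g₂) : WGrad (fun x => F₁ x - F₂ x) (fun x => g₁ x - g₂ x) := by
  intro φ hφ hc i
  have a1 := loc_mul_cc hF₁ (test_partial_cont hφ i) (test_partial_compact hc i)
  have a2 := loc_mul_cc hF₂ (test_partial_cont hφ i) (test_partial_compact hc i)
  have b1 := loc_mul_cc (loc_comp hg₁ i) hφ.continuous hc
  have b2 := loc_mul_cc (loc_comp hg₂ i) hφ.continuous hc
  have e1 : (∫ x, (F₁ x - F₂ x) * fderiv ℝ φ x (eb i))
      = (∫ x, F₁ x * fderiv ℝ φ x (eb i)) - ∫ x, F₂ x * fderiv ℝ φ x (eb i) := by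
    rw [← integral_sub a1 a2]
    congr 1; funext x; ring
  have e2 : (∫ x, (g₁ x - g₂ x) i * φ x) = (∫ x, g₁ x i * φ x) - ∫ x, g₂ x i * φ x := by
    rw [← integral_sub b1 b2]
    congr 1; funext x
    simp only [PiLp.sub_apply]; ring
  rw [e1, e2, h₁ φ hφ hc i, h₂ φ hφ hc i]; ring

/-- (Pr) product rule.  For a test function `φ`, `η * φ` is a test function and
`fderiv (η φ) x (eb i) = η x * fderiv φ x (eb i) + φ x * fderiv η x (eb i)`.  So
`∫ η F ∂ᵢφ = ∫ F ∂ᵢ(η φ) - ∫ F φ ∂ᵢη = - ∫ gᵢ η φ - ∫ F ∂ᵢη φ`.  (`gradient_apply` for `gradient η x i`.) -/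
theorem WGrad.mul_smooth {F η : Plane → ℝ} {g : Plane → Plane} (hF : LocallyIntegrable F)
    (hg : LocallyIntegrable g) (h : WGrad F g) (hη : ContDiff ℝ ∞ η) :
    WGrad (fun x => η x * F x) (fun x => η x • g x + F x • gradient η x) := by
  intro φ hφ hc i
  have hηφ : ContDiff ℝ ∞ (fun x => η x * φ x) := hη.mul hφ
  have hcηφ : HasCompactSupport (fun x => η x * φ x) := hc.mul_left
  have key := h _ hηφ hcηφ i
  have hd : ∀ x, fderiv ℝ (fun x => η x * φ x) x (eb i)
      = η x * fderiv ℝ φ x (eb i) + φ x * fderiv ℝ η x (eb i) := by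
    intro x
    have h1 : DifferentiableAt ℝ η x := (hη.differentiable (by simp)).differentiableAt
    have h2 : DifferentiableAt ℝ φ x := (hφ.differentiable (by simp)).differentiableAt
    rw [fderiv_fun_mul h1 h2]
    simp
  -- integrabilities
  have c1 : Continuous (fun x => η x * fderiv ℝ φ x (eb i)) :=
    hη.continuous.mul (test_partial_cont hφ i)
  have k1 : HasCompactSupport (fun x => η x * fderiv ℝ φ x (eb i)) :=
    (test_partial_compact hc i).mul_left
  have c2 : Continuous (fun x => φ x * fderiv ℝ η x (eb i)) :=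
    hφ.continuous.mul (test_partial_cont hη i)
  have k2 : HasCompactSupport (fun x => φ x * fderiv ℝ η x (eb i)) := hc.mul_right
  have a1 := loc_mul_cc hF c1 k1
  have a2 := loc_mul_cc hF c2 k2
  have b1 := loc_mul_cc (loc_comp hg i) hηφ.continuous hcηφ
  have e0 : (∫ x, F x * fderiv ℝ (fun x => η x * φ x) x (eb i))
      = (∫ x, F x * (η x * fderiv ℝ φ x (eb i))) + ∫ x, F x * (φ x * fderiv ℝ η x (eb i)) := by
    rw [← integral_add a1 a2]
    congr 1; funext x; rw [hd x]; ring
  have e1 : (∫ x, η x * F x * fderiv ℝ φ x (eb i)) = ∫ x, F x * (η x * fderiv ℝ φ x (eb i)) := by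
    congr 1; funext x; ring
  have e2 : (∫ x, (η x • g x + F x • gradient η x) i * φ x)
      = (∫ x, g x i * (η x * φ x)) + ∫ x, F x * (φ x * fderiv ℝ η x (eb i)) := by
    rw [← integral_add b1 a2]
    congr 1; funext x
    simp only [PiLp.add_apply, PiLp.smul_apply, smul_eq_mul, gradient_apply]; ring
  rw [e1, e2]
  rw [e0] at key
  linarith

/-- closure of `WGrad` under weak convergence (uniqueness of limits; nothing else). -/
theorem WGrad.of_tendsto {Fn : ℕ → Plane → ℝ} {gn : ℕ → Plane → Plane} {F : Plane → ℝ}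
    {g : Plane → Plane} (h : ∀ n, WGrad (Fn n) (gn n))
    (hF : ∀ ψ : Plane → ℝ, Continuous ψ → HasCompactSupport ψ →
      Tendsto (fun n => ∫ x, Fn n x * ψ x) atTop (𝓝 (∫ x, F x * ψ x)))
    (hg : ∀ ψ : Plane → ℝ, Continuous ψ → HasCompactSupport ψ → ∀ i : Fin 2,
      Tendsto (fun n => ∫ x, gn n x i * ψ x) atTop (𝓝 (∫ x, g x i * ψ x))) : WGrad F g := by
  intro φ hφ hc i
  have h1 := hF _ (test_partial_cont hφ i) (test_partial_compact hc i)
  have h2 := (hg φ hφ.continuous hc i).neg
  have h3 : (fun n => ∫ x, Fn n x * fderiv ℝ φ x (eb i)) = fun n => -∫ x, gn n x i * φ x := by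
    funext n; exact h n φ hφ hc i
  rw [h3] at h1
  exact tendsto_nhds_unique h1 h2

/-- `L¹` convergence implies weak convergence against bounded functions:
`|∫ Fn ψ - ∫ F ψ| ≤ M ∫ |Fn - F|`. -/
theorem tendsto_integral_mul_of_L1 {Fn : ℕ → Plane → ℝ} {F ψ : Plane → ℝ}
    (hFn : ∀ n, Integrable (Fn n)) (hF : Integrable F)
    (hL : Tendsto (fun n => ∫ x, |Fn n x - F x|) atTop (𝓝 0))
    (hψ : Continuous ψ) (hc : HasCompactSupport ψ) :
    Tendsto (fun n => ∫ x, Fn n x * ψ x) atTop (𝓝 (∫ x, F x * ψ x)) := by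
  obtain ⟨M, hM0, hM⟩ := cc_bounded hψ hc
  have hi : ∀ n, Integrable (fun x => Fn n x * ψ x) := fun n =>
    loc_mul_cc (hFn n).locallyIntegrable hψ hc
  have hiF : Integrable (fun x => F x * ψ x) := loc_mul_cc hF.locallyIntegrable hψ hc
  rw [tendsto_iff_dist_tendsto_zero]
  have hb : Tendsto (fun n => M * ∫ x, |Fn n x - F x|) atTop (𝓝 0) := by
    simpa using hL.const_mul M
  refine squeeze_zero (fun n => dist_nonneg) (fun n => ?_) hb
  rw [Real.dist_eq, ← integral_sub (hi n) hiF, ← integral_const_mul]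
  refine (abs_integral_le_integral_abs).trans ?_
  refine integral_mono_of_nonneg (Eventually.of_forall fun x => abs_nonneg _)
    ((((hFn n).sub hF).abs).const_mul M) (Eventually.of_forall fun x => ?_)
  have : Fn n x * ψ x - F x * ψ x = (Fn n x - F x) * ψ x := by ring
  show |Fn n x * ψ x - F x * ψ x| ≤ M * |Fn n x - F x|
  rw [this, abs_mul, mul_comm]
  exact mul_le_mul_of_nonneg_right (hM x) (abs_nonneg _)

/-- vector version, from `tendsto_integral_mul_of_L1` applied to the components (`abs_comp_le`, `int_comp`, squeeze). -/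
theorem tendsto_integral_comp_mul_of_L1 {gn : ℕ → Plane → Plane} {g : Plane → Plane} {ψ : Plane → ℝ}
    (hgn : ∀ n, Integrable (gn n)) (hg : Integrable g)
    (hL : Tendsto (fun n => ∫ x, ‖gn n x - g x‖) atTop (𝓝 0))
    (hψ : Continuous ψ) (hc : HasCompactSupport ψ) (i : Fin 2) :
    Tendsto (fun n => ∫ x, gn n x i * ψ x) atTop (𝓝 (∫ x, g x i * ψ x)) := by
  refine tendsto_integral_mul_of_L1 (fun n => int_comp (hgn n) i) (int_comp hg i) ?_ hψ hc
  refine squeeze_zero (fun n => integral_nonneg fun x => abs_nonneg _) (fun n => ?_) hL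
  refine integral_mono_of_nonneg (Eventually.of_forall fun x => abs_nonneg _)
    (((hgn n).sub hg).norm) (Eventually.of_forall fun x => ?_)
  exact abs_comp_le (gn n x - g x) i

/-- smooth compactly supported functions are `W11` -/
theorem w11_of_smooth {H : Plane → ℝ} (hH : ContDiff ℝ ∞ H) (hc : HasCompactSupport H) :
    W11 H (gradient H) := by
  have h1 : ContDiff ℝ 1 H := hH.of_le (by simp)
  refine ⟨hH.continuous.integrable_of_hasCompactSupport hc, ?_, wgrad_of_contDiff h1⟩
  have hcont : Continuous (gradient H) := by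
    have : gradient H = fun x => (InnerProductSpace.toDual ℝ Plane).symm (fderiv ℝ H x) := by
      funext x; rfl
    rw [this]
    exact (InnerProductSpace.toDual ℝ Plane).symm.continuous.comp (h1.continuous_fderiv (by simp))
  have hsupp : HasCompactSupport (gradient H) := by
    have hf : HasCompactSupport (fderiv ℝ H) := hc.fderiv ℝ
    have : gradient H = fun x => (InnerProductSpace.toDual ℝ Plane).symm (fderiv ℝ H x) := by
      funext x; rfl
    rw [this]
    exact hf.comp_left (map_zero _)
  exact hcont.integrable_of_hasCompactSupport hsupp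

theorem W11.sub {F₁ F₂ : Plane → ℝ} {g₁ g₂ : Plane → Plane} (h₁ : W11 F₁ g₁) (h₂ : W11 F₂ g₂) :
    W11 (fun x => F₁ x - F₂ x) (fun x => g₁ x - g₂ x) :=
  ⟨h₁.intF.sub h₂.intF, h₁.intg.sub h₂.intg,
    h₁.wg.sub h₂.wg h₁.intF.locallyIntegrable h₂.intF.locallyIntegrable
      h₁.intg.locallyIntegrable h₂.intg.locallyIntegrable⟩

end Claimed.Agent.R030
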