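import Claimed.Agent.R030.Moll
import Claimed.Agent.R030.Cut
import Claimed.Agent.R030.WG

/-!
# Row 30, (Du) + (LSC): the `L¹` norm of a field by duality; lower semicontinuity of `∫ ‖weak gradient‖`

`TestField Φ` : `Φ 0, Φ 1` smooth with compact support, `Φ 0 ^ 2 + Φ 1 ^ 2 ≤ 1`.   `pair G Φ = ∫ ∑ i, G x i * Φ i x`.

(Du) `dual_bound` : `G` locally integrable and `pair G Φ ≤ K` for all test fields ⟹ `G` integrable, `∫ ‖G‖ ≤ K`.
  Let `U = unitF G = ‖G‖⁻¹ • G` (bounded by 1, a.e. strongly measurable, so locally integrable), `ψ` smooth with compact support, `0 ≤ ψ ≤ 1`,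
  `Φ_n i x = ψ x * (mconv n U x) i`.  This is a test field (`mconv_contDiff`, `mconv_norm_le`).  `mconv n U → U` a.e. (`mconv_tendsto_ae`), so
  `∑ i, G x i * Φ_n i x → ψ x * ‖G x‖` a.e., dominated by `ψ x * ‖G x‖` (integrable): `∫ ψ ‖G‖ ≤ K`.  With `ψ = cutS 0 R`:
  `∫_{ball 0 (2R)} ‖G‖ ≤ K` for all `R`; conclude with `aecover_ball` and `AECover.integrable_of_integral_norm_bounded`,
  `AECover.integral_tendsto_of_countably_generated`.

(LSC) `lsc_grad` : for a test field `Φ`:  `pair G Φ = - ∑ i ∫ v ∂ᵢΦᵢ = - lim ∑ i ∫ v_n ∂ᵢΦᵢ = lim pair G_n Φ ≤ lim K_n`.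
-/

set_option autoImplicit false

open MeasureTheory Set Filter
open scoped ENNReal NNReal Topology ContDiff

namespace Claimed.Agent.R030

noncomputable section

structure TestField (Φ : Fin 2 → Plane → ℝ) : Prop where
  smooth : ∀ i, ContDiff ℝ ∞ (Φ i)
  compact : ∀ i, HasCompactSupport (Φ i)
  le_one : ∀ x, ∑ i, Φ i x ^ 2 ≤ 1

def pair (G : Plane → Plane) (Φ : Fin 2 → Plane → ℝ) : ℝ := ∫ x, ∑ i, G x i * Φ i x

def unitF (G : Plane → Plane) (x : Plane) : Plane := (‖G x‖)⁻¹ • G x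

theorem sum_sq_eq_norm_sq (v : Plane) : ∑ i, v i ^ 2 = ‖v‖ ^ 2 := by
  rw [EuclideanSpace.norm_sq_eq]
  simp

/-- Cauchy-Schwarz in `ℝ²` (`EuclideanSpace.norm_eq`, `Finset.sum_mul_sq_le_sq_mul_sq` / `real_inner_le_norm`). -/
theorem sum_mul_le_norm (v : Plane) (c : Fin 2 → ℝ) (hc : ∑ i, c i ^ 2 ≤ 1) :
    |∑ i, v i * c i| ≤ ‖v‖ := by
  have h := Finset.sum_mul_sq_le_sq_mul_sq Finset.univ (fun i => v i) c
  rw [sum_sq_eq_norm_sq] at h
  have h2 : (∑ i, v i * c i) ^ 2 ≤ ‖v‖ ^ 2 := by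
    refine h.trans ?_
    calc ‖v‖ ^ 2 * ∑ i, c i ^ 2 ≤ ‖v‖ ^ 2 * 1 := by gcongr
      _ = ‖v‖ ^ 2 := mul_one _
  exact abs_le_of_sq_le_sq h2 (norm_nonneg _)

theorem unitF_norm_le (G : Plane → Plane) (x : Plane) : ‖unitF G x‖ ≤ 1 := by
  unfold unitF
  rw [norm_smul, norm_inv, norm_norm]
  exact inv_mul_le_one

theorem unitF_pair (G : Plane → Plane) (x : Plane) : ∑ i, G x i * unitF G x i = ‖G x‖ := by
  unfold unitF
  have h : ∑ i, G x i * ((‖G x‖)⁻¹ • G x) i = (‖G x‖)⁻¹ * ∑ i, G x i ^ 2 := by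
    rw [Finset.mul_sum]
    refine Finset.sum_congr rfl (fun i _ => ?_)
    simp only [PiLp.smul_apply, smul_eq_mul]
    ring
  rw [h, sum_sq_eq_norm_sq]
  by_cases h0 : ‖G x‖ = 0
  · simp [h0]
  · field_simp

theorem unitF_loc {G : Plane → Plane} (hG : LocallyIntegrable G) : LocallyIntegrable (unitF G) := by
  have hm : AEStronglyMeasurable (unitF G) volume := by
    unfold unitF
    exact (hG.aestronglyMeasurable.norm.aemeasurable.inv.aestronglyMeasurable).smul hG.aestronglyMeasurable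
  have h1 : LocallyIntegrable (fun _ : Plane => (1 : ℝ)) := locallyIntegrable_const 1
  exact h1.mono hm (Eventually.of_forall (fun x => by simpa using unitF_norm_le G x))

/-- the integrand of `pair` is integrable -/
theorem pair_integrable {G : Plane → Plane} (hG : LocallyIntegrable G) {Φ : Fin 2 → Plane → ℝ}
    (hΦ : TestField Φ) : Integrable (fun x => ∑ i, G x i * Φ i x) := by
  refine integrable_finsetSum _ (fun i _ => ?_)
  exact loc_mul_cc (loc_comp hG i) (hΦ.smooth i).continuous (hΦ.compact i)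

theorem pair_le_norm {G : Plane → Plane} (hG : Integrable G) {Φ : Fin 2 → Plane → ℝ}
    (hΦ : TestField Φ) : pair G Φ ≤ ∫ x, ‖G x‖ := by
  unfold pair
  refine integral_mono (pair_integrable hG.locallyIntegrable hΦ) hG.norm (fun x => ?_)
  exact (le_abs_self _).trans (sum_mul_le_norm (G x) (fun i => Φ i x) (hΦ.le_one x))

/-- `pair G Φ = - ∑ i, ∫ v * ∂ᵢ (Φ i)` -/
theorem pair_eq_of_wgrad {v : Plane → ℝ} {G : Plane → Plane} (hG : LocallyIntegrable G)
    (hw : WGrad v G) {Φ : Fin 2 → Plane → ℝ} (hΦ : TestField Φ) :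
    pair G Φ = -∑ i, ∫ x, v x * fderiv ℝ (Φ i) x (eb i) := by
  unfold pair
  rw [integral_finsetSum _ (fun i _ =>
    loc_mul_cc (loc_comp hG i) (hΦ.smooth i).continuous (hΦ.compact i)), ← Finset.sum_neg_distrib]
  refine Finset.sum_congr rfl (fun i _ => ?_)
  rw [hw (Φ i) (hΦ.smooth i) (hΦ.compact i) i, neg_neg]

/-- the mollified unit field, cut off, is a test field -/
theorem testField_moll {G : Plane → Plane} (hG : LocallyIntegrable G) {ψ : Plane → ℝ}
    (hψ : ContDiff ℝ ∞ ψ) (hc : HasCompactSupport ψ) (h0 : ∀ x, 0 ≤ ψ x) (h1 : ∀ x, ψ x ≤ 1) (n : ℕ) :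
    TestField (fun i x => ψ x * (mconv n (unitF G) x) i) := by
  refine ⟨fun i => ?_, fun i => ?_, fun x => ?_⟩
  · have h := mconv_contDiff n (unitF_loc hG)
    have h2 : ContDiff ℝ ∞ (fun x => (mconv n (unitF G) x) i) :=
      (EuclideanSpace.proj (𝕜 := ℝ) i).contDiff.comp h
    exact hψ.mul h2
  · exact hc.mul_right
  · have h : ∑ i, (ψ x * (mconv n (unitF G) x) i) ^ 2 = ψ x ^ 2 * ‖mconv n (unitF G) x‖ ^ 2 := by
      rw [← sum_sq_eq_norm_sq, Finset.mul_sum]
      exact Finset.sum_congr rfl (fun i _ => by ring)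
    rw [h]
    have h3 := mconv_norm_le n (unitF_norm_le G) x
    have h4 : ψ x ^ 2 ≤ 1 := by nlinarith [h0 x, h1 x]
    have h5 : ‖mconv n (unitF G) x‖ ^ 2 ≤ 1 := by nlinarith [norm_nonneg (mconv n (unitF G) x)]
    nlinarith [sq_nonneg (ψ x), sq_nonneg ‖mconv n (unitF G) x‖]

/-- the norm of a locally integrable field is locally integrable -/
theorem loc_norm_field {G : Plane → Plane} (hG : LocallyIntegrable G) :
    LocallyIntegrable (fun x => ‖G x‖) :=
  hG.mono hG.aestronglyMeasurable.norm (Eventually.of_forall (fun x => by simp))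

theorem pair_moll_tendsto {G : Plane → Plane} (hG : LocallyIntegrable G) {ψ : Plane → ℝ}
    (hψ : ContDiff ℝ ∞ ψ) (hc : HasCompactSupport ψ) (h0 : ∀ x, 0 ≤ ψ x) (h1 : ∀ x, ψ x ≤ 1) :
    Tendsto (fun n => pair G (fun i x => ψ x * (mconv n (unitF G) x) i)) atTop
      (𝓝 (∫ x, ψ x * ‖G x‖)) := by
  unfold pair
  have hint : Integrable (fun x => ψ x * ‖G x‖) := by
    have := loc_mul_cc (loc_norm_field hG) hψ.continuous hc
    simpa [mul_comm] using this
  refine tendsto_integral_of_dominated_convergence (fun x => ψ x * ‖G x‖) (fun n => ?_) hint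
    (fun n => ?_) ?_
  · exact (pair_integrable hG (testField_moll hG hψ hc h0 h1 n)).aestronglyMeasurable
  · refine Eventually.of_forall (fun x => ?_)
    have h : ∑ i, G x i * (ψ x * (mconv n (unitF G) x) i)
        = ψ x * ∑ i, G x i * (mconv n (unitF G) x) i := by
      rw [Finset.mul_sum]
      exact Finset.sum_congr rfl (fun i _ => by ring)
    rw [h, Real.norm_eq_abs, abs_mul, abs_of_nonneg (h0 x)]
    refine mul_le_mul_of_nonneg_left ?_ (h0 x)
    refine sum_mul_le_norm (G x) (fun i => (mconv n (unitF G) x) i) ?_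
    rw [sum_sq_eq_norm_sq]
    have h3 := mconv_norm_le n (unitF_norm_le G) x
    nlinarith [norm_nonneg (mconv n (unitF G) x)]
  · filter_upwards [mconv_tendsto_ae (unitF_loc hG)] with x hx
    have h : ψ x * ‖G x‖ = ∑ i, G x i * (ψ x * unitF G x i) := by
      rw [← unitF_pair G x, Finset.mul_sum]
      exact Finset.sum_congr rfl (fun i _ => by ring)
    rw [h]
    refine tendsto_finsetSum _ (fun i _ => ?_)
    refine Tendsto.const_mul _ (Tendsto.const_mul _ ?_)
    exact ((EuclideanSpace.proj (𝕜 := ℝ) i).continuous.tendsto _).comp hx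

theorem dual_cut {G : Plane → Plane} (hG : LocallyIntegrable G) {K : ℝ}
    (hK : ∀ Φ, TestField Φ → pair G Φ ≤ K) {ψ : Plane → ℝ}
    (hψ : ContDiff ℝ ∞ ψ) (hc : HasCompactSupport ψ) (h0 : ∀ x, 0 ≤ ψ x) (h1 : ∀ x, ψ x ≤ 1) :
    ∫ x, ψ x * ‖G x‖ ≤ K :=
  le_of_tendsto' (pair_moll_tendsto hG hψ hc h0 h1)
    (fun n => hK _ (testField_moll hG hψ hc h0 h1 n))

/-- `∫_{ball 0 (2R)} ‖G‖ ≤ ∫ cutS 0 R * ‖G‖ ≤ K`. -/
theorem dual_ball {G : Plane → Plane} (hG : LocallyIntegrable G) {K : ℝ}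
    (hK : ∀ Φ, TestField Φ → pair G Φ ≤ K) {R : ℝ} (hR : 0 < R) :
    ∫ x in Metric.ball (0 : Plane) (2 * R), ‖G x‖ ≤ K := by
  refine le_trans ?_ (dual_cut hG hK (cutS_contDiff 0 R) (cutS_compact 0 hR) (cutS_nonneg 0 R)
    (cutS_le_one 0 R))
  have hint : Integrable (fun x => cutS 0 R x * ‖G x‖) := by
    have := loc_mul_cc (loc_norm_field hG) (cutS_contDiff 0 R).continuous (cutS_compact 0 hR)
    simpa [mul_comm] using this
  rw [← integral_indicator measurableSet_ball]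
  refine integral_mono_of_nonneg (Eventually.of_forall (fun x => ?_)) hint
    (Eventually.of_forall (fun x => ?_))
  · exact indicator_nonneg (fun _ _ => norm_nonneg _) x
  · by_cases hx : x ∈ Metric.ball (0 : Plane) (2 * R)
    · simp only [indicator_of_mem hx]
      rw [cutS_eq_one hR (Metric.ball_subset_closedBall hx), one_mul]
    · simp only [indicator_of_notMem hx]
      exact mul_nonneg (cutS_nonneg 0 R x) (norm_nonneg _)

/-- (Du) -/
theorem dual_bound {G : Plane → Plane} (hG : LocallyIntegrable G) {K : ℝ}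
    (hK : ∀ Φ, TestField Φ → pair G Φ ≤ K) : Integrable G ∧ ∫ x, ‖G x‖ ≤ K := by
  have hcov : AECover (volume : Measure Plane) atTop
      (fun n : ℕ => Metric.ball (0 : Plane) (2 * ((n : ℝ) + 1))) := by
    refine aecover_ball ?_
    exact Tendsto.const_mul_atTop (by norm_num)
      (tendsto_atTop_add_const_right _ _ tendsto_natCast_atTop_atTop)
  have hb : ∀ n : ℕ, ∫ x in Metric.ball (0 : Plane) (2 * ((n : ℝ) + 1)), ‖G x‖ ≤ K :=
    fun n => dual_ball hG hK (by positivity)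
  have hi : Integrable G := by
    refine hcov.integrable_of_integral_norm_bounded K (fun n => ?_) (Eventually.of_forall hb)
    exact (hG.integrableOn_isCompact (isCompact_closedBall 0 _)).mono_set
      Metric.ball_subset_closedBall
  refine ⟨hi, ?_⟩
  exact le_of_tendsto' (hcov.integral_tendsto_of_countably_generated hi.norm) hb

/-- uniform convergence ⟹ `∫ v_n ψ → ∫ v ψ` for `ψ` continuous with compact support
(`|∫ (v_n - v) ψ| ≤ ε ∫ |ψ|`; integrability by `loc_mul_cc`). -/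
theorem tendsto_integral_mul_of_unif {v : Plane → ℝ} {vn : ℕ → Plane → ℝ} (hv : LocallyIntegrable v)
    (hvn : ∀ n, LocallyIntegrable (vn n))
    (hunif : ∀ ε > 0, ∀ᶠ n in atTop, ∀ x, |vn n x - v x| ≤ ε) {ψ : Plane → ℝ}
    (hψ : Continuous ψ) (hc : HasCompactSupport ψ) :
    Tendsto (fun n => ∫ x, vn n x * ψ x) atTop (𝓝 (∫ x, v x * ψ x)) := by
  have hψi : Integrable ψ := hψ.integrable_of_hasCompactSupport hc
  set I : ℝ := ∫ x, |ψ x| with hI
  have hI0 : 0 ≤ I := integral_nonneg (fun x => abs_nonneg _)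
  rw [Metric.tendsto_atTop']
  intro ε hε
  have hδ : 0 < ε / (I + 1) / 2 := by positivity
  obtain ⟨N, hN⟩ := (eventually_atTop.1 (hunif _ hδ))
  refine ⟨N, fun n hn => ?_⟩
  have hn' := hN n hn.le
  rw [dist_eq_norm, ← integral_sub (loc_mul_cc (hvn n) hψ hc) (loc_mul_cc hv hψ hc)]
  have h1 : ‖∫ x, (vn n x * ψ x - v x * ψ x)‖ ≤ ∫ x, ε / (I + 1) / 2 * |ψ x| := by
    refine norm_integral_le_of_norm_le (hψi.abs.const_mul _) (Eventually.of_forall (fun x => ?_))
    rw [← sub_mul, Real.norm_eq_abs, abs_mul]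
    exact mul_le_mul_of_nonneg_right (hn' x) (abs_nonneg _)
  refine lt_of_le_of_lt h1 ?_
  rw [integral_const_mul, ← hI]
  have : ε / (I + 1) / 2 * I = ε * (I / (I + 1)) / 2 := by field_simp
  rw [this]
  have h2 : I / (I + 1) ≤ 1 := by rw [div_le_one (by positivity)]; linarith
  nlinarith

/-- (LSC) -/
theorem lsc_grad {v : Plane → ℝ} {G : Plane → Plane} {vn : ℕ → Plane → ℝ} {Gn : ℕ → Plane → Plane}
    {Kn : ℕ → ℝ} {K : ℝ} (hv : LocallyIntegrable v) (hG : LocallyIntegrable G) (hw : WGrad v G)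
    (hvn : ∀ n, LocallyIntegrable (vn n)) (hGn : ∀ n, Integrable (Gn n))
    (hwn : ∀ n, WGrad (vn n) (Gn n)) (hKn : ∀ n, ∫ x, ‖Gn n x‖ ≤ Kn n)
    (hK : Tendsto Kn atTop (𝓝 K))
    (hunif : ∀ ε > 0, ∀ᶠ n in atTop, ∀ x, |vn n x - v x| ≤ ε) :
    Integrable G ∧ ∫ x, ‖G x‖ ≤ K := by
  refine dual_bound hG (fun Φ hΦ => ?_)
  have h1 : Tendsto (fun n => pair (Gn n) Φ) atTop (𝓝 (pair G Φ)) := by
    rw [pair_eq_of_wgrad hG hw hΦ]
    have h2 : (fun n => pair (Gn n) Φ) =
        fun n => -∑ i, ∫ x, vn n x * fderiv ℝ (Φ i) x (eb i) := by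
      funext n; exact pair_eq_of_wgrad (hGn n).locallyIntegrable (hwn n) hΦ
    rw [h2]
    refine Tendsto.neg (tendsto_finsetSum _ (fun i _ => ?_))
    exact tendsto_integral_mul_of_unif hv hvn hunif (test_partial_cont (hΦ.smooth i) i)
      (test_partial_compact (hΦ.compact i) i)
  exact le_of_tendsto_of_tendsto' h1 hK (fun n => (pair_le_norm (hGn n) hΦ).trans (hKn n))

end

end Claimed.Agent.R030
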