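import Claimed.Agent.R030.WG

/-!
# Row 30, (Li): Lipschitz functions on the plane

Rademacher (`LipschitzWith.ae_differentiableAt`) and integration by parts (`LipschitzWith.integral_lineDeriv_mul_eq`) are in Mathlib
(`Mathlib/Analysis/Calculus/Rademacher.lean`).

* `lip_wgrad` : a Lipschitz `v` has weak gradient `gradient v`.  Take `f = v`, `g = φ` (Lipschitz: `ContDiff.lipschitzWith_of_hasCompactSupport`),
  direction `eb i`:  `∫ lineDeriv v x (eb i) * φ x = ∫ lineDeriv φ x (-(eb i)) * v x`.  `lineDeriv φ x (-e) = - fderiv φ x e`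
  (`DifferentiableAt.lineDeriv_eq_fderiv`), and a.e. `lineDeriv v x e = fderiv v x e = gradient v x i`.
* `ae_grad_eq_of_le` (P): `u ≤ w` Lipschitz.  At a point `x` of differentiability of both with `u x = w x`, `w - u` has a local minimum,
  `IsLocalMin.fderiv_eq_zero`, `fderiv_sub`.
-/

set_option autoImplicit false

open MeasureTheory Set Filter
open scoped ENNReal NNReal Topology ContDiff

namespace Claimed.Agent.R030

/-- `measurable_fderiv` composed with the continuous `(InnerProductSpace.toDual ℝ Plane).symm`. -/
theorem measurable_gradient (v : Plane → ℝ) : Measurable (gradient v) := by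
  unfold gradient
  exact (InnerProductSpace.toDual ℝ Plane).symm.continuous.measurable.comp (measurable_fderiv ℝ v)

/-- `norm_fderiv_le_of_lipschitz`. -/
theorem norm_gradient_le_of_lip {v : Plane → ℝ} {L : ℝ≥0} (hv : LipschitzWith L v) (x : Plane) :
    ‖gradient v x‖ ≤ L := by
  unfold gradient
  rw [LinearIsometryEquiv.norm_map]
  exact norm_fderiv_le_of_lipschitz ℝ hv

/-- bounded + measurable -/
theorem lip_gradient_loc {v : Plane → ℝ} {L : ℝ≥0} (hv : LipschitzWith L v) :
    LocallyIntegrable (gradient v) := by
  have hc : LocallyIntegrable (fun _ : Plane => (L : ℝ)) := locallyIntegrable_const _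
  refine hc.mono (measurable_gradient v).aestronglyMeasurable (Eventually.of_forall fun x => ?_)
  rw [Real.norm_of_nonneg L.coe_nonneg]
  exact norm_gradient_le_of_lip hv x

theorem lip_loc {v : Plane → ℝ} {L : ℝ≥0} (hv : LipschitzWith L v) : LocallyIntegrable v :=
  hv.continuous.locallyIntegrable

theorem lip_wgrad {v : Plane → ℝ} {L : ℝ≥0} (hv : LipschitzWith L v) : WGrad v (gradient v) := by
  intro φ hφ hc i
  obtain ⟨D, hD⟩ := ContDiff.lipschitzWith_of_hasCompactSupport hc hφ (by simp)
  have key := LipschitzWith.integral_lineDeriv_mul_eq (μ := (volume : Measure Plane)) hv hD hc (eb i)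
  have hdiff : Differentiable ℝ φ := hφ.differentiable (by simp)
  have h1 : (∫ x, lineDeriv ℝ φ x (-(eb i)) * v x) = -∫ x, v x * fderiv ℝ φ x (eb i) := by
    rw [← integral_neg]
    refine integral_congr_ae (Eventually.of_forall fun x => ?_)
    simp only
    rw [(hdiff x).lineDeriv_eq_fderiv, map_neg]
    ring
  have h2 : (∫ x, lineDeriv ℝ v x (eb i) * φ x) = ∫ x, gradient v x i * φ x := by
    refine integral_congr_ae ?_
    filter_upwards [hv.ae_differentiableAt (μ := (volume : Measure Plane))] with x hx
    rw [hx.lineDeriv_eq_fderiv, gradient_apply]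
  rw [h1, h2] at key
  linarith

/-- (P) -/
theorem ae_grad_eq_of_le {u w : Plane → ℝ} {L L' : ℝ≥0} (hu : LipschitzWith L u)
    (hw : LipschitzWith L' w) (hle : ∀ x, u x ≤ w x) :
    ∀ᵐ x, u x = w x → gradient u x = gradient w x := by
  filter_upwards [hu.ae_differentiableAt, hw.ae_differentiableAt] with x hux hwx heq
  have hmin : IsLocalMin (fun y => w y - u y) x := by
    refine Filter.Eventually.of_forall fun y => ?_
    show w x - u x ≤ w y - u y
    rw [heq, sub_self]
    exact sub_nonneg.2 (hle y)
  have h0 := hmin.fderiv_eq_zero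
  have h1 : fderiv ℝ (fun y => w y - u y) x = fderiv ℝ w x - fderiv ℝ u x := fderiv_fun_sub hwx hux
  rw [h1, sub_eq_zero] at h0
  unfold gradient
  rw [h0]

/-- locality + affine shift: if `v = c + ⟪p, · - z⟫ + w` on an open ball then a.e. on the ball `gradient v = p + gradient w`.
(`Filter.EventuallyEq.fderiv_eq` on the open ball; at points where `w` is differentiable use `fderiv_add`; the gradient of
`y ↦ c + ⟪p, y - z⟫` is `p`; compare components with `gradient_apply` or use `HasGradientAt`.) -/
theorem ae_grad_eq_affine_add {v w : Plane → ℝ} {L : ℝ≥0} (hw : LipschitzWith L w) {c : ℝ} {p z : Plane}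
    {d : ℝ} (h : ∀ x ∈ Metric.ball z d, v x = c + inner ℝ p (x - z) + w x) :
    ∀ᵐ x, x ∈ Metric.ball z d → gradient v x = p + gradient w x := by
  filter_upwards [hw.ae_differentiableAt] with x hwx hx
  have hev : v =ᶠ[𝓝 x] fun y => c + inner ℝ p (y - z) + w y := by
    filter_upwards [Metric.isOpen_ball.mem_nhds hx] with y hy using h y hy
  have hg1 : HasGradientAt (fun y : Plane => c + inner ℝ p (y - z)) p x := by
    rw [hasGradientAt_iff_hasFDerivAt]
    have h2 : HasFDerivAt (fun y : Plane => y - z) (ContinuousLinearMap.id ℝ Plane) x :=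
      (hasFDerivAt_id x).sub_const z
    have h3 := ((InnerProductSpace.toDual ℝ Plane p).hasFDerivAt (x := x - z)).comp x h2
    have h4 := h3.const_add c
    simpa using h4
  have hg2 : HasGradientAt w (gradient w x) x := hwx.hasGradientAt
  have hg3 : HasGradientAt (fun y => c + inner ℝ p (y - z) + w y) (p + gradient w x) x := by
    rw [hasGradientAt_iff_hasFDerivAt] at hg1 hg2 ⊢
    rw [map_add]
    exact hg1.add hg2
  have hg4 : HasGradientAt v (p + gradient w x) x := by
    rw [hasGradientAt_iff_hasFDerivAt] at hg3 ⊢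
    exact hg3.congr_of_eventuallyEq hev
  exact hg4.gradient

end Claimed.Agent.R030
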