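import Claimed.Agent.R030.Avg
import Claimed.Agent.R030.Dual
import Claimed.Agent.R030.Lip

/-!
# Row 30, (A1): the crux for `W^{1,1}` data, for dyadic bands and for tails

`band_grad_bound` : `H n → F` in `W^{1,1}` (`W11.exists_seq`), `band (H n) a b → band F a b` uniformly (`supI_close`), the crux gives weak
gradients `G n` with `∫‖G n‖ ≤ C ∫‖gradient (H n)‖ → C ∫‖g‖`; `band F a b` is Lipschitz, so `gradient (band F a b)` is a locally integrable weak
gradient (`lip_wgrad`); conclude by `lsc_grad`.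
`tail_grad_bound` : the same with `band F a (2^m a) → tail F a` uniformly (`tail_sub_band_le`).
-/

set_option autoImplicit false

open MeasureTheory Set Filter
open scoped ENNReal NNReal Topology ContDiff

namespace Claimed.Agent.R030

theorem band_lip {F : Plane → ℝ} {g : Plane → Plane} (hW : W11 F g) {a b : ℝ} (ha : 0 < a) (hab : a ≤ b) :
    LipschitzWith (Real.toNNReal ((∫ z, ‖g z‖) / (Real.pi * a ^ 2))) (band F a b) :=
  supI_lip hW ha Icc_subset_Ici_self (nonempty_Icc.2 hab)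

theorem tail_lip {F : Plane → ℝ} {g : Plane → Plane} (hW : W11 F g) {a : ℝ} (ha : 0 < a) :
    LipschitzWith (Real.toNNReal ((∫ z, ‖g z‖) / (Real.pi * a ^ 2))) (tail F a) :=
  supI_lip hW ha subset_rfl nonempty_Ici

theorem le_two_pow_mul {a : ℝ} (ha : 0 < a) (m : ℕ) : a ≤ (2 : ℝ) ^ m * a :=
  le_mul_of_one_le_left ha.le (one_le_pow₀ (by norm_num))

/-- uniform convergence of the bands of the approximants -/
theorem band_unif {F : Plane → ℝ} (hF : Integrable F) {H : ℕ → Plane → ℝ} (hH : ∀ n, Integrable (H n))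
    (hL : Tendsto (fun n => ∫ x, |H n x - F x|) atTop (𝓝 0)) {a b : ℝ} (ha : 0 < a) (hab : a ≤ b) :
    ∀ ε > 0, ∀ᶠ n in atTop, ∀ x, |band (H n) a b x - band F a b x| ≤ ε := by
  intro ε hε
  have hpos : 0 < Real.pi * a ^ 2 := by positivity
  have h1 : ∀ᶠ n in atTop, (∫ x, |H n x - F x|) < ε * (Real.pi * a ^ 2) :=
    (tendsto_order.1 hL).2 _ (by positivity)
  filter_upwards [h1] with n hn x
  refine (supI_close (hH n) hF ha Icc_subset_Ici_self (nonempty_Icc.2 hab) x).trans ?_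
  rw [div_le_iff₀ hpos]
  exact hn.le

theorem band_grad_bound {C : ℝ} (hC : CruxC C) {F : Plane → ℝ} {g : Plane → Plane} (hW : W11 F g)
    {a : ℝ} (ha : 0 < a) (m : ℕ) :
    Integrable (gradient (band F a ((2 : ℝ) ^ m * a))) ∧
      ∫ x, ‖gradient (band F a ((2 : ℝ) ^ m * a)) x‖ ≤ C * ∫ x, ‖g x‖ := by
  obtain ⟨H, hs, hc, hL, hLg⟩ := hW.exists_seq
  have hab := le_two_pow_mul ha m
  have hlip := band_lip hW ha hab
  choose hloc G hG using fun n => hC (H n) (hs n) (hc n) a ha m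
  have hHW := fun n => w11_of_smooth (hs n) (hc n)
  refine lsc_grad (vn := fun n => band (H n) a ((2 : ℝ) ^ m * a)) (Gn := G)
    (Kn := fun n => C * ∫ x, ‖gradient (H n) x‖) (lip_loc hlip) (lip_gradient_loc hlip)
    (lip_wgrad hlip) hloc (fun n => (hG n).1) (fun n => (hG n).2.1) (fun n => (hG n).2.2) ?_
    (band_unif hW.intF (fun n => (hHW n).intF) hL ha hab)
  exact (tendsto_norm_of_L1 (fun n => (hHW n).intg) hW.intg hLg).const_mul C

/-- `2 * (M / (π (2^m a)²)) → 0` -/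
theorem tail_unif {F : Plane → ℝ} (hF : Integrable F) {a : ℝ} (ha : 0 < a) :
    ∀ ε > 0, ∀ᶠ m : ℕ in atTop, ∀ x, |band F a ((2 : ℝ) ^ m * a) x - tail F a x| ≤ ε := by
  intro ε hε
  have h1 : Tendsto (fun m : ℕ => (2 : ℝ) ^ m * a) atTop atTop :=
    (tendsto_pow_atTop_atTop_of_one_lt (one_lt_two : (1 : ℝ) < 2)).atTop_mul_const ha
  have h2 : Tendsto (fun m : ℕ => Real.pi * ((2 : ℝ) ^ m * a) ^ 2) atTop atTop :=
    ((tendsto_pow_atTop (α := ℝ) (n := 2) two_ne_zero).comp h1).const_mul_atTop Real.pi_pos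
  have h3 : Tendsto (fun m : ℕ => 2 * ((∫ y, |F y|) / (Real.pi * ((2 : ℝ) ^ m * a) ^ 2))) atTop (𝓝 0) := by
    have := (h2.const_div_atTop (∫ y, |F y|)).const_mul 2
    rwa [mul_zero] at this
  filter_upwards [(tendsto_order.1 h3).2 ε hε] with m hm x
  exact (tail_sub_band_le hF ha (le_two_pow_mul ha m) x).trans hm.le

theorem tail_grad_bound {C : ℝ} (hC : CruxC C) {F : Plane → ℝ} {g : Plane → Plane} (hW : W11 F g)
    {a : ℝ} (ha : 0 < a) :
    Integrable (gradient (tail F a)) ∧ ∫ x, ‖gradient (tail F a) x‖ ≤ C * ∫ x, ‖g x‖ := by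
  have hlip := tail_lip hW ha
  have hl := fun m : ℕ => band_lip hW ha (le_two_pow_mul ha m)
  exact lsc_grad (vn := fun m : ℕ => band F a ((2 : ℝ) ^ m * a))
    (Gn := fun m : ℕ => gradient (band F a ((2 : ℝ) ^ m * a)))
    (Kn := fun _ => C * ∫ x, ‖g x‖) (lip_loc hlip) (lip_gradient_loc hlip)
    (lip_wgrad hlip) (fun m => lip_loc (hl m)) (fun m => (band_grad_bound hC hW ha m).1)
    (fun m => lip_wgrad (hl m)) (fun m => (band_grad_bound hC hW ha m).2) tendsto_const_nhds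
    (tail_unif hW.intF ha)

end Claimed.Agent.R030
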