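import Claimed.Agent.R030.A1

/-!
# Row 30, (A2): small radii.  `∫ ‖gradient (band F a (2^m a)) - g‖ ≤ ε` as soon as `2^m a ≤ d(ε)`

This is the step which uses the crux for SIGNED data, and which gives absolute continuity (`W^{1,1}_loc`, not only `BV`).

Fix `W11 F g`, `H` smooth with compact support, `E = ∫‖gradient H - g‖ ≤ e`, `0 < d ≤ 1`, a band `[a,b]`, `b = 2^m a ≤ d`; `T = band · a b`.
For a centre `z`:
  `lz z y = F z + ⟪gradient H z, y - z⟫` (affine in `y`; `F z` is just a number),
  `uz z y = cutS z d y * (F y - lz z y)`,  weak gradient `guz z y = cutS z d y • (g y - gradient H z) + (F y - lz z y) • gradient (cutS z d) y`.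
1. `uz_w11` : `W11 (uz z) (guz z)`  (`WGrad.sub`, `wgrad_affine`, `WGrad.mul_smooth`; integrable: bounded compactly supported factor times loc. integrable).
2. `guz_integral_le` : `∫‖guz z‖ ≤ ∫_{B(z,3d)} ‖g - gradient H z‖ + (cutC/d) ∫_{B(z,3d)} |F - lz z|`.
3. `band_local` : on `ball z d`, `T F = lz z + T (uz z)` (`band_affine_local`, `cutS_eq_one`).
4. `local_est` : a.e. on `ball z d`, `gradient (T F) = gradient H z + gradient (T (uz z))` (`ae_grad_eq_affine_add`), and
   `∫ ‖gradient (T (uz z))‖ ≤ C ∫‖guz z‖` (`band_grad_bound`).  So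
   `∫_{B(z,d)} ‖gradient (T F) - g‖ ≤ (C+1) ∫_{B(z,3d)} ‖g - gradient H z‖ + C (cutC/d) ∫_{B(z,3d)} |F - lz z|`.
5. `smooth_taylor` : `L` = Lipschitz constant of `gradient H`, `K = cthickening 3 (tsupport H)`; for `y ∈ ball z (3d)`:
   `‖gradient H y - gradient H z‖ ≤ 3 d L 1_K(z)`,  `|H y - H z - ⟪gradient H z, y - z⟫| ≤ L (3d)² 1_K(z)`.
6. `local_est2` : with `u = F - H`:  `‖g y - gradient H z‖ ≤ ‖g y - gradient H y‖ + 3dL 1_K(z)`, `|F y - lz z y| ≤ |u y - u z| + L(3d)² 1_K(z)`; so the left side of 4 is `≤ rhsZ z`.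
7. `rhsZ_integral` : integrate in `z`: `fub_ball_const` (for `‖g - gradient H‖`), `fub_ball` (for `u`, `c = 3 d E` by `W11.trans_est`), `∫ 1_K = V`.
8. `global_est` : `π d² ∫ ‖gradient (T F) - g‖ = ∫_z ∫_{B(z,d)} … ≤ ∫ rhsZ ≤ π (3d)² (C + 1 + 3 C cutC) (e + 3 d L V)`.
9. `small_band` : choose `e`, `H` (`W11.exists_smooth`), then `d`.
-/

set_option autoImplicit false

open MeasureTheory Set Filter
open scoped ENNReal NNReal Topology ContDiff

namespace Claimed.Agent.R030

noncomputable section

def lz (F H : Plane → ℝ) (z y : Plane) : ℝ := F z + inner ℝ (gradient H z) (y - z)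

def uz (F H : Plane → ℝ) (d : ℝ) (z y : Plane) : ℝ := cutS z d y * (F y - lz F H z y)

def guz (F H : Plane → ℝ) (g : Plane → Plane) (d : ℝ) (z y : Plane) : Plane :=
  cutS z d y • (g y - gradient H z) + (F y - lz F H z y) • gradient (cutS z d) y

/-- `wgrad_of_contDiff` + the gradient of an affine function is constant (`WGrad.congr_ae` or `funext`). -/
theorem wgrad_affine (c : ℝ) (p z : Plane) : WGrad (fun y => c + inner ℝ p (y - z)) (fun _ => p) := by
  have hs : ContDiff ℝ 1 (fun y : Plane => c + inner ℝ p (y - z)) :=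
    contDiff_const.add (contDiff_const.inner ℝ (contDiff_id.sub contDiff_const))
  have h1 := wgrad_of_contDiff hs
  have h2 : gradient (fun y : Plane => c + inner ℝ p (y - z)) = fun _ => p := by
    funext y
    have hd : HasFDerivAt (fun y : Plane => c + inner ℝ p (y - z)) (innerSL ℝ p) y := by
      have h3 : HasFDerivAt (fun y : Plane => y - z) (ContinuousLinearMap.id ℝ Plane) y :=
        (hasFDerivAt_id y).sub_const z
      have h4 := ((innerSL ℝ p).hasFDerivAt (x := y - z)).comp y h3
      simpa using h4.const_add c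
    have hg : HasGradientAt (fun y : Plane => c + inner ℝ p (y - z)) p y := by
      rw [hasGradientAt_iff_hasFDerivAt]
      exact hd
    exact hg.gradient
  rwa [h2] at h1

/-- the weak-gradient part of `uz_w11` -/
theorem uz_wgrad {F : Plane → ℝ} {g : Plane → Plane} (hW : W11 F g) (H : Plane → ℝ) (d : ℝ) (z : Plane) :
    WGrad (uz F H d z) (guz F H g d z) := by
  have ha := wgrad_affine (F z) (gradient H z) z
  have hcont : Continuous (fun y : Plane => F z + inner ℝ (gradient H z) (y - z)) := by fun_prop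
  have h1 := hW.wg.sub ha hW.intF.locallyIntegrable hcont.locallyIntegrable
    hW.intg.locallyIntegrable (locallyIntegrable_const _)
  exact WGrad.mul_smooth (hW.intF.locallyIntegrable.sub hcont.locallyIntegrable)
    (hW.intg.locallyIntegrable.sub (locallyIntegrable_const _)) h1 (cutS_contDiff z d)

theorem a2b_continuous_lz (F H : Plane → ℝ) (z : Plane) : Continuous (lz F H z) := by
  unfold lz
  fun_prop

theorem a2b_continuous_grad (z : Plane) (d : ℝ) : Continuous (gradient (cutS z d)) := by
  unfold gradient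
  exact (InnerProductSpace.toDual ℝ Plane).symm.continuous.comp
    ((cutS_contDiff z d).continuous_fderiv (by simp))

theorem a2b_compact_grad (z : Plane) {d : ℝ} (hd : 0 < d) :
    HasCompactSupport (gradient (cutS z d)) :=
  HasCompactSupport.intro (isCompact_closedBall z (3 * d))
    (fun _ hy => gradient_cutS_eq_zero hd (fun h => hy (Metric.ball_subset_closedBall h)))

theorem a2b_abs_cutS_le (z : Plane) (d : ℝ) (y : Plane) : |cutS z d y| ≤ 1 := by
  rw [abs_of_nonneg (cutS_nonneg z d y)]
  exact cutS_le_one z d y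

/-- the two integrability parts of `uz_w11` -/
theorem uz_integrable {F : Plane → ℝ} {g : Plane → Plane} (hW : W11 F g) (H : Plane → ℝ) {d : ℝ}
    (hd : 0 < d) (z : Plane) : Integrable (uz F H d z) ∧ Integrable (guz F H g d z) := by
  have hcc : Continuous (cutS z d) := (cutS_contDiff z d).continuous
  have hcl := a2b_continuous_lz F H z
  have hcg := a2b_continuous_grad z d
  constructor
  · have I1 : Integrable (fun y => cutS z d y * F y) := by
      refine Integrable.mono' hW.intF.norm
        (hcc.aestronglyMeasurable.mul hW.intF.aestronglyMeasurable) (Eventually.of_forall fun y => ?_)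
      rw [norm_mul, Real.norm_eq_abs]
      exact mul_le_of_le_one_left (norm_nonneg _) (a2b_abs_cutS_le z d y)
    have I2 : Integrable (fun y => cutS z d y * lz F H z y) :=
      (hcc.mul hcl).integrable_of_hasCompactSupport (cutS_compact z hd).mul_right
    have h1 : uz F H d z = fun y => cutS z d y * F y - cutS z d y * lz F H z y := by
      funext y
      simp only [uz]
      ring
    rw [h1]
    exact I1.sub I2
  · have I1 : Integrable (fun y => cutS z d y • g y) := by
      refine Integrable.mono' hW.intg.norm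
        (hcc.aestronglyMeasurable.smul hW.intg.aestronglyMeasurable) (Eventually.of_forall fun y => ?_)
      rw [norm_smul, Real.norm_eq_abs]
      exact mul_le_of_le_one_left (norm_nonneg _) (a2b_abs_cutS_le z d y)
    have I2 : Integrable (fun y => cutS z d y • gradient H z) :=
      (hcc.smul continuous_const).integrable_of_hasCompactSupport (cutS_compact z hd).smul_right
    have I3 : Integrable (fun y => F y • gradient (cutS z d) y) := by
      refine Integrable.mono' (hW.intF.norm.const_mul (cutC / d))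
        (hW.intF.aestronglyMeasurable.smul hcg.aestronglyMeasurable) (Eventually.of_forall fun y => ?_)
      rw [norm_smul, mul_comm]
      exact mul_le_mul_of_nonneg_right (norm_gradient_cutS_le z hd y) (norm_nonneg _)
    have I4 : Integrable (fun y => lz F H z y • gradient (cutS z d) y) :=
      (hcl.smul hcg).integrable_of_hasCompactSupport (a2b_compact_grad z hd).smul_left
    have h1 : guz F H g d z = fun y => (cutS z d y • g y - cutS z d y • gradient H z)
        + (F y • gradient (cutS z d) y - lz F H z y • gradient (cutS z d) y) := by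
      funext y
      simp only [guz, smul_sub, sub_smul]
    rw [h1]
    exact (I1.sub I2).add (I3.sub I4)

theorem uz_w11 {F : Plane → ℝ} {g : Plane → Plane} (hW : W11 F g) (H : Plane → ℝ) {d : ℝ}
    (hd : 0 < d) (z : Plane) : W11 (uz F H d z) (guz F H g d z) :=
  ⟨(uz_integrable hW H hd z).1, (uz_integrable hW H hd z).2, uz_wgrad hW H d z⟩

theorem guz_norm_le_aux (F H : Plane → ℝ) (g : Plane → Plane) {d : ℝ} (hd : 0 < d) (z y : Plane) :
    ‖guz F H g d z y‖ ≤ (Metric.ball z (3 * d)).indicator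
      (fun y => ‖g y - gradient H z‖ + cutC / d * |F y - lz F H z y|) y := by
  by_cases hy : y ∈ Metric.ball z (3 * d)
  · rw [indicator_of_mem hy]
    unfold guz
    refine (norm_add_le _ _).trans (add_le_add ?_ ?_)
    · rw [norm_smul, Real.norm_eq_abs, abs_of_nonneg (cutS_nonneg z d y)]
      exact mul_le_of_le_one_left (norm_nonneg _) (cutS_le_one z d y)
    · rw [norm_smul, Real.norm_eq_abs, mul_comm]
      exact mul_le_mul_of_nonneg_right (norm_gradient_cutS_le z hd y) (abs_nonneg _)
  · rw [indicator_of_notMem hy]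
    unfold guz
    rw [cutS_eq_zero hd hy, gradient_cutS_eq_zero hd hy]
    simp

theorem guz_integral_le {F : Plane → ℝ} {g : Plane → Plane} (hW : W11 F g) (H : Plane → ℝ) {d : ℝ}
    (hd : 0 < d) (z : Plane) :
    ∫ y, ‖guz F H g d z y‖ ≤ (∫ y in Metric.ball z (3 * d), ‖g y - gradient H z‖) +
      cutC / d * ∫ y in Metric.ball z (3 * d), |F y - lz F H z y| := by
  have hfin : IsFiniteMeasure (volume.restrict (Metric.ball z (3 * d))) :=
    ⟨by rw [Measure.restrict_apply_univ]; exact measure_ball_lt_top⟩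
  have h1 : IntegrableOn (fun y => ‖g y - gradient H z‖) (Metric.ball z (3 * d)) :=
    ((hW.intg.integrableOn).sub (integrable_const _)).norm
  have hlz : IntegrableOn (fun y => lz F H z y) (Metric.ball z (3 * d)) := by
    have hc : Continuous (fun y => lz F H z y) := by
      unfold lz
      fun_prop
    exact (hc.continuousOn.integrableOn_compact (isCompact_closedBall z (3 * d))).mono_set
      Metric.ball_subset_closedBall
  have h2 : IntegrableOn (fun y => |F y - lz F H z y|) (Metric.ball z (3 * d)) :=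
    ((hW.intF.integrableOn).sub hlz).abs
  have h3 : IntegrableOn (fun y => ‖g y - gradient H z‖ + cutC / d * |F y - lz F H z y|)
      (Metric.ball z (3 * d)) := h1.add (h2.const_mul _)
  calc ∫ y, ‖guz F H g d z y‖
      ≤ ∫ y, (Metric.ball z (3 * d)).indicator
        (fun y => ‖g y - gradient H z‖ + cutC / d * |F y - lz F H z y|) y := by
        refine integral_mono_of_nonneg (Eventually.of_forall fun y => norm_nonneg _)
          (h3.integrable_indicator Metric.isOpen_ball.measurableSet)
          (Eventually.of_forall fun y => guz_norm_le_aux F H g hd z y)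
    _ = ∫ y in Metric.ball z (3 * d), (‖g y - gradient H z‖ + cutC / d * |F y - lz F H z y|) :=
        integral_indicator Metric.isOpen_ball.measurableSet
    _ = _ := by
        rw [integral_add h1 (h2.const_mul _), integral_const_mul]

theorem band_local {F : Plane → ℝ} {g : Plane → Plane} (hW : W11 F g) (H : Plane → ℝ) {d a b : ℝ}
    (hd : 0 < d) (ha : 0 < a) (hab : a ≤ b) (hbd : b ≤ d) (z : Plane) :
    ∀ x ∈ Metric.ball z d,
      band F a b x = F z + inner ℝ (gradient H z) (x - z) + band (uz F H d z) a b x := by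
  refine band_affine_local (uz_integrable hW H hd z).1 ha hab hbd (fun y hy => ?_)
  have h1 : cutS z d y = 1 := cutS_eq_one hd (Metric.ball_subset_closedBall hy)
  simp only [uz, lz, h1]
  ring

theorem local_est {C : ℝ} (h0 : 0 ≤ C) (hC : CruxC C) {F : Plane → ℝ} {g : Plane → Plane}
    (hW : W11 F g) (H : Plane → ℝ) {d a : ℝ} (hd : 0 < d) (ha : 0 < a) (m : ℕ)
    (hb : (2 : ℝ) ^ m * a ≤ d) (z : Plane) :
    ∫ x in Metric.ball z d, ‖gradient (band F a ((2 : ℝ) ^ m * a)) x - g x‖ ≤
      (C + 1) * (∫ y in Metric.ball z (3 * d), ‖g y - gradient H z‖) +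
        C * (cutC / d) * ∫ y in Metric.ball z (3 * d), |F y - lz F H z y| := by
  have hab : a ≤ (2 : ℝ) ^ m * a := le_two_pow_mul ha m
  have hU := uz_w11 hW H hd z
  have hloc := band_local hW H hd ha hab hb z
  have hlip := band_lip hU ha hab
  have hae := ae_grad_eq_affine_add hlip hloc
  have hgb := band_grad_bound hC hU ha m
  have hgu := guz_integral_le hW H hd z
  have hi1 : Integrable (fun x => ‖gradient (band (uz F H d z) a ((2 : ℝ) ^ m * a)) x‖) :=
    hgb.1.norm
  have hi2 : IntegrableOn (fun y => ‖g y - gradient H z‖) (Metric.ball z (3 * d)) :=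
    ((hW.intg.integrableOn).sub (integrableOn_const measure_ball_lt_top.ne)).norm
  have hsub : Metric.ball z d ⊆ Metric.ball z (3 * d) := Metric.ball_subset_ball (by linarith)
  have h1 : ∫ x in Metric.ball z d, ‖gradient (band F a ((2 : ℝ) ^ m * a)) x - g x‖ ≤
      ∫ x in Metric.ball z d,
        (‖gradient (band (uz F H d z) a ((2 : ℝ) ^ m * a)) x‖ + ‖g x - gradient H z‖) := by
    apply integral_mono_of_nonneg
    · exact Eventually.of_forall (fun _ => norm_nonneg _)
    · exact hi1.integrableOn.add (hi2.mono_set hsub)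
    · rw [EventuallyLE, ae_restrict_iff' measurableSet_ball]
      filter_upwards [hae] with x hx hxm
      rw [hx hxm]
      calc ‖gradient H z + gradient (band (uz F H d z) a ((2 : ℝ) ^ m * a)) x - g x‖
          = ‖gradient (band (uz F H d z) a ((2 : ℝ) ^ m * a)) x - (g x - gradient H z)‖ := by
            congr 1; abel
        _ ≤ _ := norm_sub_le _ _
  have h2 : ∫ x in Metric.ball z d,
        (‖gradient (band (uz F H d z) a ((2 : ℝ) ^ m * a)) x‖ + ‖g x - gradient H z‖) =
      (∫ x in Metric.ball z d, ‖gradient (band (uz F H d z) a ((2 : ℝ) ^ m * a)) x‖) +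
        ∫ x in Metric.ball z d, ‖g x - gradient H z‖ :=
    integral_add hi1.integrableOn (hi2.mono_set hsub)
  have h3 : ∫ x in Metric.ball z d, ‖gradient (band (uz F H d z) a ((2 : ℝ) ^ m * a)) x‖ ≤
      ∫ x, ‖gradient (band (uz F H d z) a ((2 : ℝ) ^ m * a)) x‖ :=
    setIntegral_le_integral hi1 (Eventually.of_forall (fun _ => norm_nonneg _))
  have h4 : ∫ x in Metric.ball z d, ‖g x - gradient H z‖ ≤
      ∫ x in Metric.ball z (3 * d), ‖g x - gradient H z‖ :=
    setIntegral_mono_set hi2 (Eventually.of_forall (fun _ => norm_nonneg _)) hsub.eventuallyLE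
  have h5 : C * ∫ y, ‖guz F H g d z y‖ ≤ C * ((∫ y in Metric.ball z (3 * d), ‖g y - gradient H z‖) +
      cutC / d * ∫ y in Metric.ball z (3 * d), |F y - lz F H z y|) :=
    mul_le_mul_of_nonneg_left hgu h0
  have h6 := hgb.2
  rw [h2] at h1
  calc _ ≤ _ := h1
    _ ≤ C * ((∫ y in Metric.ball z (3 * d), ‖g y - gradient H z‖) +
      cutC / d * ∫ y in Metric.ball z (3 * d), |F y - lz F H z y|) +
        ∫ x in Metric.ball z (3 * d), ‖g x - gradient H z‖ := by linarith
    _ = _ := by ring

/-- `gradient H` is Lipschitz (`ContDiff.lipschitzWith_of_hasCompactSupport` for `fderiv ℝ H`, or for `gradient H`); mean value inequality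
`Convex.norm_image_sub_le_of_norm_fderiv_le` on the ball for `y ↦ H y - ⟪gradient H z, y⟫`; if `z ∉ K = cthickening 3 (tsupport H)` then
`z` and every `y ∈ ball z (3d)`, `d ≤ 1`, lie outside `tsupport H`, where `H` and `gradient H` vanish. -/
theorem smooth_taylor {H : Plane → ℝ} (hH : ContDiff ℝ ∞ H) (hc : HasCompactSupport H) :
    ∃ L : ℝ, 0 ≤ L ∧ ∃ K : Set Plane, IsCompact K ∧ ∀ d : ℝ, 0 < d → d ≤ 1 → ∀ z y : Plane,
      y ∈ Metric.ball z (3 * d) →
      ‖gradient H y - gradient H z‖ ≤ 3 * d * L * K.indicator (fun _ => (1 : ℝ)) z ∧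
      |H y - H z - inner ℝ (gradient H z) (y - z)| ≤ L * (3 * d) ^ 2 * K.indicator (fun _ => (1 : ℝ)) z := by
  have hd1 : ContDiff ℝ 1 (fderiv ℝ H) := hH.fderiv_right (m := 1) (by norm_cast)
  obtain ⟨L, hL⟩ := hd1.lipschitzWith_of_hasCompactSupport (hc.fderiv (𝕜 := ℝ)) (by simp)
  have hgn : ∀ y z : Plane, ‖gradient H y - gradient H z‖ = ‖fderiv ℝ H y - fderiv ℝ H z‖ := by
    intro y z
    unfold gradient
    rw [← map_sub, LinearIsometryEquiv.norm_map]
  have hdiff : Differentiable ℝ H := hH.differentiable (by simp)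
  refine ⟨L, L.2, Metric.cthickening 3 (tsupport H), hc.isCompact.cthickening, ?_⟩
  intro d hd hd1' z y hy
  rw [Metric.mem_ball] at hy
  by_cases hz : z ∈ Metric.cthickening 3 (tsupport H)
  · rw [indicator_of_mem hz, mul_one, mul_one]
    have hLip : ∀ w : Plane, ‖fderiv ℝ H w - fderiv ℝ H z‖ ≤ L * dist w z := by
      intro w
      rw [← dist_eq_norm]
      exact hL.dist_le_mul w z
    constructor
    · rw [hgn]
      refine (hLip y).trans ?_
      have : (L : ℝ) * dist y z ≤ L * (3 * d) := mul_le_mul_of_nonneg_left hy.le L.2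
      linarith
    · have hmv := (convex_ball z (3 * d)).norm_image_sub_le_of_norm_hasFDerivWithin_le
        (f := fun w => H w - fderiv ℝ H z w) (f' := fun w => fderiv ℝ H w - fderiv ℝ H z)
        (C := L * (3 * d)) (x := z) (y := y)
        (fun w _ => ((hdiff w).hasFDerivAt.sub (fderiv ℝ H z).hasFDerivAt).hasFDerivWithinAt)
        (fun w hw => (hLip w).trans (mul_le_mul_of_nonneg_left (Metric.mem_ball.1 hw).le L.2))
        (Metric.mem_ball_self (by positivity)) (Metric.mem_ball.2 hy)
      rw [inner_gradient_left, map_sub, ← Real.norm_eq_abs]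
      have e : H y - H z - (fderiv ℝ H z y - fderiv ℝ H z z) =
          H y - fderiv ℝ H z y - (H z - fderiv ℝ H z z) := by ring
      rw [e]
      refine hmv.trans ?_
      rw [← dist_eq_norm]
      have : (L : ℝ) * (3 * d) * dist y z ≤ L * (3 * d) * (3 * d) :=
        mul_le_mul_of_nonneg_left hy.le (mul_nonneg L.2 (by positivity))
      nlinarith
  · rw [indicator_of_notMem hz, mul_zero, mul_zero]
    have hzs : z ∉ tsupport H := fun h => hz (Metric.self_subset_cthickening _ h)
    have hys : y ∉ tsupport H := by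
      intro h
      apply hz
      apply Metric.mem_cthickening_of_dist_le z y 3 _ h
      rw [dist_comm]
      linarith
    have f0 : ∀ w, w ∉ tsupport H → fderiv ℝ H w = 0 := fun w hw =>
      image_eq_zero_of_notMem_tsupport (fun h => hw (tsupport_fderiv_subset ℝ h))
    have g0 : ∀ w, w ∉ tsupport H → gradient H w = 0 := by
      intro w hw
      unfold gradient
      rw [f0 w hw, map_zero]
    rw [g0 y hys, g0 z hzs, image_eq_zero_of_notMem_tsupport hys,
      image_eq_zero_of_notMem_tsupport hzs]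
    simp

/-- the majorant, as a function of the centre `z` -/
def rhsZ (C L d : ℝ) (K : Set Plane) (F H : Plane → ℝ) (g : Plane → Plane) (z : Plane) : ℝ :=
  (C + 1) * ((∫ y in Metric.ball z (3 * d), ‖g y - gradient H y‖) +
      Real.pi * (3 * d) ^ 2 * (3 * d * L * K.indicator (fun _ => (1 : ℝ)) z)) +
    C * (cutC / d) * ((∫ y in Metric.ball z (3 * d), ‖(F y - H y) - (F z - H z)‖) +
      Real.pi * (3 * d) ^ 2 * (L * (3 * d) ^ 2 * K.indicator (fun _ => (1 : ℝ)) z))

/-- from `local_est` and the two pointwise bounds `hT` (integrate over `ball z (3d)`, volume `π (3d)²`: `vol_ball_real`;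
all integrands are integrable on the ball: `g`, `F` integrable, `H`, `gradient H` continuous). -/
theorem local_est2 {C : ℝ} (h0 : 0 ≤ C) (hC : CruxC C) {F : Plane → ℝ} {g : Plane → Plane}
    (hW : W11 F g) {H : Plane → ℝ} (hH : ContDiff ℝ ∞ H) {L : ℝ} {K : Set Plane} {d a : ℝ}
    (hd : 0 < d) (ha : 0 < a) (m : ℕ) (hb : (2 : ℝ) ^ m * a ≤ d) (z : Plane)
    (hT : ∀ y ∈ Metric.ball z (3 * d),
      ‖gradient H y - gradient H z‖ ≤ 3 * d * L * K.indicator (fun _ => (1 : ℝ)) z ∧
      |H y - H z - inner ℝ (gradient H z) (y - z)| ≤ L * (3 * d) ^ 2 * K.indicator (fun _ => (1 : ℝ)) z) :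
    ∫ x in Metric.ball z d, ‖gradient (band F a ((2 : ℝ) ^ m * a)) x - g x‖ ≤ rhsZ C L d K F H g z := by
  have hcg : Continuous (gradient H) := by
    have h1 : Continuous (fderiv ℝ H) := hH.continuous_fderiv (by simp)
    exact (InnerProductSpace.toDual ℝ Plane).symm.continuous.comp h1
  have hcH : Continuous H := hH.continuous
  obtain ⟨B, hB⟩ : ∃ B : Set Plane, B = Metric.ball z (3 * d) := ⟨_, rfl⟩
  have hBm : MeasurableSet B := by rw [hB]; exact measurableSet_ball
  have hvol : volume.real B = Real.pi * (3 * d) ^ 2 := by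
    rw [hB]; exact vol_ball_real z (by positivity)
  have hBfin : volume B ≠ ⊤ := by rw [hB]; exact measure_ball_lt_top.ne
  have igB : IntegrableOn g B := hW.intg.integrableOn
  have iFB : IntegrableOn F B := hW.intF.integrableOn
  have iGB : IntegrableOn (gradient H) B := by
    rw [hB]
    exact (hcg.locallyIntegrable.integrableOn_isCompact (isCompact_closedBall z (3 * d))).mono_set
      Metric.ball_subset_closedBall
  have iHB : IntegrableOn H B := by
    rw [hB]; exact loc_integrableOn_ball hcH.locallyIntegrable z (3 * d)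
  have hcl : Continuous (lz F H z) :=
    continuous_const.add (continuous_const.inner (continuous_id.sub continuous_const))
  have ilB : IntegrableOn (lz F H z) B := by
    rw [hB]; exact loc_integrableOn_ball hcl.locallyIntegrable z (3 * d)
  have iconst : ∀ c : ℝ, IntegrableOn (fun _ : Plane => c) B := fun c => integrableOn_const hBfin
  have iconstP : ∀ c : Plane, IntegrableOn (fun _ : Plane => c) B := fun c => integrableOn_const hBfin
  obtain ⟨c1, hc1⟩ : ∃ c1 : ℝ, c1 = 3 * d * L * K.indicator (fun _ => (1 : ℝ)) z := ⟨_, rfl⟩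
  obtain ⟨c2, hc2⟩ : ∃ c2 : ℝ, c2 = L * (3 * d) ^ 2 * K.indicator (fun _ => (1 : ℝ)) z := ⟨_, rfl⟩
  have h := local_est h0 hC hW H hd ha m hb z
  unfold rhsZ
  rw [← hB] at h
  rw [← hB, ← hc1, ← hc2]
  have hT' : ∀ y ∈ B, ‖gradient H y - gradient H z‖ ≤ c1 ∧
      |H y - H z - inner ℝ (gradient H z) (y - z)| ≤ c2 := by
    rw [hB, hc1, hc2]; exact hT
  have e1 : ∫ y in B, ‖g y - gradient H z‖ ≤
      (∫ y in B, ‖g y - gradient H y‖) + Real.pi * (3 * d) ^ 2 * c1 := by
    have i0 : IntegrableOn (fun y => ‖g y - gradient H y‖) B := (igB.sub iGB).norm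
    have h1 : ∫ y in B, ‖g y - gradient H z‖ ≤ ∫ y in B, (‖g y - gradient H y‖ + c1) := by
      refine setIntegral_mono_on (igB.sub (iconstP _)).norm (i0.add (iconst c1)) hBm ?_
      intro y hy
      have h2 := (hT' y hy).1
      calc ‖g y - gradient H z‖ = ‖(g y - gradient H y) + (gradient H y - gradient H z)‖ := by
            congr 1; abel
        _ ≤ ‖g y - gradient H y‖ + ‖gradient H y - gradient H z‖ := norm_add_le _ _
        _ ≤ ‖g y - gradient H y‖ + c1 := by linarith
    rw [integral_add i0 (iconst c1), setIntegral_const, hvol, smul_eq_mul] at h1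
    exact h1
  have e2 : ∫ y in B, |F y - lz F H z y| ≤
      (∫ y in B, ‖(F y - H y) - (F z - H z)‖) + Real.pi * (3 * d) ^ 2 * c2 := by
    have i1 : IntegrableOn (fun y => ‖(F y - H y) - (F z - H z)‖) B :=
      ((iFB.sub iHB).sub (iconst _)).norm
    have h1 : ∫ y in B, |F y - lz F H z y| ≤ ∫ y in B, (‖(F y - H y) - (F z - H z)‖ + c2) := by
      refine setIntegral_mono_on (iFB.sub ilB).abs (i1.add (iconst c2)) hBm ?_
      intro y hy
      have h2 := (hT' y hy).2
      have h3 : F y - lz F H z y =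
          ((F y - H y) - (F z - H z)) + (H y - H z - inner ℝ (gradient H z) (y - z)) := by
        unfold lz; ring
      rw [h3, Real.norm_eq_abs]
      exact (abs_add_le _ _).trans (by linarith)
    rw [integral_add i1 (iconst c2), setIntegral_const, hvol, smul_eq_mul] at h1
    exact h1
  have hcc : 0 ≤ C * (cutC / d) := mul_nonneg h0 (div_nonneg cutC_nonneg hd.le)
  exact h.trans (add_le_add (mul_le_mul_of_nonneg_left e1 (by linarith))
    (mul_le_mul_of_nonneg_left e2 hcc))

theorem rhsZ_integral {C : ℝ} (h0 : 0 ≤ C) {F : Plane → ℝ} {g : Plane → Plane}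
    (hW : W11 F g) {H : Plane → ℝ} (hH : ContDiff ℝ ∞ H) (hc : HasCompactSupport H) {e : ℝ}
    (he : ∫ x, ‖gradient H x - g x‖ ≤ e) {L : ℝ} (hL : 0 ≤ L) {K : Set Plane} (hK : IsCompact K) {d : ℝ}
    (hd : 0 < d) :
    Integrable (rhsZ C L d K F H g) ∧
      ∫ z, rhsZ C L d K F H g z ≤
        Real.pi * (3 * d) ^ 2 * ((C + 1 + 3 * C * cutC) * (e + 3 * d * L * volume.real K)) := by
  have hR : 0 < 3 * d := by positivity
  have hWH : W11 H (gradient H) := w11_of_smooth hH hc
  have hWu : W11 (fun x => F x - H x) (fun x => g x - gradient H x) := hW.sub hWH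
  have hE'e : ∫ y, ‖g y - gradient H y‖ ≤ e := by
    calc ∫ y, ‖g y - gradient H y‖ = ∫ x, ‖gradient H x - g x‖ := by
          congr 1; funext x; exact norm_sub_rev _ _
      _ ≤ e := he
  have hE'0 : 0 ≤ ∫ y, ‖g y - gradient H y‖ := integral_nonneg (fun _ => norm_nonneg _)
  obtain ⟨i1, e1⟩ := fub_ball_const hR (fun y => ‖g y - gradient H y‖) hWu.intg.norm
  obtain ⟨i2, e2⟩ := fub_ball hR (3 * d * ∫ y, ‖g y - gradient H y‖) (fun x => F x - H x) hWu.intF (by
    intro t ht
    have := hWu.trans_est t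
    simp only [Real.norm_eq_abs]
    exact this.trans (mul_le_mul_of_nonneg_right ht hE'0))
  have i3 : Integrable (K.indicator (fun _ => (1 : ℝ))) :=
    (integrable_indicator_iff hK.measurableSet).2 (integrableOn_const hK.measure_lt_top.ne)
  have e3 : ∫ z, K.indicator (fun _ => (1 : ℝ)) z = volume.real K := by
    rw [integral_indicator_const _ hK.measurableSet]; simp
  have j1 : Integrable (fun z => Real.pi * (3 * d) ^ 2 * (3 * d * L * K.indicator (fun _ => (1 : ℝ)) z)) :=
    (i3.const_mul (3 * d * L)).const_mul _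
  have j2 : Integrable (fun z => Real.pi * (3 * d) ^ 2 * (L * (3 * d) ^ 2 * K.indicator (fun _ => (1 : ℝ)) z)) :=
    (i3.const_mul (L * (3 * d) ^ 2)).const_mul _
  have l1 : Integrable (fun z => (∫ y in Metric.ball z (3 * d), ‖g y - gradient H y‖) +
      Real.pi * (3 * d) ^ 2 * (3 * d * L * K.indicator (fun _ => (1 : ℝ)) z)) := i1.add j1
  have l2 : Integrable (fun z => (∫ y in Metric.ball z (3 * d), ‖(F y - H y) - (F z - H z)‖) +
      Real.pi * (3 * d) ^ 2 * (L * (3 * d) ^ 2 * K.indicator (fun _ => (1 : ℝ)) z)) := i2.add j2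
  have k1 := l1.const_mul (C + 1)
  have k2 := l2.const_mul (C * (cutC / d))
  refine ⟨k1.add k2, ?_⟩
  have hval : ∫ z, rhsZ C L d K F H g z =
      (C + 1) * (Real.pi * (3 * d) ^ 2 * (∫ y, ‖g y - gradient H y‖) +
        Real.pi * (3 * d) ^ 2 * (3 * d * L * volume.real K)) +
      C * (cutC / d) * ((∫ z, ∫ y in Metric.ball z (3 * d), ‖(F y - H y) - (F z - H z)‖) +
        Real.pi * (3 * d) ^ 2 * (L * (3 * d) ^ 2 * volume.real K)) := by
    unfold rhsZ
    rw [integral_add k1 k2, integral_const_mul, integral_const_mul, integral_add i1 j1, integral_add i2 j2,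
      e1, integral_const_mul, integral_const_mul, integral_const_mul, integral_const_mul, e3]
  rw [hval]
  have hV : 0 ≤ volume.real K := measureReal_nonneg
  have hcc : 0 ≤ C * (cutC / d) := mul_nonneg h0 (div_nonneg cutC_nonneg hd.le)
  have hcut := cutC_nonneg
  have s1 : C * (cutC / d) * ((∫ z, ∫ y in Metric.ball z (3 * d), ‖(F y - H y) - (F z - H z)‖) +
        Real.pi * (3 * d) ^ 2 * (L * (3 * d) ^ 2 * volume.real K)) ≤
      C * (cutC / d) * (3 * d * (∫ y, ‖g y - gradient H y‖) * (Real.pi * (3 * d) ^ 2) +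
        Real.pi * (3 * d) ^ 2 * (L * (3 * d) ^ 2 * volume.real K)) :=
    mul_le_mul_of_nonneg_left (by linarith [e2]) hcc
  have s2 : C * (cutC / d) * (3 * d * (∫ y, ‖g y - gradient H y‖) * (Real.pi * (3 * d) ^ 2) +
        Real.pi * (3 * d) ^ 2 * (L * (3 * d) ^ 2 * volume.real K)) =
      Real.pi * (3 * d) ^ 2 * (3 * C * cutC * ((∫ y, ‖g y - gradient H y‖) + 3 * d * L * volume.real K)) := by
    field_simp
  have s3 : Real.pi * (3 * d) ^ 2 * ((C + 1 + 3 * C * cutC) * ((∫ y, ‖g y - gradient H y‖) + 3 * d * L * volume.real K)) ≤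
      Real.pi * (3 * d) ^ 2 * ((C + 1 + 3 * C * cutC) * (e + 3 * d * L * volume.real K)) := by
    apply mul_le_mul_of_nonneg_left _ (by positivity)
    apply mul_le_mul_of_nonneg_left _ (by positivity)
    linarith
  rw [s2] at s1
  refine le_trans ?_ s3
  calc _ ≤ (C + 1) * (Real.pi * (3 * d) ^ 2 * (∫ y, ‖g y - gradient H y‖) +
        Real.pi * (3 * d) ^ 2 * (3 * d * L * volume.real K)) +
        Real.pi * (3 * d) ^ 2 * (3 * C * cutC * ((∫ y, ‖g y - gradient H y‖) + 3 * d * L * volume.real K)) := by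
          linarith [s1]
    _ = _ := by ring

theorem global_est {C : ℝ} (h0 : 0 ≤ C) (hC : CruxC C) {F : Plane → ℝ} {g : Plane → Plane}
    (hW : W11 F g) {H : Plane → ℝ} (hH : ContDiff ℝ ∞ H) (hc : HasCompactSupport H) {e : ℝ}
    (he : ∫ x, ‖gradient H x - g x‖ ≤ e) {L : ℝ} (hL : 0 ≤ L) {K : Set Plane} (hK : IsCompact K)
    {d a : ℝ} (hd : 0 < d) (ha : 0 < a) (m : ℕ) (hb : (2 : ℝ) ^ m * a ≤ d)
    (hT : ∀ z y : Plane, y ∈ Metric.ball z (3 * d) →
      ‖gradient H y - gradient H z‖ ≤ 3 * d * L * K.indicator (fun _ => (1 : ℝ)) z ∧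
      |H y - H z - inner ℝ (gradient H z) (y - z)| ≤ L * (3 * d) ^ 2 * K.indicator (fun _ => (1 : ℝ)) z) :
    ∫ x, ‖gradient (band F a ((2 : ℝ) ^ m * a)) x - g x‖ ≤
      9 * ((C + 1 + 3 * C * cutC) * (e + 3 * d * L * volume.real K)) := by
  have hint : Integrable (fun x => ‖gradient (band F a ((2 : ℝ) ^ m * a)) x - g x‖) :=
    ((band_grad_bound hC hW ha m).1.sub hW.intg).norm
  have h1 := fub_ball_const hd _ hint
  have h2 := rhsZ_integral h0 hW hH hc he hL hK hd
  have h3 : ∫ z, ∫ x in Metric.ball z d, ‖gradient (band F a ((2 : ℝ) ^ m * a)) x - g x‖ ≤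
      ∫ z, rhsZ C L d K F H g z :=
    integral_mono h1.1 h2.1 (fun z => local_est2 h0 hC hW hH hd ha m hb z (hT z))
  rw [h1.2] at h3
  have h4 := h3.trans h2.2
  have hpos : 0 < Real.pi * d ^ 2 := by positivity
  have h5 : Real.pi * (3 * d) ^ 2 * ((C + 1 + 3 * C * cutC) * (e + 3 * d * L * volume.real K)) =
      Real.pi * d ^ 2 * (9 * ((C + 1 + 3 * C * cutC) * (e + 3 * d * L * volume.real K))) := by ring
  rw [h5] at h4
  exact le_of_mul_le_mul_left h4 hpos

/-- (A2).  `M = 9 (C + 1 + 3 C cutC) > 0`; `e = ε/(2M)`; `H` from `W11.exists_smooth`; `L, K` from `smooth_taylor`, `V = volume.real K`;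
`d = min 1 (ε / (2 M (3 L V + 1)))`; then `M (e + 3 d L V) ≤ ε`.  Apply `global_est`. -/
theorem small_band {C : ℝ} (h0 : 0 ≤ C) (hC : CruxC C) {F : Plane → ℝ} {g : Plane → Plane}
    (hW : W11 F g) {ε : ℝ} (hε : 0 < ε) :
    ∃ d : ℝ, 0 < d ∧ ∀ a : ℝ, 0 < a → ∀ m : ℕ, (2 : ℝ) ^ m * a ≤ d →
      ∫ x, ‖gradient (band F a ((2 : ℝ) ^ m * a)) x - g x‖ ≤ ε := by
  have hcut := cutC_nonneg
  have hA : 0 < C + 1 + 3 * C * cutC := by positivity
  set A : ℝ := C + 1 + 3 * C * cutC with hAdef
  have he0 : 0 < ε / (18 * A) := by positivity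
  obtain ⟨H, hH, hHc, _, he⟩ := hW.exists_smooth he0
  obtain ⟨L, hL, K, hK, hT⟩ := smooth_taylor hH hHc
  have hV : 0 ≤ volume.real K := measureReal_nonneg
  set V : ℝ := volume.real K with hVdef
  have hLV : 0 ≤ 3 * L * V := by positivity
  have hq : 0 < ε / (18 * A * (3 * L * V + 1)) := by positivity
  have hd : 0 < min 1 (ε / (18 * A * (3 * L * V + 1))) := lt_min one_pos hq
  refine ⟨min 1 (ε / (18 * A * (3 * L * V + 1))), hd, fun a ha m hb => ?_⟩
  have h1 := global_est h0 hC hW hH hHc he hL hK hd ha m hb (hT _ hd (min_le_left _ _))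
  refine h1.trans ?_
  have hdle : min 1 (ε / (18 * A * (3 * L * V + 1))) ≤ ε / (18 * A * (3 * L * V + 1)) :=
    min_le_right _ _
  set d : ℝ := min 1 (ε / (18 * A * (3 * L * V + 1))) with hddef
  have h2 : 3 * d * L * V ≤ ε / (18 * A) := by
    have h3 : d * (3 * L * V) ≤ ε / (18 * A * (3 * L * V + 1)) * (3 * L * V) :=
      mul_le_mul_of_nonneg_right hdle hLV
    have h4 : ε / (18 * A * (3 * L * V + 1)) * (3 * L * V) ≤ ε / (18 * A) := by
      have h5 : ε / (18 * A * (3 * L * V + 1)) * (3 * L * V) =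
          ε / (18 * A) * ((3 * L * V) / (3 * L * V + 1)) := by
        field_simp
      rw [h5]
      have h6 : (3 * L * V) / (3 * L * V + 1) ≤ 1 := by
        rw [div_le_one (by positivity)]
        linarith
      calc ε / (18 * A) * ((3 * L * V) / (3 * L * V + 1)) ≤ ε / (18 * A) * 1 :=
            mul_le_mul_of_nonneg_left h6 he0.le
        _ = ε / (18 * A) := mul_one _
    calc 3 * d * L * V = d * (3 * L * V) := by ring
      _ ≤ _ := h3.trans h4
  calc 9 * (A * (ε / (18 * A) + 3 * d * L * V))
      ≤ 9 * (A * (ε / (18 * A) + ε / (18 * A))) := by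
        have : A * (ε / (18 * A) + 3 * d * L * V) ≤ A * (ε / (18 * A) + ε / (18 * A)) :=
          mul_le_mul_of_nonneg_left (by linarith) hA.le
        linarith
    _ = ε := by field_simp; ring

end

end Claimed.Agent.R030
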