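import Claimed.Agent.R030.Defs

/-!
# Row 30, (A3): an abstract `L¹`-Cauchy criterion, and completeness of `L¹`

Data: `N i : Plane → ℝ` measurable, increasing in `i`; fields `X i` (think `X i = gradient (N i)`) and `g`, all integrable, with
* (h1) for `i < j`: `X j = X i` a.e. on `{N j = N i}`;
* (h2) for every `η > 0` there is `n0` with `∫_{N i < N j} ‖X j - g‖ ≤ η` for all `n0 ≤ i < j`.
Then `X i` is Cauchy in `L¹`.

Proof.  `Zset N i0 i = {x | N i x = N i0 x ∧ ∃ j, N i0 x < N j x}`.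
(a) `three_split`: for `i0 < i < j`, a.e.
  `‖X j - X i‖ ≤ 1_{N i < N j} ‖X j - g‖ + 1_{N i0 < N i} ‖X i - g‖ + 1_{Zset N i0 i} ‖g - X i0‖`.
  Indeed if `N j x = N i x` the left side is `0` (h1).  Otherwise `N i x < N j x` and `‖X j - X i‖ ≤ ‖X j - g‖ + ‖X i - g‖`; if `N i0 x < N i x` we are done;
  otherwise `N i x = N i0 x`, `X i x = X i0 x` (h1) and `x ∈ Zset N i0 i` (witness `j`).
(b) `Zset_tendsto`: for fixed `i0`, `1_{Zset N i0 i}(x) → 0` for every `x` (if `N i0 x < N j0 x` then for `i ≥ j0`, `N i x ≥ N j0 x > N i0 x`),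
  dominated convergence with the bound `‖g - X i0‖`.
(c) given `η`: `i0 = n0(η/3)` from (h2); `n2 > i0` from (b) for `η/3`.
-/

set_option autoImplicit false

open MeasureTheory Set Filter
open scoped ENNReal NNReal Topology ContDiff

namespace Claimed.Agent.R030

def Zset (N : ℕ → Plane → ℝ) (i0 i : ℕ) : Set Plane := {x | N i x = N i0 x ∧ ∃ j, N i0 x < N j x}

theorem Zset_measurable {N : ℕ → Plane → ℝ} (hNm : ∀ i, Measurable (N i)) (i0 i : ℕ) :
    MeasurableSet (Zset N i0 i) := by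
  have h : Zset N i0 i = {x | N i x = N i0 x} ∩ ⋃ j, {x | N i0 x < N j x} := by
    ext x
    simp [Zset]
  rw [h]
  exact (measurableSet_eq_fun (hNm i) (hNm i0)).inter
    (MeasurableSet.iUnion fun j => measurableSet_lt (hNm i0) (hNm j))

theorem three_split {N : ℕ → Plane → ℝ} {X : ℕ → Plane → Plane} {g : Plane → Plane}
    (hNm : ∀ i, Measurable (N i)) (hmono : ∀ x, Monotone (fun i => N i x))
    (hX : ∀ i, Integrable (X i)) (hg : Integrable g)
    (h1 : ∀ i j, i < j → ∀ᵐ x, N j x = N i x → X j x = X i x) {i0 i j : ℕ} (h0i : i0 < i) (hij : i < j) :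
    ∫ x, ‖X j x - X i x‖ ≤ (∫ x in {x | N i x < N j x}, ‖X j x - g x‖) +
      (∫ x in {x | N i0 x < N i x}, ‖X i x - g x‖) + ∫ x in Zset N i0 i, ‖g x - X i0 x‖ := by
  have hS1 : MeasurableSet {x | N i x < N j x} := measurableSet_lt (hNm i) (hNm j)
  have hS2 : MeasurableSet {x | N i0 x < N i x} := measurableSet_lt (hNm i0) (hNm i)
  have hS3 := Zset_measurable hNm i0 i
  have hf1 : Integrable (fun x => ‖X j x - g x‖) := ((hX j).sub hg).norm
  have hf2 : Integrable (fun x => ‖X i x - g x‖) := ((hX i).sub hg).norm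
  have hf3 : Integrable (fun x => ‖g x - X i0 x‖) := (hg.sub (hX i0)).norm
  have hI12 : Integrable (fun a => {x | N i x < N j x}.indicator (fun x => ‖X j x - g x‖) a +
      {x | N i0 x < N i x}.indicator (fun x => ‖X i x - g x‖) a) :=
    (hf1.indicator hS1).add (hf2.indicator hS2)
  rw [← integral_indicator hS1, ← integral_indicator hS2, ← integral_indicator hS3,
    ← integral_add (hf1.indicator hS1) (hf2.indicator hS2),
    ← integral_add hI12 (hf3.indicator hS3)]
  refine integral_mono_ae ((hX j).sub (hX i)).norm (hI12.add (hf3.indicator hS3)) ?_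
  filter_upwards [h1 i j hij, h1 i0 i h0i] with x hx1 hx2
  have n1 : 0 ≤ {x | N i x < N j x}.indicator (fun x => ‖X j x - g x‖) x :=
    indicator_nonneg (fun _ _ => norm_nonneg _) x
  have n2 : 0 ≤ {x | N i0 x < N i x}.indicator (fun x => ‖X i x - g x‖) x :=
    indicator_nonneg (fun _ _ => norm_nonneg _) x
  have n3 : 0 ≤ (Zset N i0 i).indicator (fun x => ‖g x - X i0 x‖) x :=
    indicator_nonneg (fun _ _ => norm_nonneg _) x
  by_cases hc1 : N j x = N i x
  · rw [hx1 hc1, sub_self, norm_zero]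
    linarith
  · have hlt : N i x < N j x := lt_of_le_of_ne (hmono x hij.le) (Ne.symm hc1)
    have e1 : {x | N i x < N j x}.indicator (fun x => ‖X j x - g x‖) x = ‖X j x - g x‖ :=
      indicator_of_mem (s := {x | N i x < N j x}) hlt _
    have tri : ‖X j x - X i x‖ ≤ ‖X j x - g x‖ + ‖X i x - g x‖ := by
      have h3 := norm_sub_le (X j x - g x) (X i x - g x)
      rwa [sub_sub_sub_cancel_right] at h3
    by_cases hc2 : N i x = N i0 x
    · have hz : x ∈ Zset N i0 i := ⟨hc2, j, by rw [← hc2]; exact hlt⟩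
      have e3 : (Zset N i0 i).indicator (fun x => ‖g x - X i0 x‖) x = ‖g x - X i0 x‖ :=
        indicator_of_mem hz _
      have e4 : ‖X i x - g x‖ = ‖g x - X i0 x‖ := by rw [hx2 hc2, norm_sub_rev]
      rw [e1, e3]
      linarith
    · have hlt2 : N i0 x < N i x := lt_of_le_of_ne (hmono x h0i.le) (Ne.symm hc2)
      have e2 : {x | N i0 x < N i x}.indicator (fun x => ‖X i x - g x‖) x = ‖X i x - g x‖ :=
        indicator_of_mem (s := {x | N i0 x < N i x}) hlt2 _
      rw [e1, e2]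
      linarith

theorem Zset_tendsto {N : ℕ → Plane → ℝ} (hNm : ∀ i, Measurable (N i))
    (hmono : ∀ x, Monotone (fun i => N i x)) {w : Plane → Plane} (hw : Integrable w) (i0 : ℕ) :
    Tendsto (fun i => ∫ x in Zset N i0 i, ‖w x‖) atTop (𝓝 0) := by
  have hZ : ∀ i, MeasurableSet (Zset N i0 i) := fun i => Zset_measurable hNm i0 i
  have h1 : ∀ i, ∫ x in Zset N i0 i, ‖w x‖ = ∫ x, (Zset N i0 i).indicator (fun x => ‖w x‖) x :=
    fun i => (integral_indicator (hZ i)).symm
  simp only [h1]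
  have h0 : (0 : ℝ) = ∫ _ : Plane, (0 : ℝ) := by simp
  rw [h0]
  refine tendsto_integral_of_dominated_convergence (fun x => ‖w x‖)
    (fun i => hw.norm.aestronglyMeasurable.indicator (hZ i)) hw.norm
    (fun i => Filter.Eventually.of_forall fun x => ?_) (Filter.Eventually.of_forall fun x => ?_)
  · refine (norm_indicator_le_norm_self _ _).trans ?_
    rw [norm_norm]
  · refine tendsto_const_nhds.congr' ?_
    by_cases hx : ∃ j, N i0 x < N j x
    · obtain ⟨j0, hj0⟩ := hx
      filter_upwards [eventually_ge_atTop j0] with i hi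
      have hle : N j0 x ≤ N i x := hmono x hi
      have hnot : x ∉ Zset N i0 i := fun hm => by
        have := hm.1
        linarith
      rw [indicator_of_notMem hnot]
    · refine Filter.Eventually.of_forall fun i => ?_
      have hnot : x ∉ Zset N i0 i := fun hm => hx hm.2
      exact (indicator_of_notMem hnot _).symm

theorem cauchy_L1_abstract {N : ℕ → Plane → ℝ} {X : ℕ → Plane → Plane} {g : Plane → Plane}
    (hNm : ∀ i, Measurable (N i)) (hmono : ∀ x, Monotone (fun i => N i x))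
    (hX : ∀ i, Integrable (X i)) (hg : Integrable g)
    (h1 : ∀ i j, i < j → ∀ᵐ x, N j x = N i x → X j x = X i x)
    (h2 : ∀ η > 0, ∃ n0 : ℕ, ∀ i ≥ n0, ∀ j, i < j →
      ∫ x in {x | N i x < N j x}, ‖X j x - g x‖ ≤ η) :
    ∀ η > 0, ∃ n0 : ℕ, ∀ i ≥ n0, ∀ j ≥ i, ∫ x, ‖X j x - X i x‖ ≤ η := by
  intro η hη
  obtain ⟨i0, hi0⟩ := h2 (η / 3) (by positivity)
  have hZ := Zset_tendsto hNm hmono (hg.sub (hX i0)) i0
  obtain ⟨n2, hn2⟩ := (((tendsto_order.1 hZ).2 (η / 3) (by positivity)).and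
    (eventually_gt_atTop i0)).exists_forall_of_atTop
  refine ⟨n2, fun i hi j hj => ?_⟩
  rcases hj.lt_or_eq with hij | rfl
  · have h3 := three_split hNm hmono hX hg h1 (hn2 i hi).2 hij
    have h4 := hi0 i (hn2 i hi).2.le j hij
    have h5 := hi0 i0 le_rfl i (hn2 i hi).2
    have h6 := (hn2 i hi).1
    simp only [Pi.sub_apply] at h6
    linarith
  · simp [hη.le]

/-- completeness of `L¹`: `Integrable.toL1`, `cauchySeq_tendsto_of_complete`; `dist (toL1 f) (toL1 g) = ∫ ‖f - g‖`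
(`L1.dist_def`, `L1.norm_eq_integral_norm`, `Integrable.coeFn_toL1`), or `MeasureTheory.Lp.cauchy_complete_eLpNorm` on a subsequence. -/
theorem exists_L1_limit {X : ℕ → Plane → Plane} (hX : ∀ i, Integrable (X i))
    (hc : ∀ η > 0, ∃ n0 : ℕ, ∀ i ≥ n0, ∀ j ≥ i, ∫ x, ‖X j x - X i x‖ ≤ η) :
    ∃ G : Plane → Plane, Integrable G ∧ Tendsto (fun i => ∫ x, ‖X i x - G x‖) atTop (𝓝 0) := by
  have hdist : ∀ (f g : Plane → Plane) (hf : Integrable f) (hg : Integrable g),
      dist (hf.toL1 f) (hg.toL1 g) = ∫ x, ‖f x - g x‖ := by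
    intro f g hf hg
    rw [dist_eq_norm, ← Integrable.toL1_sub, L1.norm_of_fun_eq_integral_norm]
    rfl
  have hcau : CauchySeq (fun i => (hX i).toL1 (X i)) := by
    rw [Metric.cauchySeq_iff']
    intro ε hε
    obtain ⟨n0, hn0⟩ := hc (ε / 2) (by positivity)
    refine ⟨n0, fun n hn => ?_⟩
    rw [hdist]
    have := hn0 n0 le_rfl n hn
    linarith
  obtain ⟨G₀, hG₀⟩ := cauchySeq_tendsto_of_complete hcau
  refine ⟨G₀, L1.integrable_coeFn G₀, ?_⟩
  have h1 := tendsto_iff_dist_tendsto_zero.1 hG₀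
  have h2 : (fun i => dist ((hX i).toL1 (X i)) G₀) = fun i => ∫ x, ‖X i x - G₀ x‖ := by
    funext i
    rw [← hdist (X i) G₀ (hX i) (L1.integrable_coeFn G₀), Integrable.toL1_coeFn]
  rw [h2] at h1
  exact h1

end Claimed.Agent.R030
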