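import Claimed.Agent.R030.Dens

/-!
# Row 30, (Ch): `W11 f g → W11 |f| (sign f • g)`

`sq ε t = √(t² + ε²)`, `sq' ε t = t / √(t² + ε²)` (its derivative).
1. `wgrad_sq_smooth` : for smooth `u`, `sq ε ∘ u` is smooth with gradient `sq' ε (u x) • gradient u x` (`wgrad_of_contDiff`).
2. `wgrad_sq` : `u_n = mconv n f` (smooth, `→ f` a.e. and in `L¹`, gradient `mconv n g → g` in `L¹`); pass to the limit with `WGrad.of_tendsto`:
   * `|sq ε s - sq ε t| ≤ |s - t|`, so `∫ sq ε (u_n) ψ → ∫ sq ε f ψ`  (NB `sq ε ∘ f` is only locally integrable; estimate the DIFFERENCE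
     `|∫ (sq ε (u_n) - sq ε f) ψ| ≤ M ∫ |u_n - f|`; both products are integrable by `loc_mul_cc`).
   * `sq' ε (u_n) (mconv n g)_i ψ - sq' ε f g_i ψ = sq' ε (u_n) ((mconv n g)_i - g_i) ψ + (sq' ε (u_n) - sq' ε f) g_i ψ`; the first is `≤ M ‖mconv n g - g‖`,
     the second tends to `0` by dominated convergence (`mconv_tendsto_ae`, continuity of `sq' ε`, bound `2 M ‖g‖`).
3. `wgrad_abs` : `ε_n = 1/(n+1) → 0`: `|sq ε t - |t|| ≤ ε`, `sq' ε_n t → Real.sign t` for every `t` (also `t = 0`), dominated convergence.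
-/

set_option autoImplicit false

open MeasureTheory Set Filter
open scoped ENNReal NNReal Topology ContDiff

namespace Claimed.Agent.R030

noncomputable section

def sq (ε t : ℝ) : ℝ := Real.sqrt (t ^ 2 + ε ^ 2)

def sq' (ε t : ℝ) : ℝ := t / Real.sqrt (t ^ 2 + ε ^ 2)

theorem sq_arg_pos {ε : ℝ} (hε : 0 < ε) (t : ℝ) : 0 < t ^ 2 + ε ^ 2 := by positivity

theorem sq_contDiff {ε : ℝ} (hε : 0 < ε) : ContDiff ℝ ∞ (sq ε) := by
  unfold sq
  exact ContDiff.sqrt (by fun_prop) (fun t => (sq_arg_pos hε t).ne')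

theorem sq_hasDerivAt {ε : ℝ} (hε : 0 < ε) (t : ℝ) : HasDerivAt (sq ε) (sq' ε t) t := by
  unfold sq sq'
  have h1 : HasDerivAt (fun t : ℝ => t ^ 2 + ε ^ 2) (2 * t) t := by
    simpa using (hasDerivAt_pow 2 t).add_const (ε ^ 2)
  have h2 := h1.sqrt (sq_arg_pos hε t).ne'
  convert h2 using 1
  have : Real.sqrt (t ^ 2 + ε ^ 2) ≠ 0 := (Real.sqrt_pos.2 (sq_arg_pos hε t)).ne'
  field_simp

theorem sq'_abs_le (ε t : ℝ) : |sq' ε t| ≤ 1 := by
  unfold sq'
  rw [abs_div, abs_of_nonneg (Real.sqrt_nonneg _)]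
  have h : |t| ≤ Real.sqrt (t ^ 2 + ε ^ 2) := by
    apply Real.abs_le_sqrt
    nlinarith [sq_nonneg ε]
  exact div_le_one_of_le₀ h (Real.sqrt_nonneg _)

theorem sq'_continuous {ε : ℝ} (hε : 0 < ε) : Continuous (sq' ε) := by
  unfold sq'
  exact continuous_id.div (by fun_prop) (fun t => (Real.sqrt_pos.2 (sq_arg_pos hε t)).ne')

/-- mean value theorem with `sq'_abs_le`, or directly: `|√(s²+ε²) - √(t²+ε²)| = |s²-t²|/(√.. + √..) ≤ |s - t|`. -/
theorem sq_lip {ε : ℝ} (hε : 0 < ε) (s t : ℝ) : |sq ε s - sq ε t| ≤ |s - t| := by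
  have h := Convex.norm_image_sub_le_of_norm_hasDerivWithin_le (f := sq ε) (f' := sq' ε) (C := 1)
    (s := Set.univ) (fun x _ => (sq_hasDerivAt hε x).hasDerivWithinAt)
    (fun x _ => by simpa using sq'_abs_le ε x) convex_univ (mem_univ t) (mem_univ s)
  simpa using h

theorem sq_sub_abs {ε : ℝ} (hε : 0 ≤ ε) (t : ℝ) : |sq ε t - (|t|)| ≤ ε := by
  unfold sq
  have h1 : |t| ≤ Real.sqrt (t ^ 2 + ε ^ 2) := by
    apply Real.abs_le_sqrt
    nlinarith [sq_nonneg ε]
  have h2 : Real.sqrt (t ^ 2 + ε ^ 2) ≤ |t| + ε := by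
    apply Real.sqrt_le_iff.2
    refine ⟨by positivity, ?_⟩
    have : (|t| + ε) ^ 2 = t ^ 2 + 2 * |t| * ε + ε ^ 2 := by
      rw [add_sq, sq_abs]
    rw [this]
    have : 0 ≤ 2 * |t| * ε := by positivity
    linarith
  rw [abs_of_nonneg (by linarith)]
  linarith

theorem sq'_tendsto (t : ℝ) :
    Tendsto (fun n : ℕ => sq' (1 / ((n : ℝ) + 1)) t) atTop (𝓝 (Real.sign t)) := by
  unfold sq'
  rcases eq_or_ne t 0 with rfl | ht
  · simp
  · have h0 : Tendsto (fun n : ℕ => 1 / ((n : ℝ) + 1)) atTop (𝓝 0) :=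
      tendsto_one_div_add_atTop_nhds_zero_nat
    have h1 : Tendsto (fun n : ℕ => Real.sqrt (t ^ 2 + (1 / ((n : ℝ) + 1)) ^ 2)) atTop
        (𝓝 (Real.sqrt (t ^ 2 + 0 ^ 2))) :=
      (Real.continuous_sqrt.tendsto _).comp ((h0.pow 2).const_add (t ^ 2))
    have h2 : Real.sqrt (t ^ 2 + 0 ^ 2) = |t| := by
      simp [Real.sqrt_sq_eq_abs]
    rw [h2] at h1
    have h3 := (tendsto_const_nhds (x := t)).div h1 (abs_ne_zero.2 ht)
    have h4 : t / |t| = Real.sign t := by
      rcases lt_or_gt_of_ne ht with h | h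
      · rw [Real.sign_of_neg h, abs_of_neg h]; field_simp
      · rw [Real.sign_of_pos h, abs_of_pos h]; field_simp
    rwa [h4] at h3

theorem wgrad_sq_smooth {u : Plane → ℝ} (hu : ContDiff ℝ ∞ u) {ε : ℝ} (hε : 0 < ε) :
    WGrad (fun x => sq ε (u x)) (fun x => sq' ε (u x) • gradient u x) := by
  have h1 : ContDiff ℝ 1 (fun x => sq ε (u x)) :=
    ((sq_contDiff hε).comp hu).of_le (by exact_mod_cast le_top)
  have h2 := wgrad_of_contDiff h1
  have h3 : gradient (fun x => sq ε (u x)) = fun x => sq' ε (u x) • gradient u x := by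
    funext x
    ext i
    rw [gradient_apply]
    have hd : DifferentiableAt ℝ u x := (hu.differentiable (by simp)) x
    have h4 := (sq_hasDerivAt hε (u x)).comp_hasFDerivAt x hd.hasFDerivAt
    have h5 : fderiv ℝ (fun x => sq ε (u x)) x = sq' ε (u x) • fderiv ℝ u x := h4.fderiv
    rw [h5]
    simp [gradient_apply]
  rwa [h3] at h2

/-- `sq ε ∘ f` is locally integrable (`≤ |f| + ε`; measurability: `sq ε` continuous). -/
theorem sq_comp_loc {f : Plane → ℝ} (hf : Integrable f) {ε : ℝ} (hε : 0 < ε) :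
    LocallyIntegrable (fun x => sq ε (f x)) := by
  have h1 : LocallyIntegrable (fun x => |f x| + ε) :=
    hf.abs.locallyIntegrable.add (locallyIntegrable_const ε)
  refine h1.mono ((sq_contDiff hε).continuous.comp_aestronglyMeasurable hf.1) ?_
  refine Filter.Eventually.of_forall fun x => ?_
  have h2 := sq_sub_abs hε.le (f x)
  have h3 : 0 ≤ sq ε (f x) := Real.sqrt_nonneg _
  rw [Real.norm_eq_abs, Real.norm_eq_abs, abs_of_nonneg h3,
    abs_of_nonneg (by positivity : 0 ≤ |f x| + ε)]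
  have := (abs_le.1 h2).2
  linarith

theorem sq_left_tendsto {f : Plane → ℝ} (hf : Integrable f) {ε : ℝ} (hε : 0 < ε) {ψ : Plane → ℝ}
    (hψ : Continuous ψ) (hc : HasCompactSupport ψ) :
    Tendsto (fun n => ∫ x, sq ε (mconv n f x) * ψ x) atTop (𝓝 (∫ x, sq ε (f x) * ψ x)) := by
  obtain ⟨M, hM0, hM⟩ := cc_bounded hψ hc
  have hL := mconv_tendsto_L1 hf
  rw [tendsto_iff_dist_tendsto_zero]
  refine squeeze_zero (fun n => dist_nonneg) (fun n => ?_) (by simpa using hL.const_mul M)
  have i1 : Integrable (fun x => sq ε (mconv n f x) * ψ x) :=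
    loc_mul_cc (sq_comp_loc (mconv_integrable n hf) hε) hψ hc
  have i2 : Integrable (fun x => sq ε (f x) * ψ x) := loc_mul_cc (sq_comp_loc hf hε) hψ hc
  rw [Real.dist_eq, ← integral_sub i1 i2, ← integral_const_mul]
  refine (abs_integral_le_integral_abs).trans
    (integral_mono (i1.sub i2).abs (((mconv_integrable n hf).sub hf).norm.const_mul M) fun x => ?_)
  have h1 : sq ε (mconv n f x) * ψ x - sq ε (f x) * ψ x =
      (sq ε (mconv n f x) - sq ε (f x)) * ψ x := by ring
  show |sq ε (mconv n f x) * ψ x - sq ε (f x) * ψ x| ≤ M * ‖mconv n f x - f x‖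
  rw [h1, abs_mul, mul_comm, Real.norm_eq_abs]
  exact mul_le_mul (hM x) (sq_lip hε _ _) (abs_nonneg _) hM0

/-- measurability of `sq' ε ∘ mconv n f` -/
theorem sq'_mconv_aesm {f : Plane → ℝ} (hf : Integrable f) {ε : ℝ} (hε : 0 < ε) (n : ℕ) :
    AEStronglyMeasurable (fun x => sq' ε (mconv n f x)) volume :=
  ((sq'_continuous hε).comp (mconv_contDiff n hf.locallyIntegrable).continuous).aestronglyMeasurable

/-- measurability of `sq' ε ∘ f` -/
theorem sq'_comp_aesm {f : Plane → ℝ} (hf : Integrable f) {ε : ℝ} (hε : 0 < ε) :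
    AEStronglyMeasurable (fun x => sq' ε (f x)) volume :=
  (sq'_continuous hε).comp_aestronglyMeasurable hf.aestronglyMeasurable

/-- second half of the right-hand convergence (dominated convergence). -/
theorem sq_right_tendsto_aux {f : Plane → ℝ} {g : Plane → Plane} (hf : Integrable f) (hg : Integrable g)
    {ε : ℝ} (hε : 0 < ε) {ψ : Plane → ℝ} (hψ : Continuous ψ) (hc : HasCompactSupport ψ) (i : Fin 2) :
    Tendsto (fun n => ∫ x, (sq' ε (mconv n f x) - sq' ε (f x)) * (g x i * ψ x)) atTop (𝓝 0) := by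
  have hgi : Integrable (fun x => g x i * ψ x) := loc_mul_cc (loc_comp hg.locallyIntegrable i) hψ hc
  have hlim := tendsto_integral_of_dominated_convergence
    (F := fun n x => (sq' ε (mconv n f x) - sq' ε (f x)) * (g x i * ψ x)) (f := fun _ => (0 : ℝ))
    (fun x => 2 * ‖g x i * ψ x‖)
    (fun n => ((sq'_mconv_aesm hf hε n).sub (sq'_comp_aesm hf hε)).mul hgi.aestronglyMeasurable)
    (hgi.norm.const_mul 2)
    (fun n => Eventually.of_forall fun x => by
      rw [norm_mul]
      refine mul_le_mul_of_nonneg_right ?_ (norm_nonneg _)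
      rw [Real.norm_eq_abs]
      have h1 := sq'_abs_le ε (mconv n f x)
      have h2 := sq'_abs_le ε (f x)
      have h3 := abs_sub (sq' ε (mconv n f x)) (sq' ε (f x))
      linarith)
    (by
      filter_upwards [mconv_tendsto_ae hf.locallyIntegrable] with x hx
      have h1 : Tendsto (fun n => sq' ε (mconv n f x)) atTop (𝓝 (sq' ε (f x))) :=
        ((sq'_continuous hε).tendsto (f x)).comp hx
      have h2 := (h1.sub_const (sq' ε (f x))).mul_const (g x i * ψ x)
      rw [sub_self, zero_mul] at h2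
      exact h2)
  rw [integral_zero] at hlim
  exact hlim

theorem sq_right_tendsto {f : Plane → ℝ} {g : Plane → Plane} (hf : Integrable f) (hg : Integrable g)
    {ε : ℝ} (hε : 0 < ε) {ψ : Plane → ℝ} (hψ : Continuous ψ) (hc : HasCompactSupport ψ) (i : Fin 2) :
    Tendsto (fun n => ∫ x, (sq' ε (mconv n f x) • mconv n g x) i * ψ x) atTop
      (𝓝 (∫ x, (sq' ε (f x) • g x) i * ψ x)) := by
  obtain ⟨M, hM0, hM⟩ := cc_bounded hψ hc
  have hgi : Integrable (fun x => g x i * ψ x) := loc_mul_cc (loc_comp hg.locallyIntegrable i) hψ hc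
  have hGn : ∀ n, Integrable (mconv n g) := fun n => mconv_integrable n hg
  have hdi : ∀ n, Integrable (fun x => (mconv n g x i - g x i) * ψ x) := fun n =>
    loc_mul_cc ((int_comp (hGn n) i).sub (int_comp hg i)).locallyIntegrable hψ hc
  have hb : ∀ t : ℝ, ‖sq' ε t‖ ≤ 1 := fun t => by
    rw [Real.norm_eq_abs]
    exact sq'_abs_le ε t
  -- the three pieces
  have i1 : ∀ n, Integrable (fun x => sq' ε (mconv n f x) * ((mconv n g x i - g x i) * ψ x)) :=
    fun n => (hdi n).bdd_mul (sq'_mconv_aesm hf hε n) (Eventually.of_forall fun x => hb _)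
  have i2 : ∀ n, Integrable (fun x => (sq' ε (mconv n f x) - sq' ε (f x)) * (g x i * ψ x)) :=
    fun n => hgi.bdd_mul (c := 2) ((sq'_mconv_aesm hf hε n).sub (sq'_comp_aesm hf hε))
      (Eventually.of_forall fun x => by
        have h1 := hb (mconv n f x)
        have h2 := hb (f x)
        have h3 := norm_sub_le (sq' ε (mconv n f x)) (sq' ε (f x))
        linarith)
  have i3 : Integrable (fun x => sq' ε (f x) * (g x i * ψ x)) :=
    hgi.bdd_mul (sq'_comp_aesm hf hε) (Eventually.of_forall fun x => hb _)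
  have hsplit : ∀ n, ∫ x, (sq' ε (mconv n f x) • mconv n g x) i * ψ x =
      (∫ x, sq' ε (mconv n f x) * ((mconv n g x i - g x i) * ψ x)) +
      (∫ x, (sq' ε (mconv n f x) - sq' ε (f x)) * (g x i * ψ x)) +
      ∫ x, sq' ε (f x) * (g x i * ψ x) := by
    intro n
    have i12 : Integrable (fun x => sq' ε (mconv n f x) * ((mconv n g x i - g x i) * ψ x) +
        (sq' ε (mconv n f x) - sq' ε (f x)) * (g x i * ψ x)) := (i1 n).add (i2 n)
    rw [← integral_add (i1 n) (i2 n), ← integral_add i12 i3]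
    refine integral_congr_ae (Eventually.of_forall fun x => ?_)
    simp only [PiLp.smul_apply, smul_eq_mul]
    ring
  have hL : ∫ x, (sq' ε (f x) • g x) i * ψ x = ∫ x, sq' ε (f x) * (g x i * ψ x) := by
    refine integral_congr_ae (Eventually.of_forall fun x => ?_)
    simp only [PiLp.smul_apply, smul_eq_mul]
    ring
  -- the first piece tends to zero
  have hA : Tendsto (fun n => ∫ x, sq' ε (mconv n f x) * ((mconv n g x i - g x i) * ψ x)) atTop
      (𝓝 0) := by
    have hz : Tendsto (fun n => M * ∫ x, ‖mconv n g x - g x‖) atTop (𝓝 0) := by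
      have := (mconv_tendsto_L1 hg).const_mul M
      rwa [mul_zero] at this
    refine squeeze_zero_norm (fun n => ?_) hz
    calc ‖∫ x, sq' ε (mconv n f x) * ((mconv n g x i - g x i) * ψ x)‖
        ≤ ∫ x, ‖sq' ε (mconv n f x) * ((mconv n g x i - g x i) * ψ x)‖ :=
          norm_integral_le_integral_norm _
      _ ≤ ∫ x, M * ‖mconv n g x - g x‖ := by
          refine integral_mono (i1 n).norm (((hGn n).sub hg).norm.const_mul M) fun x => ?_
          show ‖sq' ε (mconv n f x) * ((mconv n g x i - g x i) * ψ x)‖ ≤ M * ‖mconv n g x - g x‖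
          rw [norm_mul, norm_mul, Real.norm_eq_abs (ψ x), Real.norm_eq_abs (mconv n g x i - g x i)]
          have h1 := hb (mconv n f x)
          have h2 : |mconv n g x i - g x i| ≤ ‖mconv n g x - g x‖ := by
            have := abs_comp_le (mconv n g x - g x) i
            simpa using this
          have h3 := hM x
          calc ‖sq' ε (mconv n f x)‖ * (|mconv n g x i - g x i| * |ψ x|)
              ≤ 1 * (‖mconv n g x - g x‖ * M) :=
                mul_le_mul h1 (mul_le_mul h2 h3 (abs_nonneg _) (norm_nonneg _))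
                  (by positivity) zero_le_one
            _ = M * ‖mconv n g x - g x‖ := by ring
      _ = M * ∫ x, ‖mconv n g x - g x‖ := integral_const_mul _ _
  have hB := sq_right_tendsto_aux hf hg hε hψ hc i
  have hsum := (hA.add hB).add_const (∫ x, sq' ε (f x) * (g x i * ψ x))
  rw [add_zero, zero_add] at hsum
  rw [hL]
  refine hsum.congr fun n => ?_
  rw [hsplit n]

theorem wgrad_sq {f : Plane → ℝ} {g : Plane → Plane} (h : W11 f g) {ε : ℝ} (hε : 0 < ε) :
    WGrad (fun x => sq ε (f x)) (fun x => sq' ε (f x) • g x) := by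
  refine WGrad.of_tendsto (Fn := fun n x => sq ε (mconv n f x))
    (gn := fun n x => sq' ε (mconv n f x) • mconv n g x) (fun n => ?_)
    (fun ψ hψ hc => sq_left_tendsto h.intF hε hψ hc)
    (fun ψ hψ hc i => sq_right_tendsto h.intF h.intg hε hψ hc i)
  have h1 := h.mconv_smooth n
  have h2 := wgrad_sq_smooth h1.1 hε
  have h3 : (fun x => sq' ε (mconv n f x) • gradient (mconv n f) x) =
      fun x => sq' ε (mconv n f x) • mconv n g x := by
    funext x; rw [h1.2.2.2 x]
  rwa [h3] at h2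

theorem abs_left_tendsto {f : Plane → ℝ} (hf : Integrable f) {ψ : Plane → ℝ}
    (hψ : Continuous ψ) (hc : HasCompactSupport ψ) :
    Tendsto (fun n : ℕ => ∫ x, sq (1 / ((n : ℝ) + 1)) (f x) * ψ x) atTop (𝓝 (∫ x, |f x| * ψ x)) := by
  have hε : ∀ n : ℕ, 0 < 1 / ((n : ℝ) + 1) := fun n => by positivity
  have hε1 : ∀ n : ℕ, 1 / ((n : ℝ) + 1) ≤ 1 := fun n => by
    rw [div_le_one (by positivity)]
    linarith [Nat.cast_nonneg (α := ℝ) n]
  have hψa : Integrable (fun x => |ψ x|) := (hψ.integrable_of_hasCompactSupport hc).abs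
  have hfψ : Integrable (fun x => |f x| * ψ x) := loc_mul_cc hf.abs.locallyIntegrable hψ hc
  refine tendsto_integral_of_dominated_convergence (fun x => |(|f x| * ψ x)| + |ψ x|)
    (fun n => (loc_mul_cc (sq_comp_loc hf (hε n)) hψ hc).aestronglyMeasurable) (hfψ.abs.add hψa)
    (fun n => Eventually.of_forall fun x => ?_) (Eventually.of_forall fun x => ?_)
  · have h1 := abs_le.1 (sq_sub_abs (hε n).le (f x))
    have h2 : |sq (1 / ((n : ℝ) + 1)) (f x)| ≤ |f x| + 1 := by
      rw [abs_le]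
      constructor <;> linarith [abs_nonneg (f x), hε1 n, h1.1, h1.2]
    rw [Real.norm_eq_abs, abs_mul, abs_mul, abs_abs]
    nlinarith [abs_nonneg (ψ x)]
  · refine Tendsto.mul_const _ ?_
    rw [tendsto_iff_dist_tendsto_zero]
    refine squeeze_zero (fun n => dist_nonneg) (fun n => ?_) tendsto_one_div_add_atTop_nhds_zero_nat
    rw [Real.dist_eq]
    exact sq_sub_abs (hε n).le _

theorem abs_right_tendsto {f : Plane → ℝ} {g : Plane → Plane} (hf : Integrable f) (hg : Integrable g)
    {ψ : Plane → ℝ} (hψ : Continuous ψ) (hc : HasCompactSupport ψ) (i : Fin 2) :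
    Tendsto (fun n : ℕ => ∫ x, (sq' (1 / ((n : ℝ) + 1)) (f x) • g x) i * ψ x) atTop
      (𝓝 (∫ x, (Real.sign (f x) • g x) i * ψ x)) := by
  have hε : ∀ n : ℕ, 0 < 1 / ((n : ℝ) + 1) := fun n => by positivity
  have e : ∀ (c : ℝ) (x : Plane), (c • g x) i * ψ x = c * (g x i * ψ x) := by
    intro c x
    simp [mul_assoc]
  simp_rw [e]
  have hgψ : Integrable (fun x => g x i * ψ x) := loc_mul_cc (int_comp hg i).locallyIntegrable hψ hc
  refine tendsto_integral_of_dominated_convergence (fun x => |g x i * ψ x|)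
    (fun n => ((sq'_continuous (hε n)).comp_aestronglyMeasurable hf.aestronglyMeasurable).mul
      hgψ.aestronglyMeasurable) hgψ.abs
    (fun n => Eventually.of_forall fun x => ?_) (Eventually.of_forall fun x => ?_)
  · rw [Real.norm_eq_abs, abs_mul]
    exact mul_le_of_le_one_left (abs_nonneg _) (sq'_abs_le _ _)
  · exact (sq'_tendsto (f x)).mul_const _

theorem norm_sign_smul_le (t : ℝ) (v : Plane) : ‖Real.sign t • v‖ ≤ ‖v‖ := by
  rw [norm_smul, Real.norm_eq_abs]
  refine mul_le_of_le_one_left (norm_nonneg v) ?_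
  rcases Real.sign_apply_eq t with h | h | h <;> rw [h] <;> norm_num

/-- measurability of `x ↦ Real.sign (f x)`: `Real.sign` is measurable (piecewise constant); bound `norm_sign_smul_le`. -/
theorem sign_smul_integrable {f : Plane → ℝ} {g : Plane → Plane} (hf : Integrable f) (hg : Integrable g) :
    Integrable (fun x => Real.sign (f x) • g x) := by
  have hm : Measurable Real.sign := by
    unfold Real.sign
    exact Measurable.ite measurableSet_Iio measurable_const
      (Measurable.ite measurableSet_Ioi measurable_const measurable_const)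
  refine hg.mono ((hm.comp_aemeasurable hf.aemeasurable).aestronglyMeasurable.smul
    hg.aestronglyMeasurable) (Eventually.of_forall fun x => norm_sign_smul_le _ _)

/-- (Ch) -/
theorem W11.abs {f : Plane → ℝ} {g : Plane → Plane} (h : W11 f g) :
    W11 (fun x => |f x|) (fun x => Real.sign (f x) • g x) := by
  refine ⟨h.intF.abs, sign_smul_integrable h.intF h.intg, ?_⟩
  exact WGrad.of_tendsto (Fn := fun n x => sq (1 / ((n : ℝ) + 1)) (f x))
    (gn := fun n x => sq' (1 / ((n : ℝ) + 1)) (f x) • g x)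
    (fun n => wgrad_sq h (by positivity))
    (fun ψ hψ hc => abs_left_tendsto h.intF hψ hc)
    (fun ψ hψ hc i => abs_right_tendsto h.intF h.intg hψ hc i)

theorem integral_norm_sign_smul_le {f : Plane → ℝ} {g : Plane → Plane} (hf : Integrable f)
    (hg : Integrable g) : ∫ x, ‖Real.sign (f x) • g x‖ ≤ ∫ x, ‖g x‖ :=
  integral_mono (sign_smul_integrable hf hg).norm hg.norm (fun _ => norm_sign_smul_le _ _)

end

end Claimed.Agent.R030
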