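import Claimed.Agent.R030.TrEst

/-!
# Row 30, (Av): disc averages and suprema over sets of radii

`supI F I x = sSup ((fun r => dAvg F x r) '' I)`;  `band F a b = supI F (Icc a b)`, `tail F a = supI F (Ici a)` by `rfl`.
Throughout `I ⊆ Ici a` with `0 < a` and `I` nonempty, `F` integrable, so that the set of averages lies in `[-M, M]`, `M = (∫|F|)/(π a²)`.

* `|dAvg F x r| ≤ (∫ |F|)/(π r²) ≤ (∫|F|)/(π a²)`.
* `dAvg F (x+h) r = dAvg (F (· + h)) x r`, hence (Tr) gives `|dAvg F x r - dAvg F y r| ≤ (∫‖g‖)/(π a²) * dist x y`.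
* `dAvg l x r = l x` for affine `l` (`∫_{ball x r} ⟪p, y - x⟫ = 0` by the symmetry `y ↦ 2x - y`).
* volume of a disc: `EuclideanSpace.volume_ball_fin_two`.
-/

set_option autoImplicit false

open MeasureTheory Set Filter
open scoped ENNReal NNReal Topology ContDiff

namespace Claimed.Agent.R030

noncomputable section

def supI (F : Plane → ℝ) (I : Set ℝ) (x : Plane) : ℝ := sSup ((fun r => dAvg F x r) '' I)

theorem band_eq_supI (F : Plane → ℝ) (a b : ℝ) : band F a b = supI F (Icc a b) := rfl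

theorem tail_eq_supI (F : Plane → ℝ) (a : ℝ) : tail F a = supI F (Ici a) := rfl

theorem vol_ball_real (x : Plane) {r : ℝ} (hr : 0 ≤ r) :
    volume.real (Metric.ball x r) = Real.pi * r ^ 2 := by
  rw [measureReal_def, EuclideanSpace.volume_ball_fin_two, ENNReal.toReal_mul, ENNReal.toReal_pow,
    ENNReal.toReal_ofReal hr, ENNReal.toReal_ofReal Real.pi_pos.le, mul_comm]

theorem loc_integrableOn_ball {F : Plane → ℝ} (hF : LocallyIntegrable F) (x : Plane) (r : ℝ) :
    IntegrableOn F (Metric.ball x r) :=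
  (hF.integrableOn_isCompact (isCompact_closedBall x r)).mono_set Metric.ball_subset_closedBall

theorem dAvg_abs_le {F : Plane → ℝ} (hF : Integrable F) {a r : ℝ} (ha : 0 < a) (har : a ≤ r) (x : Plane) :
    |dAvg F x r| ≤ (∫ y, |F y|) / (Real.pi * a ^ 2) := by
  have hr : 0 < r := lt_of_lt_of_le ha har
  have hpa : 0 < Real.pi * a ^ 2 := by have := Real.pi_pos; positivity
  have hpr : 0 < Real.pi * r ^ 2 := by have := Real.pi_pos; positivity
  have h1 : |∫ y in Metric.ball x r, F y| ≤ ∫ y, |F y| :=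
    (abs_integral_le_integral_abs).trans
      (setIntegral_le_integral hF.abs (Filter.Eventually.of_forall fun _ => abs_nonneg _))
  have h0 : 0 ≤ ∫ y, |F y| := integral_nonneg fun _ => abs_nonneg _
  unfold dAvg
  rw [abs_div, abs_of_pos hpr]
  calc |∫ y in Metric.ball x r, F y| / (Real.pi * r ^ 2) ≤ (∫ y, |F y|) / (Real.pi * r ^ 2) :=
        div_le_div_of_nonneg_right h1 hpr.le
    _ ≤ (∫ y, |F y|) / (Real.pi * a ^ 2) := by
        refine div_le_div_of_nonneg_left h0 hpa ?_
        exact mul_le_mul_of_nonneg_left (pow_le_pow_left₀ ha.le har 2) Real.pi_pos.le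

theorem dAvg_sub {F F' : Plane → ℝ} (hF : LocallyIntegrable F) (hF' : LocallyIntegrable F') (x : Plane)
    (r : ℝ) : dAvg (fun y => F y - F' y) x r = dAvg F x r - dAvg F' x r := by
  unfold dAvg
  rw [integral_sub (loc_integrableOn_ball hF x r) (loc_integrableOn_ball hF' x r), sub_div]

theorem dAvg_add {F F' : Plane → ℝ} (hF : LocallyIntegrable F) (hF' : LocallyIntegrable F') (x : Plane)
    (r : ℝ) : dAvg (fun y => F y + F' y) x r = dAvg F x r + dAvg F' x r := by
  unfold dAvg
  rw [integral_add (loc_integrableOn_ball hF x r) (loc_integrableOn_ball hF' x r), add_div]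

theorem dAvg_congr {F F' : Plane → ℝ} {x : Plane} {r : ℝ} (h : ∀ y ∈ Metric.ball x r, F y = F' y) :
    dAvg F x r = dAvg F' x r := by
  unfold dAvg
  rw [setIntegral_congr_fun measurableSet_ball h]

theorem dAvg_mono {F F' : Plane → ℝ} (hF : LocallyIntegrable F) (hF' : LocallyIntegrable F')
    (h : ∀ y, F y ≤ F' y) (x : Plane) (r : ℝ) : dAvg F x r ≤ dAvg F' x r := by
  unfold dAvg
  refine div_le_div_of_nonneg_right ?_ (by have := Real.pi_pos; positivity)
  exact setIntegral_mono (loc_integrableOn_ball hF x r) (loc_integrableOn_ball hF' x r) h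

/-- change of variables `y ↦ y + h` (write the set integral with `indicator`, `integral_add_right_eq_self`). -/
theorem dAvg_translate (F : Plane → ℝ) (x h : Plane) (r : ℝ) :
    dAvg F (x + h) r = dAvg (fun y => F (y + h)) x r := by
  unfold dAvg
  congr 1
  rw [← integral_indicator Metric.isOpen_ball.measurableSet,
    ← integral_indicator Metric.isOpen_ball.measurableSet,
    ← integral_add_right_eq_self (fun y => (Metric.ball (x + h) r).indicator F y) h]
  refine integral_congr_ae (Filter.Eventually.of_forall fun y => ?_)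
  by_cases hy : y ∈ Metric.ball x r
  · have hy' : y + h ∈ Metric.ball (x + h) r := by
      rw [Metric.mem_ball, dist_add_right]
      exact hy
    simp only [Set.indicator_of_mem hy, Set.indicator_of_mem hy']
  · have hy' : y + h ∉ Metric.ball (x + h) r := by
      rw [Metric.mem_ball, dist_add_right]
      exact hy
    simp only [Set.indicator_of_notMem hy, Set.indicator_of_notMem hy']

/-- `dAvg F y r - dAvg F x r = dAvg (F (· + (y - x)) - F) x r`, `dAvg_abs_le`, `W11.trans_est`. -/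
theorem dAvg_lip {F : Plane → ℝ} {g : Plane → Plane} (hW : W11 F g) {a r : ℝ} (ha : 0 < a) (har : a ≤ r)
    (x y : Plane) : |dAvg F x r - dAvg F y r| ≤ (∫ z, ‖g z‖) / (Real.pi * a ^ 2) * dist x y := by
  have hFh : Integrable (fun z => F (z + (y - x))) := hW.intF.comp_add_right (y - x)
  have e1 : dAvg F y r = dAvg (fun z => F (z + (y - x))) x r := by
    rw [← dAvg_translate, add_sub_cancel]
  have e2 : dAvg (fun z => F (z + (y - x)) - F z) x r = dAvg F y r - dAvg F x r := by
    rw [dAvg_sub hFh.locallyIntegrable hW.intF.locallyIntegrable, e1]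
  have h1 := dAvg_abs_le (hFh.sub hW.intF) ha har x
  have h1' : |dAvg (fun z => F (z + (y - x)) - F z) x r|
      ≤ (∫ z, |F (z + (y - x)) - F z|) / (Real.pi * a ^ 2) := h1
  have h2 := hW.trans_est (y - x)
  have hpos : 0 < Real.pi * a ^ 2 := by positivity
  rw [abs_sub_comm, ← e2]
  calc |dAvg (fun z => F (z + (y - x)) - F z) x r|
      ≤ (∫ z, |F (z + (y - x)) - F z|) / (Real.pi * a ^ 2) := h1'
    _ ≤ (‖y - x‖ * ∫ z, ‖g z‖) / (Real.pi * a ^ 2) := div_le_div_of_nonneg_right h2 hpos.le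
    _ = (∫ z, ‖g z‖) / (Real.pi * a ^ 2) * dist x y := by
        rw [dist_comm, dist_eq_norm]
        ring

/-- `∫_{ball x r} ⟪p, y - x⟫ dy = 0`: the map `y ↦ 2 • x - y` preserves the measure and the ball and flips the sign. -/
theorem integral_ball_inner (p x : Plane) (r : ℝ) : ∫ y in Metric.ball x r, inner ℝ p (y - x) = 0 := by
  set f : Plane → ℝ := (Metric.ball x r).indicator (fun y => inner ℝ p (y - x)) with hf
  have h1 : ∫ y in Metric.ball x r, inner ℝ p (y - x) = ∫ y, f y :=
    (integral_indicator measurableSet_ball).symm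
  have h2 : ∫ y, f (x + x - y) = ∫ y, f y := integral_sub_left_eq_self f volume (x + x)
  have h3 : ∀ y, f (x + x - y) = - f y := by
    intro y
    simp only [hf, Set.indicator]
    have hxy : x + x - y - x = -(y - x) := by abel
    have hmem : (x + x - y ∈ Metric.ball x r) ↔ y ∈ Metric.ball x r := by
      rw [Metric.mem_ball, Metric.mem_ball, dist_eq_norm, dist_eq_norm, hxy, norm_neg]
    by_cases hy : y ∈ Metric.ball x r
    · rw [if_pos hy, if_pos (hmem.2 hy), hxy, inner_neg_right]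
    · rw [if_neg hy, if_neg (fun h => hy (hmem.1 h))]; simp
  have h4 : ∫ y, f y = - ∫ y, f y := by
    conv_lhs => rw [← h2]
    simp only [h3]
    rw [integral_neg]
  rw [h1]; linarith

theorem dAvg_affine (c : ℝ) (p z x : Plane) {r : ℝ} (hr : 0 < r) :
    dAvg (fun y => c + inner ℝ p (y - z)) x r = c + inner ℝ p (x - z) := by
  unfold dAvg
  have hA : ∀ y : Plane, c + inner ℝ p (y - z) = (c + inner ℝ p (x - z)) + inner ℝ p (y - x) := by
    intro y
    rw [add_assoc, ← inner_add_right]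
    congr 2
    abel
  rw [show (fun y : Plane => c + inner ℝ p (y - z))
      = fun y : Plane => (c + inner ℝ p (x - z)) + inner ℝ p (y - x) from funext hA]
  have hi1 : IntegrableOn (fun _ : Plane => c + inner ℝ p (x - z)) (Metric.ball x r) :=
    loc_integrableOn_ball (continuous_const.locallyIntegrable) x r
  have hi2 : IntegrableOn (fun y : Plane => inner ℝ p (y - x)) (Metric.ball x r) :=
    loc_integrableOn_ball (Continuous.locallyIntegrable (by fun_prop)) x r
  rw [integral_add hi1 hi2, integral_ball_inner, add_zero, setIntegral_const, vol_ball_real x hr.le,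
    smul_eq_mul]
  have hne : Real.pi * r ^ 2 ≠ 0 := by positivity
  field_simp

/-! ### suprema -/

/-- purely about `sSup` in `ℝ` -/
theorem abs_sSup_image_sub_le {I : Set ℝ} (hne : I.Nonempty) {φ ψ : ℝ → ℝ} {δ : ℝ}
    (hφ : BddAbove (φ '' I)) (hψ : BddAbove (ψ '' I)) (h : ∀ r ∈ I, |φ r - ψ r| ≤ δ) :
    |sSup (φ '' I) - sSup (ψ '' I)| ≤ δ := by
  have h1 : sSup (φ '' I) ≤ sSup (ψ '' I) + δ := by
    refine csSup_le (hne.image _) ?_
    rintro _ ⟨r, hr, rfl⟩
    have e1 := (abs_le.1 (h r hr)).2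
    have e2 : ψ r ≤ sSup (ψ '' I) := le_csSup hψ ⟨r, hr, rfl⟩
    linarith
  have h2 : sSup (ψ '' I) ≤ sSup (φ '' I) + δ := by
    refine csSup_le (hne.image _) ?_
    rintro _ ⟨r, hr, rfl⟩
    have e1 := (abs_le.1 (h r hr)).1
    have e2 : φ r ≤ sSup (φ '' I) := le_csSup hφ ⟨r, hr, rfl⟩
    linarith
  rw [abs_le]
  constructor <;> linarith

theorem supI_bdd {F : Plane → ℝ} (hF : Integrable F) {a : ℝ} (ha : 0 < a) {I : Set ℝ} (hI : I ⊆ Ici a)
    (x : Plane) : BddAbove ((fun r => dAvg F x r) '' I) := by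
  refine ⟨(∫ y, |F y|) / (Real.pi * a ^ 2), ?_⟩
  rintro _ ⟨r, hr, rfl⟩
  exact (le_abs_self _).trans (dAvg_abs_le hF ha (hI hr) x)

theorem le_supI {F : Plane → ℝ} (hF : Integrable F) {a : ℝ} (ha : 0 < a) {I : Set ℝ} (hI : I ⊆ Ici a)
    (x : Plane) {r : ℝ} (hr : r ∈ I) : dAvg F x r ≤ supI F I x :=
  le_csSup (supI_bdd hF ha hI x) ⟨r, hr, rfl⟩

theorem supI_abs_le {F : Plane → ℝ} (hF : Integrable F) {a : ℝ} (ha : 0 < a) {I : Set ℝ}
    (hI : I ⊆ Ici a) (hne : I.Nonempty) (x : Plane) :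
    |supI F I x| ≤ (∫ y, |F y|) / (Real.pi * a ^ 2) := by
  obtain ⟨r0, hr0⟩ := hne
  rw [abs_le]
  constructor
  · have e1 := (abs_le.1 (dAvg_abs_le hF ha (hI hr0) x)).1
    exact e1.trans (le_supI hF ha hI x hr0)
  · refine csSup_le (Set.Nonempty.image _ ⟨r0, hr0⟩) ?_
    rintro _ ⟨r, hr, rfl⟩
    exact (le_abs_self _).trans (dAvg_abs_le hF ha (hI hr) x)

theorem supI_close {F F' : Plane → ℝ} (hF : Integrable F) (hF' : Integrable F') {a : ℝ} (ha : 0 < a)
    {I : Set ℝ} (hI : I ⊆ Ici a) (hne : I.Nonempty) (x : Plane) :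
    |supI F I x - supI F' I x| ≤ (∫ y, |F y - F' y|) / (Real.pi * a ^ 2) := by
  refine abs_sSup_image_sub_le hne (supI_bdd hF ha hI x) (supI_bdd hF' ha hI x) ?_
  intro r hr
  have e1 := dAvg_abs_le (hF.sub hF') ha (hI hr) x
  have e2 : dAvg (fun y => F y - F' y) x r = dAvg F x r - dAvg F' x r :=
    dAvg_sub hF.locallyIntegrable hF'.locallyIntegrable x r
  rw [← e2]
  exact e1

theorem supI_lip {F : Plane → ℝ} {g : Plane → Plane} (hW : W11 F g) {a : ℝ} (ha : 0 < a) {I : Set ℝ}
    (hI : I ⊆ Ici a) (hne : I.Nonempty) :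
    LipschitzWith (Real.toNNReal ((∫ z, ‖g z‖) / (Real.pi * a ^ 2))) (supI F I) := by
  have hC : 0 ≤ (∫ z, ‖g z‖) / (Real.pi * a ^ 2) := by
    have h0 : 0 ≤ ∫ z, ‖g z‖ := integral_nonneg fun _ => norm_nonneg _
    have := Real.pi_pos
    positivity
  refine LipschitzWith.of_dist_le_mul fun x y => ?_
  rw [Real.coe_toNNReal _ hC, Real.dist_eq]
  refine abs_sSup_image_sub_le hne (supI_bdd hW.intF ha hI x) (supI_bdd hW.intF ha hI y) ?_
  intro r hr
  exact dAvg_lip hW ha (hI hr) x y

theorem supI_mono {F : Plane → ℝ} (hF : Integrable F) {a : ℝ} (ha : 0 < a) {I J : Set ℝ}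
    (hJ : J ⊆ Ici a) (hIJ : I ⊆ J) (hne : I.Nonempty) (x : Plane) : supI F I x ≤ supI F J x := by
  exact csSup_le_csSup (supI_bdd hF ha hJ x) (hne.image _) (image_mono hIJ)

/-- `image_union`, `csSup_union`. -/
theorem supI_union {F : Plane → ℝ} (hF : Integrable F) {a : ℝ} (ha : 0 < a) {I J : Set ℝ}
    (hI : I ⊆ Ici a) (hJ : J ⊆ Ici a) (hne : I.Nonempty) (hne' : J.Nonempty) (x : Plane) :
    supI F (I ∪ J) x = max (supI F I x) (supI F J x) := by
  unfold supI
  rw [image_union, csSup_union (supI_bdd hF ha hI x) (hne.image _) (supI_bdd hF ha hJ x)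
    (hne'.image _)]

theorem tail_eq_max {F : Plane → ℝ} (hF : Integrable F) {a b : ℝ} (ha : 0 < a) (hab : a ≤ b) (x : Plane) :
    tail F a x = max (band F a b x) (tail F b x) := by
  rw [tail_eq_supI, band_eq_supI, tail_eq_supI,
    ← supI_union hF ha Icc_subset_Ici_self (Ici_subset_Ici.2 hab) (nonempty_Icc.2 hab) nonempty_Ici,
    Icc_union_Ici_eq_Ici hab]

/-- `0 ≤ tail - band = (tail F b - band F a b)₊`, `tail F b x ≤ M_b`, `band F a b x ≥ dAvg F x b ≥ - M_b`, `M_b = (∫|F|)/(π b²)`. -/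
theorem tail_sub_band_le {F : Plane → ℝ} (hF : Integrable F) {a b : ℝ} (ha : 0 < a) (hab : a ≤ b)
    (x : Plane) : |band F a b x - tail F a x| ≤ 2 * ((∫ y, |F y|) / (Real.pi * b ^ 2)) := by
  have hb : 0 < b := lt_of_lt_of_le ha hab
  have h1 : |tail F b x| ≤ (∫ y, |F y|) / (Real.pi * b ^ 2) :=
    supI_abs_le hF hb Subset.rfl nonempty_Ici x
  have h2 : dAvg F x b ≤ band F a b x :=
    le_supI hF ha Icc_subset_Ici_self x (right_mem_Icc.2 hab)
  have h3 : |dAvg F x b| ≤ (∫ y, |F y|) / (Real.pi * b ^ 2) := dAvg_abs_le hF hb le_rfl x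
  have h4 := abs_le.1 h1
  have h5 := abs_le.1 h3
  rw [tail_eq_max hF ha hab x, abs_le]
  rcases le_total (band F a b x) (tail F b x) with h | h
  · rw [max_eq_right h]
    constructor <;> linarith [h4.1, h4.2, h5.1, h5.2]
  · rw [max_eq_left h]
    constructor <;> linarith [h4.1, h4.2, h5.1, h5.2]

/-- locality and invariance under affine functions.  For `x ∈ ball z d` and `r ≤ b ≤ d`, `ball x r ⊆ ball z (2d)`, so
`dAvg F x r = dAvg (affine + u) x r = c + ⟪p, x - z⟫ + dAvg u x r` (`dAvg_congr`, `dAvg_add`, `dAvg_affine`); then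
`sSup ((fun r => A + φ r) '' I) = A + sSup (φ '' I)` for a nonempty set bounded above. -/
theorem band_affine_local {F u : Plane → ℝ} (hu : Integrable u) {c : ℝ} {p z : Plane} {a b d : ℝ}
    (ha : 0 < a) (hab : a ≤ b) (hbd : b ≤ d)
    (h : ∀ y ∈ Metric.ball z (2 * d), F y = c + inner ℝ p (y - z) + u y) :
    ∀ x ∈ Metric.ball z d, band F a b x = c + inner ℝ p (x - z) + band u a b x := by
  intro x hx
  have hxz : dist x z < d := Metric.mem_ball.1 hx
  obtain ⟨A, hA⟩ : ∃ A, A = c + inner ℝ p (x - z) := ⟨_, rfl⟩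
  have haff : LocallyIntegrable (fun y : Plane => c + inner ℝ p (y - z)) := by
    apply Continuous.locallyIntegrable
    fun_prop
  have key : ∀ r ∈ Icc a b, dAvg F x r = A + dAvg u x r := by
    intro r hr
    have hr0 : 0 < r := lt_of_lt_of_le ha hr.1
    have h1 : dAvg F x r = dAvg (fun y => (c + inner ℝ p (y - z)) + u y) x r := by
      apply dAvg_congr
      intro y hy
      apply h
      rw [Metric.mem_ball] at hy ⊢
      have := dist_triangle y x z
      linarith [hr.2]
    rw [h1, dAvg_add haff hu.locallyIntegrable, dAvg_affine c p z x hr0, hA]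
  have hne : ((fun r => dAvg u x r) '' Icc a b).Nonempty := (nonempty_Icc.2 hab).image _
  have hbdd : BddAbove ((fun r => dAvg u x r) '' Icc a b) := supI_bdd hu ha Icc_subset_Ici_self x
  have himg : (fun r => dAvg F x r) '' Icc a b
      = (OrderIso.addLeft A) '' ((fun r => dAvg u x r) '' Icc a b) := by
    rw [Set.image_image]
    exact Set.image_congr key
  rw [← hA]
  unfold band
  rw [himg, ← (OrderIso.addLeft A).map_csSup' hne hbdd]
  rfl

end

end Claimed.Agent.R030
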