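import Claimed.Agent.R030.Avg

/-!
# Row 30, (Br): the frozen `maximal`, `maximalReal` (ENNReal-valued, all radii) versus `dAvg |f|` and `tail |f|`

`absoluteDiskAverage f x r = (∫⁻ y in ball x r, ofReal |f y|) / ofReal (π r²)`, `maximal f x = ⨆ r > 0, absoluteDiskAverage f x r`,
`maximalReal f x = (maximal f x).toReal` (namespace `Claims.C0044.CenteredDiskEndpoint`; unfold with `show`/`rfl`/`unfold`).
For `f` integrable and `r > 0`: `∫⁻ ofReal |f| = ofReal (∫ |f|)` (`ofReal_integral_eq_lintegral_ofReal`), `ENNReal.ofReal_div_of_pos`.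
-/

set_option autoImplicit false

open MeasureTheory Set Filter
open scoped ENNReal NNReal Topology ContDiff
open Claims.C0044.CenteredDiskEndpoint (maximal maximalReal absoluteDiskAverage)

namespace Claimed.Agent.R030

theorem absAvg_eq {f : Plane → ℝ} (hf : Integrable f) (x : Plane) {r : ℝ} (hr : 0 < r) :
    absoluteDiskAverage f x r = ENNReal.ofReal (dAvg (fun y => |f y|) x r) := by
  unfold absoluteDiskAverage dAvg
  have hpos : 0 < Real.pi * r ^ 2 := by positivity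
  rw [ENNReal.ofReal_div_of_pos hpos]
  congr 1
  rw [ofReal_integral_eq_lintegral_ofReal hf.abs.integrableOn
    (Eventually.of_forall fun y => abs_nonneg _)]

theorem dAvg_abs_nonneg (f : Plane → ℝ) (x : Plane) (r : ℝ) : 0 ≤ dAvg (fun y => |f y|) x r := by
  exact div_nonneg (integral_nonneg fun y => abs_nonneg _) (by positivity)

/-- `iSup₂_le`, `absAvg_eq`, `ENNReal.ofReal_le_ofReal`. -/
theorem maximal_le_of_dom {f : Plane → ℝ} (hf : Integrable f) {x : Plane} {D : ℝ}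
    (h : ∀ r : ℝ, 0 < r → dAvg (fun y => |f y|) x r ≤ D) : maximal f x ≤ ENNReal.ofReal D := by
  refine iSup₂_le fun r hr => ?_
  rw [absAvg_eq hf x hr]
  exact ENNReal.ofReal_le_ofReal (h r hr)

theorem maximalReal_le_of_dom {f : Plane → ℝ} (hf : Integrable f) {x : Plane} {D : ℝ}
    (h : ∀ r : ℝ, 0 < r → dAvg (fun y => |f y|) x r ≤ D) : maximalReal f x ≤ D := by
  have hD : 0 ≤ D := (dAvg_abs_nonneg f x 1).trans (h 1 one_pos)
  exact ENNReal.toReal_le_of_le_ofReal hD (maximal_le_of_dom hf h)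

theorem maximalReal_nonneg (f : Plane → ℝ) (x : Plane) : 0 ≤ maximalReal f x := ENNReal.toReal_nonneg

/-- `le_iSup₂`, `absAvg_eq`, `ENNReal.ofReal_le_iff_le_toReal`. -/
theorem dAvg_le_maximalReal {f : Plane → ℝ} (hf : Integrable f) {x : Plane} (hx : maximal f x ≠ ⊤)
    {r : ℝ} (hr : 0 < r) : dAvg (fun y => |f y|) x r ≤ maximalReal f x := by
  refine (ENNReal.ofReal_le_iff_le_toReal hx).1 ?_
  rw [← absAvg_eq hf x hr]
  exact le_iSup₂ (f := fun (r : ℝ) (_ : 0 < r) => absoluteDiskAverage f x r) r hr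

theorem tail_abs_nonneg {f : Plane → ℝ} (hf : Integrable f) {a : ℝ} (ha : 0 < a) (x : Plane) :
    0 ≤ tail (fun y => |f y|) a x :=
  (dAvg_abs_nonneg f x a).trans
    (le_supI (F := fun y => |f y|) hf.abs ha Subset.rfl x (mem_Ici.2 le_rfl))

theorem tail_le_maximalReal {f : Plane → ℝ} (hf : Integrable f) {x : Plane} (hx : maximal f x ≠ ⊤)
    {a : ℝ} (ha : 0 < a) : tail (fun y => |f y|) a x ≤ maximalReal f x := by
  refine csSup_le (nonempty_Ici.image _) ?_
  rintro _ ⟨r, hr, rfl⟩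
  exact dAvg_le_maximalReal hf hx (lt_of_lt_of_le ha (mem_Ici.1 hr))

/-- for every `c < maximalReal f x` there is `r > 0` with `c < dAvg |f| x r` (`lt_iSup_iff` in `ℝ≥0∞`). -/
theorem exists_dAvg_gt {f : Plane → ℝ} (hf : Integrable f) {x : Plane} (hx : maximal f x ≠ ⊤) {c : ℝ}
    (hc : c < maximalReal f x) : ∃ r : ℝ, 0 < r ∧ c < dAvg (fun y => |f y|) x r := by
  rcases lt_or_ge c 0 with hc0 | hc0
  · exact ⟨1, one_pos, lt_of_lt_of_le hc0 (dAvg_abs_nonneg f x 1)⟩
  · have h1 : ENNReal.ofReal c < maximal f x := (ENNReal.ofReal_lt_iff_lt_toReal hc0 hx).2 hc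
    have h2 : ENNReal.ofReal c < ⨆ (r : ℝ) (_ : 0 < r), absoluteDiskAverage f x r := h1
    obtain ⟨r, hr⟩ := lt_iSup_iff.1 h2
    obtain ⟨hr0, hr⟩ := lt_iSup_iff.1 hr
    rw [absAvg_eq hf x hr0] at hr
    exact ⟨r, hr0, (ENNReal.ofReal_lt_ofReal_iff').1 hr |>.1⟩

/-- squeeze: `tail ≤ maximalReal` always; given `c < maximalReal`, take `r` from `exists_dAvg_gt`; for `(1/2)^i ≤ r`,
`tail |f| ((1/2)^i) x ≥ dAvg |f| x r > c` (`le_supI`). -/
theorem tail_tendsto_maximalReal {f : Plane → ℝ} (hf : Integrable f) {x : Plane}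
    (hx : maximal f x ≠ ⊤) :
    Tendsto (fun i : ℕ => tail (fun y => |f y|) ((1 / 2 : ℝ) ^ i) x) atTop (𝓝 (maximalReal f x)) := by
  refine tendsto_order.2 ⟨fun c hc => ?_, fun b hb => ?_⟩
  · obtain ⟨r, hr0, hr⟩ := exists_dAvg_gt hf hx hc
    have ht : Tendsto (fun i : ℕ => ((1 / 2 : ℝ)) ^ i) atTop (𝓝 0) :=
      tendsto_pow_atTop_nhds_zero_of_lt_one (by norm_num) (by norm_num)
    filter_upwards [ht.eventually (gt_mem_nhds hr0)] with i hi
    exact lt_of_lt_of_le hr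
      (le_supI (F := fun y => |f y|) hf.abs (by positivity : (0 : ℝ) < (1 / 2 : ℝ) ^ i) Subset.rfl x
        (mem_Ici.2 hi.le))
  · exact Filter.Eventually.of_forall fun i =>
      lt_of_le_of_lt (tail_le_maximalReal hf hx (by positivity)) hb

end Claimed.Agent.R030
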