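import Claimed.Agent.R030.Moll
import Claimed.Agent.R030.Cut
import Claimed.Agent.R030.WG

/-!
# Row 30, (Den): smooth compactly supported functions are dense in `W^{1,1}(ℝ²)`

1. `W11.mconv` : `mconv n F` is smooth, integrable, its pointwise gradient is `mconv n g` (integrable).
2. `cutoff_approx` : `u` smooth, `u` and `gradient u` integrable.  `H_R = cutS 0 R * u` is smooth with compact support,
   `|H_R - u| ≤ |u| 1_{‖x‖ ≥ 2R}`, `gradient H_R - gradient u = (cutS 0 R - 1) • gradient u + u • gradient (cutS 0 R)`,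
   norm `≤ ‖gradient u‖ 1_{‖x‖ ≥ 2R} + (cutC / R) |u|`.  Both integrals tend to `0` as `R → ∞` (dominated convergence for the first kind).
3. `W11.exists_smooth` : combine with `mconv_tendsto_L1` for `F` and for `g`.
-/

set_option autoImplicit false

open MeasureTheory Set Filter
open scoped ENNReal NNReal Topology ContDiff

namespace Claimed.Agent.R030

theorem W11.mconv_smooth {F : Plane → ℝ} {g : Plane → Plane} (h : W11 F g) (n : ℕ) :
    ContDiff ℝ ∞ (mconv n F) ∧ Integrable (mconv n F) ∧ Integrable (gradient (mconv n F)) ∧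
      ∀ x, gradient (mconv n F) x = mconv n g x := by
  have hg := mconv_gradient n h.intF.locallyIntegrable h.intg.locallyIntegrable h.wg
  refine ⟨mconv_contDiff n h.intF.locallyIntegrable, mconv_integrable n h.intF, ?_, hg⟩
  rw [show gradient (mconv n F) = mconv n g from funext hg]
  exact mconv_integrable n h.intg

/-- tails of an integrable function: `∫ ‖w x‖ 1_{‖x‖ ≥ R} → 0` (dominated convergence, or
`MeasureTheory.tendsto_setIntegral_of_antitone`).  Stated with `if`. -/
theorem tail_integral_small {E : Type*} [NormedAddCommGroup E] {w : Plane → E} (hw : Integrable w)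
    {ε : ℝ} (hε : 0 < ε) : ∃ R₀ : ℝ, 0 < R₀ ∧ ∀ R ≥ R₀, ∫ x, (if R ≤ ‖x‖ then ‖w x‖ else 0) ≤ ε := by
  have hind : ∀ R : ℝ, (fun x : Plane => if R ≤ ‖x‖ then ‖w x‖ else 0)
      = {x : Plane | R ≤ ‖x‖}.indicator (fun x => ‖w x‖) := by
    intro R
    funext x
    rw [Set.indicator_apply]
    rfl
  have hlim : Tendsto (fun R : ℝ => ∫ x, (if R ≤ ‖x‖ then ‖w x‖ else 0)) atTop
      (𝓝 (∫ _ : Plane, (0 : ℝ))) := by
    refine tendsto_integral_filter_of_dominated_convergence (fun x => ‖w x‖)
      (Eventually.of_forall fun R => ?_) (Eventually.of_forall fun R => Eventually.of_forall fun x => ?_)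
      hw.norm (Eventually.of_forall fun x => ?_)
    · rw [hind R]
      exact hw.norm.aestronglyMeasurable.indicator (measurableSet_le measurable_const measurable_norm)
    · split_ifs
      · rw [norm_norm]
      · rw [norm_zero]
        exact norm_nonneg _
    · refine tendsto_const_nhds.congr' ?_
      filter_upwards [eventually_gt_atTop ‖x‖] with R hR
      rw [if_neg (not_le.2 hR)]
  rw [integral_zero] at hlim
  obtain ⟨R₁, hR₁⟩ := eventually_atTop.1 (hlim.eventually (Iic_mem_nhds hε))
  exact ⟨max R₁ 1, lt_max_of_lt_right one_pos, fun R hR => hR₁ R ((le_max_left _ _).trans hR)⟩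

/-- pointwise product rule: `gradient (cutS 0 R * u) x = cutS 0 R x • gradient u x + u x • gradient (cutS 0 R) x`
(`ext i`, `gradient_apply`, `fderiv_mul` / `fderiv_fun_mul`). -/
theorem gradient_cut_mul {u : Plane → ℝ} (hu : ContDiff ℝ ∞ u) (z : Plane) (R : ℝ) (x : Plane) :
    gradient (fun y => cutS z R y * u y) x = cutS z R x • gradient u x + u x • gradient (cutS z R) x := by
  have hc : DifferentiableAt ℝ (cutS z R) x :=
    ((cutS_contDiff z R).differentiable (by simp)).differentiableAt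
  have hu' : DifferentiableAt ℝ u x := (hu.differentiable (by simp)).differentiableAt
  ext i
  rw [gradient_apply, fderiv_fun_mul hc hu']
  simp only [PiLp.add_apply, PiLp.smul_apply, gradient_apply, smul_eq_mul,
    _root_.add_apply, _root_.smul_apply]

/-- `|cutS 0 R x * u x - u x| ≤ if 2R ≤ ‖x‖ then |u x| else 0`  and the analogous bound for the gradient. -/
theorem cut_mul_sub_le {u : Plane → ℝ} (hu : ContDiff ℝ ∞ u) {R : ℝ} (hR : 0 < R) (x : Plane) :
    |cutS 0 R x * u x - u x| ≤ (if 2 * R ≤ ‖x‖ then ‖u x‖ else 0) ∧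
    ‖gradient (fun y => cutS 0 R y * u y) x - gradient u x‖ ≤
      (if 2 * R ≤ ‖x‖ then ‖gradient u x‖ else 0) + cutC / R * |u x| := by
  have h0 := cutS_nonneg 0 R x
  have h1 := cutS_le_one 0 R x
  have hone : ¬ (2 * R ≤ ‖x‖) → cutS 0 R x = 1 := by
    intro hx
    refine cutS_eq_one hR ?_
    rw [Metric.mem_closedBall, dist_zero_right]
    exact (not_le.1 hx).le
  constructor
  · split_ifs with hx
    · have e : cutS 0 R x * u x - u x = -((1 - cutS 0 R x) * u x) := by ring
      rw [e, abs_neg, abs_mul, abs_of_nonneg (by linarith : 0 ≤ 1 - cutS 0 R x), Real.norm_eq_abs]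
      have := abs_nonneg (u x)
      nlinarith
    · rw [hone hx]; simp
  · rw [gradient_cut_mul hu 0 R x]
    have e : cutS 0 R x • gradient u x + u x • gradient (cutS 0 R) x - gradient u x =
        (cutS 0 R x - 1) • gradient u x + u x • gradient (cutS 0 R) x := by
      rw [sub_smul, one_smul]; abel
    rw [e]
    refine (norm_add_le _ _).trans (add_le_add ?_ ?_)
    · split_ifs with hx
      · rw [norm_smul, Real.norm_eq_abs, abs_sub_comm, abs_of_nonneg (by linarith : 0 ≤ 1 - cutS 0 R x)]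
        have := norm_nonneg (gradient u x)
        nlinarith
      · rw [hone hx]; simp
    · rw [norm_smul, Real.norm_eq_abs, mul_comm]
      exact mul_le_mul_of_nonneg_right (norm_gradient_cutS_le 0 hR x) (abs_nonneg _)

/-- the truncated norm is integrable. -/
theorem tail_integrable {E : Type*} [NormedAddCommGroup E] {w : Plane → E} (hw : Integrable w) (R : ℝ) :
    Integrable (fun x : Plane => if R ≤ ‖x‖ then ‖w x‖ else 0) := by
  have hm : MeasurableSet {x : Plane | R ≤ ‖x‖} := measurableSet_le measurable_const measurable_norm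
  have h := hw.norm.indicator hm
  refine h.congr (Filter.Eventually.of_forall fun x => ?_)
  beta_reduce
  by_cases hx : R ≤ ‖x‖
  · rw [Set.indicator_of_mem (show x ∈ {x : Plane | R ≤ ‖x‖} from hx), if_pos hx]
  · rw [Set.indicator_of_notMem (show x ∉ {x : Plane | R ≤ ‖x‖} from hx), if_neg hx]

theorem cutoff_approx {u : Plane → ℝ} (hu : ContDiff ℝ ∞ u) (hi : Integrable u)
    (hgi : Integrable (gradient u)) {ε : ℝ} (hε : 0 < ε) :
    ∃ H : Plane → ℝ, ContDiff ℝ ∞ H ∧ HasCompactSupport H ∧ (∫ x, |H x - u x|) ≤ ε ∧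
      (∫ x, ‖gradient H x - gradient u x‖) ≤ ε := by
  obtain ⟨R1, hR1, h1⟩ := tail_integral_small hi hε
  obtain ⟨R2, hR2, h2⟩ := tail_integral_small hgi (half_pos hε)
  obtain ⟨I, hI⟩ : ∃ I : ℝ, I = ∫ x, |u x| := ⟨_, rfl⟩
  have hI0 : 0 ≤ I := hI ▸ integral_nonneg fun x => abs_nonneg _
  have hC := cutC_nonneg
  obtain ⟨R, hRdef⟩ : ∃ R : ℝ, R = max (max R1 R2) (2 * cutC * I / ε + 1) := ⟨_, rfl⟩
  have hRa : R1 ≤ R := hRdef ▸ (le_max_left _ _).trans (le_max_left _ _)
  have hRb : R2 ≤ R := hRdef ▸ (le_max_right _ _).trans (le_max_left _ _)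
  have hRc : 2 * cutC * I / ε + 1 ≤ R := hRdef ▸ le_max_right _ _
  have hR : 0 < R := hR1.trans_le hRa
  refine ⟨fun y => cutS 0 R y * u y, (cutS_contDiff 0 R).mul hu, (cutS_compact 0 hR).mul_right,
    ?_, ?_⟩
  · refine le_trans ?_ (h1 (2 * R) (by linarith))
    exact integral_mono_of_nonneg (Filter.Eventually.of_forall fun x => abs_nonneg _)
      (tail_integrable hi (2 * R))
      (Filter.Eventually.of_forall fun x => (cut_mul_sub_le hu hR x).1)
  · have hint : Integrable (fun x : Plane =>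
        (if 2 * R ≤ ‖x‖ then ‖gradient u x‖ else 0) + cutC / R * |u x|) :=
      (tail_integrable hgi (2 * R)).add (hi.abs.const_mul _)
    have h3 : ∫ x, ‖gradient (fun y => cutS 0 R y * u y) x - gradient u x‖ ≤
        ∫ x : Plane, ((if 2 * R ≤ ‖x‖ then ‖gradient u x‖ else 0) + cutC / R * |u x|) :=
      integral_mono_of_nonneg (Filter.Eventually.of_forall fun x => norm_nonneg _) hint
        (Filter.Eventually.of_forall fun x => (cut_mul_sub_le hu hR x).2)
    rw [integral_add (tail_integrable hgi (2 * R)) (hi.abs.const_mul _), integral_const_mul,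
      ← hI] at h3
    have h4 := h2 (2 * R) (by linarith)
    have h5 : cutC / R * I ≤ ε / 2 := by
      rw [div_mul_eq_mul_div, div_le_iff₀ hR]
      have h6 : 2 * cutC * I / ε ≤ R := by linarith
      rw [div_le_iff₀ hε] at h6
      linarith
    linarith

/-- (Den) -/
theorem W11.exists_smooth {F : Plane → ℝ} {g : Plane → Plane} (h : W11 F g) {ε : ℝ} (hε : 0 < ε) :
    ∃ H : Plane → ℝ, ContDiff ℝ ∞ H ∧ HasCompactSupport H ∧ (∫ x, |H x - F x|) ≤ ε ∧
      (∫ x, ‖gradient H x - g x‖) ≤ ε := by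
  have hε2 : 0 < ε / 2 := by positivity
  have e1 := (mconv_tendsto_L1 h.intF).eventually (ge_mem_nhds hε2)
  have e2 := (mconv_tendsto_L1 h.intg).eventually (ge_mem_nhds hε2)
  obtain ⟨n, hn1, hn2⟩ := (e1.and e2).exists
  obtain ⟨hs, hi, hgi, hgr⟩ := h.mconv_smooth n
  obtain ⟨H, hH, hHc, hH1, hH2⟩ := cutoff_approx hs hi hgi hε2
  have hW := w11_of_smooth hH hHc
  refine ⟨H, hH, hHc, ?_, ?_⟩
  · calc (∫ x, |H x - F x|) ≤ ∫ x, (|H x - mconv n F x| + ‖mconv n F x - F x‖) := by
          refine integral_mono (hW.intF.sub h.intF).abs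
            ((hW.intF.sub hi).abs.add (hi.sub h.intF).norm) fun x => ?_
          show |H x - F x| ≤ |H x - mconv n F x| + ‖mconv n F x - F x‖
          rw [Real.norm_eq_abs]
          exact abs_sub_le _ _ _
      _ = (∫ x, |H x - mconv n F x|) + ∫ x, ‖mconv n F x - F x‖ :=
          integral_add (hW.intF.sub hi).abs (hi.sub h.intF).norm
      _ ≤ ε / 2 + ε / 2 := add_le_add hH1 hn1
      _ = ε := by ring
  · have hig : Integrable (mconv n g) := mconv_integrable n h.intg
    calc (∫ x, ‖gradient H x - g x‖)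
        ≤ ∫ x, (‖gradient H x - gradient (mconv n F) x‖ + ‖mconv n g x - g x‖) := by
          refine integral_mono (hW.intg.sub h.intg).norm
            ((hW.intg.sub hgi).norm.add (hig.sub h.intg).norm) fun x => ?_
          show ‖gradient H x - g x‖ ≤ ‖gradient H x - gradient (mconv n F) x‖ + ‖mconv n g x - g x‖
          rw [hgr x]
          exact norm_sub_le_norm_sub_add_norm_sub _ _ _
      _ = (∫ x, ‖gradient H x - gradient (mconv n F) x‖) + ∫ x, ‖mconv n g x - g x‖ :=
          integral_add (hW.intg.sub hgi).norm (hig.sub h.intg).norm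
      _ ≤ ε / 2 + ε / 2 := add_le_add hH2 hn2
      _ = ε := by ring

/-- sequence version: apply `exists_smooth` with `ε = 1/(n+1)`, `choose`, squeeze. -/
theorem W11.exists_seq {F : Plane → ℝ} {g : Plane → Plane} (h : W11 F g) :
    ∃ H : ℕ → Plane → ℝ, (∀ n, ContDiff ℝ ∞ (H n)) ∧ (∀ n, HasCompactSupport (H n)) ∧
      Tendsto (fun n => ∫ x, |H n x - F x|) atTop (𝓝 0) ∧
      Tendsto (fun n => ∫ x, ‖gradient (H n) x - g x‖) atTop (𝓝 0) := by
  have hpos : ∀ n : ℕ, (0 : ℝ) < 1 / ((n : ℝ) + 1) := fun n => by positivity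
  choose H h1 h2 h3 h4 using fun n : ℕ => h.exists_smooth (hpos n)
  refine ⟨H, h1, h2, ?_, ?_⟩
  · exact squeeze_zero (fun n => integral_nonneg fun x => abs_nonneg _) h3
      tendsto_one_div_add_atTop_nhds_zero_nat
  · exact squeeze_zero (fun n => integral_nonneg fun x => norm_nonneg _) h4
      tendsto_one_div_add_atTop_nhds_zero_nat

/-- consequence: `∫ ‖gradient (H n)‖ → ∫ ‖g‖` (reverse triangle inequality; `w11_of_smooth` for integrability). -/
theorem tendsto_norm_of_L1 {gn : ℕ → Plane → Plane} {g : Plane → Plane} (hgn : ∀ n, Integrable (gn n))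
    (hg : Integrable g) (hL : Tendsto (fun n => ∫ x, ‖gn n x - g x‖) atTop (𝓝 0)) :
    Tendsto (fun n => ∫ x, ‖gn n x‖) atTop (𝓝 (∫ x, ‖g x‖)) := by
  rw [tendsto_iff_dist_tendsto_zero]
  refine squeeze_zero (fun n => dist_nonneg) (fun n => ?_) hL
  rw [Real.dist_eq, ← integral_sub (hgn n).norm hg.norm]
  calc |∫ x, (‖gn n x‖ - ‖g x‖)| ≤ ∫ x, |‖gn n x‖ - ‖g x‖| := abs_integral_le_integral_abs
    _ ≤ ∫ x, ‖gn n x - g x‖ :=
      integral_mono ((hgn n).norm.sub hg.norm).abs ((hgn n).sub hg).norm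
        (fun x => abs_norm_sub_norm_le _ _)

end Claimed.Agent.R030
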