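import Claimed.Agent.R030.A0
import Claimed.Agent.R030.A2
import Claimed.Agent.R030.A3
import Claimed.Agent.R030.Abs
import Claimed.Agent.R030.Bridge

/-!
# Row 30: `result_of_crux : SignedFiniteBandStatement → EndpointStatement`

`F = |f|`, `gF = sign f • g` (`W11.abs`), `Nn F i = tail F ((1/2)^i)` (Lipschitz, increasing in `i`, converging to `maximalReal f` a.e.),
`X i = gradient (Nn F i)`, `∫‖X i‖ ≤ C ∫‖gF‖` (`tail_grad_bound`).  `X i` is Cauchy in `L¹` (`cauchy_L1_abstract`, hypotheses from (P) = `ae_grad_eq_of_le`,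
`tail_eq_max` and (A2) = `small_band`), `G` its limit.  `Nn F i` is dominated by the locally integrable `D` of (A0).  Pass to the limit in the weak formulation.
-/

set_option autoImplicit false

open MeasureTheory Set Filter
open scoped ENNReal NNReal Topology ContDiff
open Claims.C0044.CenteredDiskEndpoint (maximal maximalReal absoluteDiskAverage)

namespace Claimed.Agent.R030

noncomputable section

/-- the increasing sequence of Lipschitz functions -/
def Nn (F : Plane → ℝ) (i : ℕ) : Plane → ℝ := tail F ((1 / 2 : ℝ) ^ i)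

theorem half_pow_pos (i : ℕ) : (0 : ℝ) < (1 / 2 : ℝ) ^ i := by positivity

theorem Nn_lip {F : Plane → ℝ} {g : Plane → Plane} (hW : W11 F g) (i : ℕ) :
    LipschitzWith (Real.toNNReal ((∫ z, ‖g z‖) / (Real.pi * ((1 / 2 : ℝ) ^ i) ^ 2))) (Nn F i) :=
  tail_lip hW (half_pow_pos i)

/-- `supI_mono` (`Ici ((1/2)^i) ⊆ Ici ((1/2)^j)` for `i ≤ j`). -/
theorem Nn_mono {F : Plane → ℝ} (hF : Integrable F) (x : Plane) : Monotone (fun i => Nn F i x) := by
  intro i j hij
  exact supI_mono hF (half_pow_pos j) (I := Ici ((1 / 2 : ℝ) ^ i)) (J := Ici ((1 / 2 : ℝ) ^ j)) subset_rfl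
    (Ici_subset_Ici.2 (pow_le_pow_of_le_one (by norm_num) (by norm_num) hij)) nonempty_Ici x

/-- for `i < j`:  `(1/2)^i = 2^(j-i) * (1/2)^j`. -/
theorem half_pow_eq {i j : ℕ} (hij : i < j) : (1 / 2 : ℝ) ^ i = (2 : ℝ) ^ (j - i) * (1 / 2 : ℝ) ^ j := by
  obtain ⟨k, rfl⟩ := Nat.exists_eq_add_of_le hij.le
  rw [Nat.add_sub_cancel_left, pow_add, mul_left_comm, ← mul_pow]
  norm_num

/-- hypothesis (h1) of `cauchy_L1_abstract`: `ae_grad_eq_of_le` for `Nn F i ≤ Nn F j`. -/
theorem Nn_h1 {F : Plane → ℝ} {g : Plane → Plane} (hW : W11 F g) (i j : ℕ) (hij : i < j) :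
    ∀ᵐ x, Nn F j x = Nn F i x → gradient (Nn F j) x = gradient (Nn F i) x := by
  filter_upwards [ae_grad_eq_of_le (Nn_lip hW i) (Nn_lip hW j)
    (fun x => Nn_mono hW.intF x hij.le)] with x hx h
  exact (hx h.symm).symm

/-- For `i < j` let `P = band F ((1/2)^j) (2^(j-i) (1/2)^j)`.  `Nn F j = max P (Nn F i)` (`tail_eq_max`, `half_pow_eq`), so `P ≤ Nn F j`, with equality
on `{Nn F i < Nn F j}`; by `ae_grad_eq_of_le`, `gradient (Nn F j) = gradient P` a.e. on this set.  Hence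
`∫_{Nn F i < Nn F j} ‖gradient (Nn F j) - g‖ = ∫_{…} ‖gradient P - g‖ ≤ ∫ ‖gradient P - g‖`
(`setIntegral_congr_ae`, `setIntegral_le_integral`; the set is measurable: `Nn` continuous). -/
theorem Nn_set_le {C : ℝ} (hC : CruxC C) {F : Plane → ℝ} {g : Plane → Plane} (hW : W11 F g) {i j : ℕ}
    (hij : i < j) :
    ∫ x in {x | Nn F i x < Nn F j x}, ‖gradient (Nn F j) x - g x‖ ≤
      ∫ x, ‖gradient (band F ((1 / 2 : ℝ) ^ j) ((2 : ℝ) ^ (j - i) * (1 / 2 : ℝ) ^ j)) x - g x‖ := by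
  have ha := half_pow_pos j
  have hab := le_two_pow_mul ha (j - i)
  have hmax : ∀ x, Nn F j x =
      max (band F ((1 / 2 : ℝ) ^ j) ((2 : ℝ) ^ (j - i) * (1 / 2 : ℝ) ^ j) x) (Nn F i x) := by
    intro x
    have h1 := tail_eq_max hW.intF ha hab x
    rw [← half_pow_eq hij] at h1 ⊢
    exact h1
  have hle : ∀ x, band F ((1 / 2 : ℝ) ^ j) ((2 : ℝ) ^ (j - i) * (1 / 2 : ℝ) ^ j) x ≤ Nn F j x := by
    intro x
    rw [hmax x]
    exact le_max_left _ _
  have hS : MeasurableSet {x | Nn F i x < Nn F j x} :=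
    measurableSet_lt (Nn_lip hW i).continuous.measurable (Nn_lip hW j).continuous.measurable
  have hint : Integrable (fun x =>
      ‖gradient (band F ((1 / 2 : ℝ) ^ j) ((2 : ℝ) ^ (j - i) * (1 / 2 : ℝ) ^ j)) x - g x‖) :=
    ((band_grad_bound hC hW ha (j - i)).1.sub hW.intg).norm
  have hcongr : ∫ x in {x | Nn F i x < Nn F j x}, ‖gradient (Nn F j) x - g x‖ =
      ∫ x in {x | Nn F i x < Nn F j x},
        ‖gradient (band F ((1 / 2 : ℝ) ^ j) ((2 : ℝ) ^ (j - i) * (1 / 2 : ℝ) ^ j)) x - g x‖ := by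
    refine setIntegral_congr_ae hS ?_
    filter_upwards [ae_grad_eq_of_le (band_lip hW ha hab) (Nn_lip hW j) hle] with x hx hxS
    have hxS' : Nn F i x < Nn F j x := hxS
    have heq : band F ((1 / 2 : ℝ) ^ j) ((2 : ℝ) ^ (j - i) * (1 / 2 : ℝ) ^ j) x = Nn F j x := by
      rcases max_choice (band F ((1 / 2 : ℝ) ^ j) ((2 : ℝ) ^ (j - i) * (1 / 2 : ℝ) ^ j) x) (Nn F i x)
        with h1 | h1
      · rw [hmax x, h1]
      · rw [hmax x, h1] at hxS'
        exact absurd hxS' (lt_irrefl _)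
    rw [hx heq]
  rw [hcongr]
  exact setIntegral_le_integral hint (Eventually.of_forall fun x => norm_nonneg _)

/-- hypothesis (h2): `small_band` gives `d`; choose `n0` with `(1/2)^n0 ≤ d`; `half_pow_eq`. -/
theorem Nn_h2 {C : ℝ} (h0 : 0 ≤ C) (hC : CruxC C) {F : Plane → ℝ} {g : Plane → Plane} (hW : W11 F g) :
    ∀ η > 0, ∃ n0 : ℕ, ∀ i ≥ n0, ∀ j, i < j →
      ∫ x in {x | Nn F i x < Nn F j x}, ‖gradient (Nn F j) x - g x‖ ≤ η := by
  intro η hη
  obtain ⟨d, hd, hsm⟩ := small_band h0 hC hW hη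
  obtain ⟨n0, hn0⟩ := exists_pow_lt_of_lt_one hd (by norm_num : (1 / 2 : ℝ) < 1)
  refine ⟨n0, fun i hi j hij => (Nn_set_le hC hW hij).trans (hsm _ (half_pow_pos j) _ ?_)⟩
  rw [← half_pow_eq hij]
  exact (pow_le_pow_of_le_one (by norm_num) (by norm_num) hi).trans hn0.le

/-- the limit field -/
theorem exists_limit_field {C : ℝ} (h0 : 0 ≤ C) (hC : CruxC C) {F : Plane → ℝ} {g : Plane → Plane}
    (hW : W11 F g) :
    ∃ G : Plane → Plane, Integrable G ∧
      Tendsto (fun i => ∫ x, ‖gradient (Nn F i) x - G x‖) atTop (𝓝 0) ∧ ∫ x, ‖G x‖ ≤ C * ∫ x, ‖g x‖ := by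
  have hX := fun i => (tail_grad_bound hC hW (half_pow_pos i)).1
  have hb := fun i => (tail_grad_bound hC hW (half_pow_pos i)).2
  obtain ⟨G, hG, hlim⟩ := exists_L1_limit (X := fun i => gradient (Nn F i)) hX
    (cauchy_L1_abstract (N := Nn F) (fun i => (Nn_lip hW i).continuous.measurable)
      (Nn_mono hW.intF) hX hW.intg (Nn_h1 hW) (Nn_h2 h0 hC hW))
  exact ⟨G, hG, hlim, le_of_tendsto' (tendsto_norm_of_L1 hX hG hlim) hb⟩

/-- dominated convergence: `Nn |f| i x → maximalReal f x` a.e. (`tail_tendsto_maximalReal`), `|Nn |f| i x * ψ x| ≤ D x * |ψ x|`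
(`tail_abs_nonneg`, `tail_le_maximalReal`, `maximalReal_le_of_dom`), `D * |ψ|` integrable (`loc_mul_cc`). -/
theorem Nn_weak_tendsto {f : Plane → ℝ} (hf : Integrable f) {D : Plane → ℝ} (hD : LocallyIntegrable D)
    (hdom : ∀ᵐ x, ∀ r : ℝ, 0 < r → dAvg (fun y => |f y|) x r ≤ D x) {g : Plane → Plane}
    (hW : W11 (fun y => |f y|) g) {ψ : Plane → ℝ} (hψ : Continuous ψ) (hc : HasCompactSupport ψ) :
    Tendsto (fun i => ∫ x, Nn (fun y => |f y|) i x * ψ x) atTop (𝓝 (∫ x, maximalReal f x * ψ x)) := by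
  have hψa : Continuous (fun x => |ψ x|) := hψ.abs
  have hca : HasCompactSupport (fun x => |ψ x|) := hc.comp_left (g := fun t : ℝ => |t|) abs_zero
  refine tendsto_integral_of_dominated_convergence (fun x => D x * |ψ x|) ?_
    (loc_mul_cc hD hψa hca) ?_ ?_
  · intro i
    exact ((Nn_lip hW i).continuous.mul hψ).aestronglyMeasurable
  · intro i
    filter_upwards [hdom] with x hx
    have hne : maximal f x ≠ ⊤ :=
      ne_top_of_le_ne_top ENNReal.ofReal_ne_top (maximal_le_of_dom hf hx)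
    have h0 : 0 ≤ Nn (fun y => |f y|) i x := tail_abs_nonneg hf (half_pow_pos i) x
    have h1 : Nn (fun y => |f y|) i x ≤ maximalReal f x :=
      tail_le_maximalReal hf hne (half_pow_pos i)
    have h2 := maximalReal_le_of_dom hf hx
    rw [Real.norm_eq_abs, abs_mul, abs_of_nonneg h0]
    exact mul_le_mul_of_nonneg_right (h1.trans h2) (abs_nonneg _)
  · filter_upwards [hdom] with x hx
    have hne : maximal f x ≠ ⊤ :=
      ne_top_of_le_ne_top ENNReal.ofReal_ne_top (maximal_le_of_dom hf hx)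
    exact (tail_tendsto_maximalReal hf hne).mul_const _

/-- a.e. limit of continuous functions (`aestronglyMeasurable_of_tendsto_ae`), `0 ≤ maximalReal f ≤ D` a.e. (`LocallyIntegrable.mono`). -/
theorem maximalReal_loc {f : Plane → ℝ} (hf : Integrable f) {D : Plane → ℝ} (hD : LocallyIntegrable D)
    (hdom : ∀ᵐ x, ∀ r : ℝ, 0 < r → dAvg (fun y => |f y|) x r ≤ D x) {g : Plane → Plane}
    (hW : W11 (fun y => |f y|) g) : LocallyIntegrable (maximalReal f) := by
  have hmeas : AEStronglyMeasurable (maximalReal f) volume := by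
    refine aestronglyMeasurable_of_tendsto_ae atTop (f := fun i => Nn (fun y => |f y|) i)
      (fun i => (Nn_lip hW i).continuous.aestronglyMeasurable) ?_
    filter_upwards [hdom] with x hx
    have hne : maximal f x ≠ ⊤ :=
      ne_top_of_le_ne_top ENNReal.ofReal_ne_top (maximal_le_of_dom hf hx)
    exact tail_tendsto_maximalReal hf hne
  refine hD.mono hmeas ?_
  filter_upwards [hdom] with x hx
  rw [Real.norm_eq_abs, Real.norm_eq_abs, abs_of_nonneg (maximalReal_nonneg f x)]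
  exact (maximalReal_le_of_dom hf hx).trans (le_abs_self _)

theorem endpoint_of_cruxC {C : ℝ} (h0 : 0 ≤ C) (hC : CruxC C) (f : Plane → ℝ) (g : Plane → Plane)
    (hf : Integrable f) (hg : Integrable g) (hw : WGrad f g) :
    (∀ᵐ x, maximal f x ≠ ⊤) ∧ LocallyIntegrable (maximalReal f) ∧
      ∃ G : Plane → Plane, Integrable G ∧ WGrad (maximalReal f) G ∧ ∫ x, ‖G x‖ ≤ C * ∫ x, ‖g x‖ := by
  have hW : W11 f g := ⟨hf, hg, hw⟩
  have hA := hW.abs
  obtain ⟨D, hD, hdom⟩ := exists_dominating hA (fun x => abs_nonneg _)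
  obtain ⟨G, hG, hlim, hnorm⟩ := exists_limit_field h0 hC hA
  refine ⟨?_, maximalReal_loc hf hD hdom hA, G, hG, ?_, ?_⟩
  · filter_upwards [hdom] with x hx
    exact ne_top_of_le_ne_top ENNReal.ofReal_ne_top (maximal_le_of_dom hf hx)
  · exact WGrad.of_tendsto (Fn := Nn (fun y => |f y|)) (gn := fun i => gradient (Nn (fun y => |f y|) i))
      (fun i => lip_wgrad (Nn_lip hA i))
      (fun ψ hψ hc => Nn_weak_tendsto hf hD hdom hA hψ hc)
      (fun ψ hψ hc i => tendsto_integral_comp_mul_of_L1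
        (fun n => (tail_grad_bound hC hA (half_pow_pos n)).1) hG hlim hψ hc i)
  · exact hnorm.trans (mul_le_mul_of_nonneg_left (integral_norm_sign_smul_le hf hg) h0)

/-- **Row 30, conditional result.** -/
theorem result_of_crux
    (h : Claims.C0045.SignedDisk.CenteredDiskEndpoint.SignedFiniteBandStatement) :
    Claims.C0044.CenteredDiskEndpoint.EndpointStatement := by
  obtain ⟨C, h0, hC⟩ := crux_iff.1 h
  refine ⟨C, h0, fun f g hf hg hw => ?_⟩
  obtain ⟨h1, h2, G, hG, hGw, hGn⟩ := endpoint_of_cruxC h0 hC f g hf hg hw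
  exact ⟨h1, h2, ⟨h2, G, hG.locallyIntegrable, hGw⟩, G, hG, hGw, hGn⟩

end

end Claimed.Agent.R030
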