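import Claimed.Agent.R030.Trans

/-!
# Row 30, (Mo): mollifiers

`mol n` is a `ContDiffBump` at `0` with radii `1/(2(n+1)) < 1/(n+1)`, `rho n = (mol n).normed volume`,
`mconv n u x = ∫ t, rho n t • u (x - t)`, which is *definitionally* Mathlib's convolution
`(rho n ⋆[ContinuousLinearMap.lsmul ℝ ℝ, volume] u) x` (`mconv_eq_conv`).

Mathlib API: `ContDiffBump.nonneg_normed, integral_normed, support_normed_eq, hasCompactSupport_normed, contDiff_normed, normed_neg`,
`HasCompactSupport.contDiff_convolution_left`, `HasCompactSupport.hasFDerivAt_convolution_left`,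
`Integrable.integrable_convolution`, `ContDiffBump.ae_convolution_tendsto_right_of_locallyIntegrable`.
-/

set_option autoImplicit false

open MeasureTheory Set Filter
open scoped ENNReal NNReal Topology ContDiff Convolution

namespace Claimed.Agent.R030

noncomputable section

variable {E : Type*} [NormedAddCommGroup E] [NormedSpace ℝ E]

/-- the bump of radii `1/(2(n+1)) < 1/(n+1)` -/
def mol (n : ℕ) : ContDiffBump (0 : Plane) where
  rIn := 1 / (2 * ((n : ℝ) + 1))
  rOut := 1 / ((n : ℝ) + 1)
  rIn_pos := by positivity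
  rIn_lt_rOut := by
    have h : (0 : ℝ) < (n : ℝ) + 1 := by positivity
    exact one_div_lt_one_div_of_lt h (by linarith)

/-- the mollifier -/
def rho (n : ℕ) : Plane → ℝ := (mol n).normed volume

/-- mollification -/
def mconv (n : ℕ) (u : Plane → E) : Plane → E := fun x => ∫ t, rho n t • u (x - t)

theorem mconv_eq_conv (n : ℕ) (u : Plane → E) :
    mconv n u = (rho n ⋆[ContinuousLinearMap.lsmul ℝ ℝ, volume] u) := rfl

theorem rho_nonneg (n : ℕ) (t : Plane) : 0 ≤ rho n t := (mol n).nonneg_normed t

theorem rho_integral (n : ℕ) : ∫ t, rho n t = 1 := (mol n).integral_normed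

theorem rho_integrable (n : ℕ) : Integrable (rho n) := (mol n).integrable_normed

theorem rho_contDiff (n : ℕ) : ContDiff ℝ ∞ (rho n) := (mol n).contDiff_normed

theorem rho_compact (n : ℕ) : HasCompactSupport (rho n) := (mol n).hasCompactSupport_normed

theorem rho_neg (n : ℕ) (t : Plane) : rho n (-t) = rho n t := (mol n).normed_neg t

theorem rho_eq_zero (n : ℕ) {t : Plane} (ht : 1 / ((n : ℝ) + 1) < ‖t‖) : rho n t = 0 := by
  by_contra h
  have h1 : t ∈ Function.support (rho n) := h
  rw [show Function.support (rho n) = Metric.ball 0 (mol n).rOut from (mol n).support_normed_eq] at h1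
  rw [mem_ball_zero_iff] at h1
  exact absurd h1 (not_lt.2 ht.le)

/-- `t ↦ rho n t • u (x - t)` is integrable for every `x` (`u` locally integrable, `rho n` continuous with compact support:
`HasCompactSupport.convolutionExists_left` or `LocallyIntegrable.integrable_smul_left_of_hasCompactSupport` after `y = x - t`). -/
theorem mconv_integrand_integrable (n : ℕ) {u : Plane → E} (hu : LocallyIntegrable u) (x : Plane) :
    Integrable (fun t => rho n t • u (x - t)) := by
  exact (rho_compact n).convolutionExists_left (ContinuousLinearMap.lsmul ℝ ℝ)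
    (rho_contDiff n).continuous hu x

/-- `Integrable.integrable_convolution`. -/
theorem mconv_integrable (n : ℕ) {u : Plane → E} (hu : Integrable u) : Integrable (mconv n u) := by
  rw [mconv_eq_conv]
  exact (rho_integrable n).integrable_convolution (ContinuousLinearMap.lsmul ℝ ℝ) hu

/-- `mconv n u x - u x = ∫ rho n t • (u (x - t) - u x)` (`rho_integral`, `mconv_integrand_integrable`), hence
`‖mconv n u x - u x‖ ≤ ∫ rho n t * ‖u (x + t) - u x‖ dt` (substitute `t → -t`, `rho_neg`, `integral_neg_eq_self`;
`norm_integral_le_integral_norm`).  Needs `[CompleteSpace E]` only through `integral_smul_const`-type lemmas; add it if convenient: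
the lemma is only used for `E = ℝ` and `E = Plane`. -/
theorem mconv_sub_norm_le [CompleteSpace E] (n : ℕ) {u : Plane → E} (hu : LocallyIntegrable u) (x : Plane) :
    ‖mconv n u x - u x‖ ≤ ∫ t, rho n t * ‖u (x + t) - u x‖ := by
  have h1 : Integrable (fun t => rho n t • u (x - t)) := mconv_integrand_integrable n hu x
  have h2 : Integrable (fun t => rho n t • u x) := (rho_integrable n).smul_const (u x)
  have h3 : mconv n u x - u x = ∫ t, rho n t • (u (x - t) - u x) := by
    have e1 : ∫ t, rho n t • u x = u x := by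
      rw [integral_smul_const, rho_integral, one_smul]
    have e2 : (∫ t, rho n t • (u (x - t) - u x))
        = (∫ t, rho n t • u (x - t)) - ∫ t, rho n t • u x := by
      rw [← integral_sub h1 h2]
      refine integral_congr_ae (Eventually.of_forall fun t => ?_)
      simp only [smul_sub]
    rw [e2, e1]
    rfl
  rw [h3]
  refine (norm_integral_le_integral_norm _).trans (le_of_eq ?_)
  rw [← integral_neg_eq_self (fun t => rho n t * ‖u (x + t) - u x‖) volume]
  refine integral_congr_ae (Eventually.of_forall fun t => ?_)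
  simp only [norm_smul, Real.norm_eq_abs, abs_of_nonneg (rho_nonneg n t), rho_neg, sub_eq_add_neg]

/-- From `mconv_sub_norm_le` and `fub_translate` (with `k = rho n`, `R = 1/(n+1)`, `rho_eq_zero`, `rho_integral`);
`integral_mono` needs integrability of the left side: `mconv_integrable`, `hu`. -/
theorem mconv_L1_le [CompleteSpace E] (n : ℕ) {u : Plane → E} (hu : Integrable u) {c : ℝ}
    (h : ∀ t : Plane, ‖t‖ ≤ 1 / ((n : ℝ) + 1) → ∫ x, ‖u (x + t) - u x‖ ≤ c) :
    ∫ x, ‖mconv n u x - u x‖ ≤ c := by
  obtain ⟨hi, hle⟩ := fub_translate (rho n) (rho_integrable n) (rho_nonneg n) (1 / ((n : ℝ) + 1)) c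
    (fun t ht => rho_eq_zero n ht) u hu h
  rw [rho_integral, mul_one] at hle
  refine le_trans ?_ hle
  refine integral_mono ((mconv_integrable n hu).sub hu).norm hi fun x => ?_
  exact mconv_sub_norm_le n hu.locallyIntegrable x

/-- From `trans_small` and `mconv_L1_le` (`1/(n+1) → 0`: `tendsto_one_div_add_atTop_nhds_zero_nat`). -/
theorem mconv_tendsto_L1 [CompleteSpace E] {u : Plane → E} (hu : Integrable u) :
    Tendsto (fun n => ∫ x, ‖mconv n u x - u x‖) atTop (𝓝 0) := by
  rw [Metric.tendsto_atTop]
  intro ε hε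
  obtain ⟨δ, hδ, hd⟩ := trans_small u hu (half_pos hε)
  have ht : ∀ᶠ n : ℕ in atTop, 1 / ((n : ℝ) + 1) < δ :=
    (tendsto_one_div_add_atTop_nhds_zero_nat (𝕜 := ℝ)).eventually (gt_mem_nhds hδ)
  obtain ⟨N, hN⟩ := eventually_atTop.1 ht
  refine ⟨N, fun n hn => ?_⟩
  have h1 : ∫ x, ‖mconv n u x - u x‖ ≤ ε / 2 :=
    mconv_L1_le n hu fun t htn => hd t (htn.trans (hN n hn).le)
  have h0 : 0 ≤ ∫ x, ‖mconv n u x - u x‖ := integral_nonneg fun x => norm_nonneg _
  rw [Real.dist_eq, sub_zero, abs_of_nonneg h0]
  linarith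

/-- `ContDiffBump.ae_convolution_tendsto_right_of_locallyIntegrable` with `φ = mol`, `K = 2`. -/
theorem mconv_tendsto_ae [CompleteSpace E] {u : Plane → E} (hu : LocallyIntegrable u) :
    ∀ᵐ x, Tendsto (fun n => mconv n u x) atTop (𝓝 (u x)) := by
  have h1 : Tendsto (fun n : ℕ => (mol n).rOut) atTop (𝓝 0) :=
    tendsto_one_div_add_atTop_nhds_zero_nat
  have h2 : ∀ᶠ n : ℕ in atTop, (mol n).rOut ≤ 2 * (mol n).rIn := by
    refine Eventually.of_forall fun n => ?_
    have h : (0 : ℝ) < (n : ℝ) + 1 := by positivity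
    show 1 / ((n : ℝ) + 1) ≤ 2 * (1 / (2 * ((n : ℝ) + 1)))
    apply le_of_eq
    field_simp
  exact ContDiffBump.ae_convolution_tendsto_right_of_locallyIntegrable h1 h2 hu

/-- `HasCompactSupport.contDiff_convolution_left`. -/
theorem mconv_contDiff [CompleteSpace E] (n : ℕ) {u : Plane → E} (hu : LocallyIntegrable u) :
    ContDiff ℝ ∞ (mconv n u) := by
  rw [mconv_eq_conv]
  exact (rho_compact n).contDiff_convolution_left (ContinuousLinearMap.lsmul ℝ ℝ)
    (rho_contDiff n) hu

/-- `‖∫ rho • u‖ ≤ ∫ rho * ‖u‖ ≤ ∫ rho * M = M`. -/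
theorem mconv_norm_le (n : ℕ) {u : Plane → E} {M : ℝ} (hM : ∀ x, ‖u x‖ ≤ M) (x : Plane) :
    ‖mconv n u x‖ ≤ M := by
  have h1 : ‖mconv n u x‖ ≤ ∫ t, ‖rho n t • u (x - t)‖ := norm_integral_le_integral_norm _
  refine h1.trans ?_
  have h2 : ∫ t, rho n t * M = M := by
    rw [integral_mul_const, rho_integral, one_mul]
  rw [← h2]
  refine integral_mono_of_nonneg (Eventually.of_forall fun t => norm_nonneg _)
    ((rho_integrable n).mul_const M) (Eventually.of_forall fun t => ?_)
  show ‖rho n t • u (x - t)‖ ≤ rho n t * M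
  rw [norm_smul, Real.norm_eq_abs, abs_of_nonneg (rho_nonneg n t)]
  exact mul_le_mul_of_nonneg_left (hM _) (rho_nonneg n t)

/-- components commute with mollification (`ContinuousLinearMap.integral_comp_comm` with `EuclideanSpace.proj i`,
`mconv_integrand_integrable`). -/
theorem mconv_apply_comp (n : ℕ) {g : Plane → Plane} (hg : LocallyIntegrable g) (x : Plane) (i : Fin 2) :
    mconv n g x i = mconv n (fun y => g y i) x := by
  have h1 : Integrable (fun t => rho n t • g (x - t)) := mconv_integrand_integrable n hg x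
  have h2 := (EuclideanSpace.proj (𝕜 := ℝ) (ι := Fin 2) i).integral_comp_comm h1
  have h3 : mconv n g x i
      = (EuclideanSpace.proj (𝕜 := ℝ) (ι := Fin 2) i) (∫ t, rho n t • g (x - t)) := rfl
  rw [h3, ← h2]
  rfl

/-- KEY: the derivative of a mollification is the mollification of the weak gradient.
`HasCompactSupport.hasFDerivAt_convolution_left` gives
`fderiv (mconv n F) x (eb i) = ∫ t, fderiv (rho n) t (eb i) * F (x - t) = ∫ y, fderiv (rho n) (x - y) (eb i) * F y`.
Test function `φ y = rho n (x - y)` (smooth, compact support), `fderiv φ y (eb i) = - fderiv (rho n) (x - y) (eb i)`.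
`WGrad` for `φ`: `∫ F y * fderiv φ y (eb i) = - ∫ g y i * φ y`, i.e. `∫ fderiv (rho n)(x-y)(eb i) * F y = ∫ g y i * rho n (x - y) = mconv n (g · i) x`. -/
theorem mconv_fderiv (n : ℕ) {F : Plane → ℝ} {g : Plane → Plane} (hF : LocallyIntegrable F)
    (hg : LocallyIntegrable g) (h : WGrad F g) (x : Plane) (i : Fin 2) :
    fderiv ℝ (mconv n F) x (eb i) = mconv n (fun y => g y i) x := by
  have hd := (rho_compact n).hasFDerivAt_convolution_left (ContinuousLinearMap.lsmul ℝ ℝ)
    (μ := (volume : Measure Plane)) ((rho_contDiff n).of_le (by simp)) hF x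
  have h1 : fderiv ℝ (mconv n F) x =
      (fderiv ℝ (rho n) ⋆[(ContinuousLinearMap.lsmul ℝ ℝ).precompL Plane, volume] F) x := hd.fderiv
  rw [h1]
  -- the convolution integrand is integrable
  have hcf : HasCompactSupport (fderiv ℝ (rho n)) := (rho_compact n).fderiv ℝ
  have hcont : Continuous (fderiv ℝ (rho n)) := (rho_contDiff n).continuous_fderiv (by simp)
  have hex : ConvolutionExistsAt (fderiv ℝ (rho n)) F x
      ((ContinuousLinearMap.lsmul ℝ ℝ).precompL Plane) volume :=
    hcf.convolutionExists_left _ hcont hF x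
  have h2 : (fderiv ℝ (rho n) ⋆[(ContinuousLinearMap.lsmul ℝ ℝ).precompL Plane, volume] F) x (eb i)
      = ∫ t, fderiv ℝ (rho n) t (eb i) * F (x - t) := by
    have := (ContinuousLinearMap.apply ℝ ℝ (eb i)).integral_comp_comm hex
    rw [convolution_def]
    simpa using this.symm
  rw [h2]
  -- test function
  set φ : Plane → ℝ := fun y => rho n (x - y) with hφ
  have hφs : ContDiff ℝ ∞ φ := (rho_contDiff n).comp (contDiff_const.sub contDiff_id)
  have hφc : HasCompactSupport φ := by
    have := (rho_compact n).comp_homeomorph (Homeomorph.subLeft x)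
    exact this
  have hφd : ∀ y, fderiv ℝ φ y (eb i) = - fderiv ℝ (rho n) (x - y) (eb i) := by
    intro y
    have hr : HasFDerivAt (rho n) (fderiv ℝ (rho n) (x - y)) (x - y) :=
      ((rho_contDiff n).differentiable (by simp) _).hasFDerivAt
    have hs : HasFDerivAt (fun y : Plane => x - y) (-(ContinuousLinearMap.id ℝ Plane)) y := by
      simpa using (hasFDerivAt_id y).const_sub x
    have := (hr.comp y hs).fderiv
    have h3 : fderiv ℝ φ y = (fderiv ℝ (rho n) (x - y)).comp (-(ContinuousLinearMap.id ℝ Plane)) := this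
    rw [h3]
    simp
  have hw := h φ hφs hφc i
  -- change variables t -> x - y
  have h4 : ∫ t, fderiv ℝ (rho n) t (eb i) * F (x - t) = ∫ y, fderiv ℝ (rho n) (x - y) (eb i) * F y := by
    rw [← integral_sub_left_eq_self (fun t => fderiv ℝ (rho n) t (eb i) * F (x - t)) volume x]
    simp
  have h5 : mconv n (fun y => g y i) x = ∫ y, g y i * φ y := by
    show ∫ t, rho n t • g (x - t) i = _
    rw [← integral_sub_left_eq_self (fun t => rho n t • g (x - t) i) volume x]
    simp [hφ, mul_comm]
  rw [h4, h5]
  have h6 : ∫ y, F y * fderiv ℝ φ y (eb i) = - ∫ y, fderiv ℝ (rho n) (x - y) (eb i) * F y := by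
    rw [← integral_neg]
    refine integral_congr_ae (Filter.Eventually.of_forall fun y => ?_)
    simp only [hφd y]
    ring
  rw [h6] at hw
  exact neg_injective hw

/-- From `mconv_fderiv`, `gradient_apply`, `mconv_apply_comp` (`ext i`). -/
theorem mconv_gradient (n : ℕ) {F : Plane → ℝ} {g : Plane → Plane} (hF : LocallyIntegrable F)
    (hg : LocallyIntegrable g) (h : WGrad F g) (x : Plane) :
    gradient (mconv n F) x = mconv n g x := by
  ext i
  rw [gradient_apply, mconv_fderiv n hF hg h, mconv_apply_comp n hg]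

end

end Claimed.Agent.R030
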