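import Claimed.Agent.R030.Dens

/-!
# Row 30, (Tr): the translation estimate  `∫ |F (x+h) - F x| ≤ ‖h‖ ∫ ‖g‖`  for `W11 F g`

* smooth case: `H (x+h) - H x = ∫ t in 0..1, fderiv H (x + t • h) h` (FTC along the segment,
  `intervalIntegral.integral_eq_sub_of_hasDerivAt`), `|fderiv H y h| ≤ ‖gradient H y‖ ‖h‖` (`norm_gradient`, `le_opNorm`);
  Tonelli on `Plane × [0,1]` (the integrand `(x,t) ↦ ‖gradient H (x + t • h)‖` is continuous with compact support in `x`, uniformly in `t ∈ [0,1]`)
  and `integral_add_right_eq_self`.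
* general case: `H n` from `W11.exists_seq`; `∫ |F(x+h) - F x| ≤ ∫ |H n (x+h) - H n x| + 2 ∫ |H n - F|`, pass to the limit
  (`tendsto_norm_of_L1`, `le_of_tendsto'`).
-/

set_option autoImplicit false

open MeasureTheory Set Filter
open scoped ENNReal NNReal Topology ContDiff

namespace Claimed.Agent.R030

theorem trEst_grad_cont {H : Plane → ℝ} (hH : ContDiff ℝ ∞ H) : Continuous (fun y => ‖gradient H y‖) := by
  have h1 : Continuous (fderiv ℝ H) := hH.continuous_fderiv (by simp)
  have : (fun y => ‖gradient H y‖) = fun y => ‖fderiv ℝ H y‖ := by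
    funext y; exact norm_gradient H y
  rw [this]
  exact h1.norm

/-- pointwise: `|H (x+h) - H x| ≤ ‖h‖ * ∫ t in 0..1, ‖gradient H (x + t • h)‖`. -/
theorem trans_pointwise {H : Plane → ℝ} (hH : ContDiff ℝ ∞ H) (x h : Plane) :
    |H (x + h) - H x| ≤ ‖h‖ * ∫ t in (0 : ℝ)..1, ‖gradient H (x + t • h)‖ := by
  have hd : Differentiable ℝ H := hH.differentiable (by simp)
  have hline : ∀ t : ℝ, HasDerivAt (fun s : ℝ => x + s • h) h t := by
    intro t
    have := ((hasDerivAt_id t).smul_const h).const_add x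
    simpa using this
  have hder : ∀ t : ℝ, HasDerivAt (fun s : ℝ => H (x + s • h)) (fderiv ℝ H (x + t • h) h) t := by
    intro t
    exact (hd (x + t • h)).hasFDerivAt.comp_hasDerivAt t (hline t)
  have hc1 : Continuous (fun t : ℝ => x + t • h) := by fun_prop
  have hcont : Continuous (fun t : ℝ => fderiv ℝ H (x + t • h) h) := by
    have h1 : Continuous (fderiv ℝ H) := hH.continuous_fderiv (by simp)
    exact (h1.comp hc1).clm_apply continuous_const
  have hftc := intervalIntegral.integral_eq_sub_of_hasDerivAt (a := (0:ℝ)) (b := 1)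
    (fun t _ => hder t) (hcont.intervalIntegrable 0 1)
  simp only [one_smul, zero_smul, add_zero] at hftc
  rw [← hftc, ← intervalIntegral.integral_const_mul]
  have hcont2 : Continuous (fun t : ℝ => ‖h‖ * ‖gradient H (x + t • h)‖) :=
    continuous_const.mul ((trEst_grad_cont hH).comp hc1)
  calc |∫ t in (0:ℝ)..1, fderiv ℝ H (x + t • h) h|
      ≤ ∫ t in (0:ℝ)..1, |fderiv ℝ H (x + t • h) h| :=
        intervalIntegral.abs_integral_le_integral_abs zero_le_one
    _ ≤ ∫ t in (0:ℝ)..1, ‖h‖ * ‖gradient H (x + t • h)‖ := by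
        apply intervalIntegral.integral_mono_on zero_le_one (hcont.abs.intervalIntegrable 0 1)
          (hcont2.intervalIntegrable 0 1)
        intro t _
        rw [norm_gradient, mul_comm]
        exact (fderiv ℝ H (x + t • h)).le_opNorm h

/-- Tonelli: `∫ x, ∫ t in 0..1, ‖gradient H (x + t • h)‖ = ∫ ‖gradient H‖`, and the inner integral is integrable in `x`. -/
theorem trans_fubini {H : Plane → ℝ} (hH : ContDiff ℝ ∞ H) (hc : HasCompactSupport H) (h : Plane) :
    Integrable (fun x => ∫ t in (0 : ℝ)..1, ‖gradient H (x + t • h)‖) ∧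
      ∫ x, ∫ t in (0 : ℝ)..1, ‖gradient H (x + t • h)‖ = ∫ x, ‖gradient H x‖ := by
  have hgi : Integrable (fun y => ‖gradient H y‖) := (w11_of_smooth hH hc).intg.norm
  set ν : Measure ℝ := volume.restrict (Ioc (0:ℝ) 1) with hν
  set f : Plane × ℝ → ℝ := fun p => ‖gradient H (p.1 + p.2 • h)‖ with hf
  have hfc : Continuous f := (trEst_grad_cont hH).comp (by fun_prop)
  have hslice : ∀ t : ℝ, Integrable (fun x : Plane => f (x, t)) := by
    intro t
    exact hgi.comp_add_right (t • h)
  have hval : ∀ t : ℝ, ∫ x, f (x, t) = ∫ x, ‖gradient H x‖ := by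
    intro t
    exact integral_add_right_eq_self (fun y => ‖gradient H y‖) (t • h)
  have hint : Integrable f ((volume : Measure Plane).prod ν) := by
    rw [integrable_prod_iff' hfc.aestronglyMeasurable]
    refine ⟨Filter.Eventually.of_forall hslice, ?_⟩
    have : (fun t : ℝ => ∫ x, ‖f (x, t)‖) = fun _ => ∫ x, ‖gradient H x‖ := by
      funext t
      rw [← hval t]
      congr 1
      funext x
      simp [hf]
    rw [this]
    exact integrable_const _
  have heq : (fun x => ∫ t in (0 : ℝ)..1, ‖gradient H (x + t • h)‖) = fun x => ∫ t, f (x, t) ∂ν := by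
    funext x
    rw [intervalIntegral.integral_of_le zero_le_one]
  rw [heq]
  refine ⟨hint.integral_prod_left, ?_⟩
  rw [integral_integral_swap hint]
  simp only [hval]
  simp [hν]

theorem trans_est_smooth {H : Plane → ℝ} (hH : ContDiff ℝ ∞ H) (hc : HasCompactSupport H) (h : Plane) :
    ∫ x, |H (x + h) - H x| ≤ ‖h‖ * ∫ x, ‖gradient H x‖ := by
  have h1 := trans_fubini hH hc h
  calc ∫ x, |H (x + h) - H x| ≤ ∫ x, ‖h‖ * ∫ t in (0 : ℝ)..1, ‖gradient H (x + t • h)‖ := by
        apply integral_mono_of_nonneg (Filter.Eventually.of_forall fun x => abs_nonneg _)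
          (h1.1.const_mul _) (Filter.Eventually.of_forall fun x => trans_pointwise hH x h)
    _ = ‖h‖ * ∫ x, ‖gradient H x‖ := by rw [integral_const_mul, h1.2]

/-- (Tr) -/
theorem W11.trans_est {F : Plane → ℝ} {g : Plane → Plane} (hW : W11 F g) (h : Plane) :
    ∫ x, |F (x + h) - F x| ≤ ‖h‖ * ∫ x, ‖g x‖ := by
  obtain ⟨H, hH, hc, hL, hG⟩ := hW.exists_seq
  have hWn : ∀ n, W11 (H n) (gradient (H n)) := fun n => w11_of_smooth (hH n) (hc n)
  have hlim := tendsto_norm_of_L1 (fun n => (hWn n).intg) hW.intg hG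
  have hlim2 : Tendsto (fun n => ‖h‖ * (∫ x, ‖gradient (H n) x‖) + 2 * ∫ x, |H n x - F x|) atTop
      (𝓝 (‖h‖ * (∫ x, ‖g x‖) + 2 * 0)) := (hlim.const_mul _).add (hL.const_mul _)
  simp only [mul_zero, add_zero] at hlim2
  refine ge_of_tendsto' hlim2 fun n => ?_
  have hD : Integrable (fun x => |H n x - F x|) := ((hWn n).intF.sub hW.intF).abs
  have hD' : Integrable (fun x => |H n (x + h) - F (x + h)|) := hD.comp_add_right h
  have hHn : Integrable (fun x => |H n (x + h) - H n x|) :=
    (((hWn n).intF.comp_add_right h).sub (hWn n).intF).abs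
  have hshift : ∫ x, |H n (x + h) - F (x + h)| = ∫ x, |H n x - F x| :=
    integral_add_right_eq_self (fun y => |H n y - F y|) h
  have hS : Integrable (fun x => |H n (x + h) - F (x + h)| + |H n x - F x|) := hD'.add hD
  have hT : Integrable (fun x => |H n (x + h) - H n x| + (|H n (x + h) - F (x + h)| + |H n x - F x|)) :=
    hHn.add hS
  calc ∫ x, |F (x + h) - F x|
      ≤ ∫ x, (|H n (x + h) - H n x| + (|H n (x + h) - F (x + h)| + |H n x - F x|)) := by
        apply integral_mono_of_nonneg (Filter.Eventually.of_forall fun x => abs_nonneg _) hT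
        refine Filter.Eventually.of_forall fun x => ?_
        have e : F (x + h) - F x = (H n (x + h) - H n x) - (H n (x + h) - F (x + h)) + (H n x - F x) := by
          ring
        show |F (x + h) - F x| ≤ |H n (x + h) - H n x| + (|H n (x + h) - F (x + h)| + |H n x - F x|)
        rw [e]
        calc _ ≤ |(H n (x + h) - H n x) - (H n (x + h) - F (x + h))| + |H n x - F x| := abs_add_le _ _
          _ ≤ (|H n (x + h) - H n x| + |H n (x + h) - F (x + h)|) + |H n x - F x| := by
              gcongr; exact abs_sub _ _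
          _ = _ := by ring
    _ = (∫ x, |H n (x + h) - H n x|) + 2 * ∫ x, |H n x - F x| := by
        rw [integral_add hHn hS, integral_add hD' hD, hshift]; ring
    _ ≤ _ := by
        gcongr
        exact trans_est_smooth (hH n) (hc n) h

end Claimed.Agent.R030
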