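import Claimed.Agent.R030.Defs

/-!
# Row 30, (T) + (Fub): translations are continuous in `L¹(ℝ²)`; a Fubini lemma for averaged translations

`E` is any real normed space (used with `E = ℝ` and `E = Plane`).

* `trans_small_cc` : for `w` continuous with compact support.  `w` is uniformly continuous
  (`HasCompactSupport.uniformContinuous_of_continuous` / `Continuous.uniformContinuous_of_hasCompactSupport`); let
  `K = Metric.cthickening 1 (tsupport w)` (compact, finite measure `V`).  Choose `δ ≤ 1` with `‖w (x+h) - w x‖ ≤ ε / (V+1)` for `‖h‖ ≤ δ`.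
  The integrand vanishes off `K` (if `x ∉ K`, then `x ∉ tsupport w` and `x + h ∉ tsupport w`).  So the integral is `≤ V * ε/(V+1) ≤ ε`.
* `trans_small` : `Integrable.exists_hasCompactSupport_integral_sub_le` gives `w` continuous with compact support, `∫ ‖u - w‖ ≤ ε/3`;
  `‖u(x+h) - u x‖ ≤ ‖u(x+h) - w(x+h)‖ + ‖w(x+h) - w x‖ + ‖w x - u x‖`; `integral_add_right_eq_self`.
  (Alternative: Mathlib's continuity of the action of translations on `Lp`, `Lp.instContinuousVAddDomAddAct`-type instances.)
* `fub_translate` : Tonelli.  `(z,t) ↦ k t * ‖u (z+t) - u z‖` is integrable on the product (`≤ k t * (‖u (z+t)‖ + ‖u z‖)`; compare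
  `MeasureTheory.Integrable.convolution_integrand`, or `integrable_prod_iff'`), swap the integrals (`integral_integral_swap`), inner integral
  `∫ z, ‖u (z+t) - u z‖ ≤ c` when `k t ≠ 0`.
-/

set_option autoImplicit false

open MeasureTheory Set Filter
open scoped ENNReal NNReal Topology ContDiff

namespace Claimed.Agent.R030

variable {E : Type*} [NormedAddCommGroup E] [NormedSpace ℝ E]

theorem trans_small_cc (w : Plane → E) (hw : Continuous w) (hc : HasCompactSupport w) {ε : ℝ}
    (hε : 0 < ε) : ∃ δ > 0, ∀ h : Plane, ‖h‖ ≤ δ → ∫ x, ‖w (x + h) - w x‖ ≤ ε := by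
  have huc : UniformContinuous w := hc.uniformContinuous_of_continuous hw
  set K : Set Plane := Metric.cthickening 1 (tsupport w) with hK
  have hKc : IsCompact K := hc.isCompact.cthickening
  have hKfin : volume K < (⊤ : ℝ≥0∞) := hKc.measure_lt_top
  set V : ℝ := (volume K).toReal with hV
  have hV0 : 0 ≤ V := ENNReal.toReal_nonneg
  have hη : 0 < ε / (V + 1) := by positivity
  obtain ⟨δ0, hδ0, hδ⟩ := Metric.uniformContinuous_iff.1 huc (ε / (V + 1)) hη
  refine ⟨min (δ0 / 2) 1, by positivity, fun h hh => ?_⟩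
  have hh1 : ‖h‖ ≤ 1 := hh.trans (min_le_right _ _)
  have hh2 : ‖h‖ < δ0 := by
    have := hh.trans (min_le_left _ _)
    linarith
  have hbound : ∀ x, ‖w (x + h) - w x‖ ≤ K.indicator (fun _ => ε / (V + 1)) x := by
    intro x
    by_cases hx : x ∈ K
    · rw [indicator_of_mem hx]
      have : dist (x + h) x < δ0 := by
        simpa [dist_eq_norm] using hh2
      have := hδ this
      rw [dist_eq_norm] at this
      exact this.le
    · rw [indicator_of_notMem hx]
      have h1 : x ∉ tsupport w := fun hx' => hx (Metric.self_subset_cthickening _ hx')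
      have h2 : x + h ∉ tsupport w := by
        intro hx'
        apply hx
        apply Metric.mem_cthickening_of_dist_le x (x + h) 1 _ hx'
        simpa [dist_eq_norm] using hh1
      rw [image_eq_zero_of_notMem_tsupport h1, image_eq_zero_of_notMem_tsupport h2]
      simp
  have hint : Integrable (K.indicator (fun _ : Plane => ε / (V + 1))) := by
    rw [integrable_indicator_iff hKc.measurableSet]
    exact integrableOn_const hKfin.ne
  calc ∫ x, ‖w (x + h) - w x‖ ≤ ∫ x, K.indicator (fun _ => ε / (V + 1)) x := by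
        apply integral_mono_of_nonneg (Eventually.of_forall fun x => norm_nonneg _) hint
          (Eventually.of_forall hbound)
    _ = V * (ε / (V + 1)) := by
        rw [integral_indicator hKc.measurableSet, setIntegral_const]
        simp [hV, Measure.real]
    _ ≤ ε := by
        rw [mul_div_assoc', div_le_iff₀ (by positivity)]
        nlinarith

theorem trans_small (u : Plane → E) (hu : Integrable u) {ε : ℝ} (hε : 0 < ε) :
    ∃ δ > 0, ∀ h : Plane, ‖h‖ ≤ δ → ∫ x, ‖u (x + h) - u x‖ ≤ ε := by
  obtain ⟨w, hwc, hw1, hwcont, hwi⟩ := hu.exists_hasCompactSupport_integral_sub_le (by positivity : 0 < ε / 3)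
  obtain ⟨δ, hδ, hδ'⟩ := trans_small_cc w hwcont hwc (by positivity : 0 < ε / 3)
  refine ⟨δ, hδ, fun h hh => ?_⟩
  have h1 := hδ' h hh
  have huh : Integrable (fun x => u (x + h)) := hu.comp_add_right h
  have hwh : Integrable (fun x => w (x + h)) := hwi.comp_add_right h
  have h2 : ∫ x, ‖u (x + h) - w (x + h)‖ = ∫ x, ‖u x - w x‖ :=
    integral_add_right_eq_self (fun x => ‖u x - w x‖) h
  have i1 : Integrable (fun x => ‖u (x + h) - w (x + h)‖) := (huh.sub hwh).norm
  have i2 : Integrable (fun x => ‖w (x + h) - w x‖) := (hwh.sub hwi).norm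
  have i3 : Integrable (fun x => ‖u x - w x‖) := (hu.sub hwi).norm
  calc ∫ x, ‖u (x + h) - u x‖
      ≤ ∫ x, (‖u (x + h) - w (x + h)‖ + ‖w (x + h) - w x‖ + ‖u x - w x‖) := by
        apply integral_mono_of_nonneg (Eventually.of_forall fun x => norm_nonneg _) ((i1.add i2).add i3)
        refine Eventually.of_forall fun x => ?_
        have e : u (x + h) - u x = (u (x + h) - w (x + h)) + (w (x + h) - w x) - (u x - w x) := by abel
        show ‖u (x + h) - u x‖ ≤ _
        rw [e]
        exact (norm_sub_le _ _).trans (add_le_add_left (norm_add_le _ _) _)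
    _ = (∫ x, ‖u (x + h) - w (x + h)‖) + (∫ x, ‖w (x + h) - w x‖) + ∫ x, ‖u x - w x‖ := by
        have i12 : Integrable (fun x => ‖u (x + h) - w (x + h)‖ + ‖w (x + h) - w x‖) := i1.add i2
        rw [integral_add i12 i3, integral_add i1 i2]
    _ ≤ ε := by
        rw [h2]
        linarith

/-- integrability on the product of `(z,t) ↦ k t * ‖u (z+t) - u z‖` -/
theorem fub_integrable (k : Plane → ℝ) (hk : Integrable k) (u : Plane → E) (hu : Integrable u) :
    Integrable (fun p : Plane × Plane => k p.2 * ‖u (p.1 + p.2) - u p.1‖) (volume.prod volume) := by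
  have hmp : MeasurePreserving (fun z : Plane × Plane => (z.1 + z.2, z.2))
      ((volume : Measure Plane).prod (volume : Measure Plane))
      ((volume : Measure Plane).prod (volume : Measure Plane)) :=
    measurePreserving_add_prod volume volume
  have h1 : Integrable (fun p : Plane × Plane => ‖u p.1‖ * ‖k p.2‖)
      ((volume : Measure Plane).prod (volume : Measure Plane)) :=
    hu.norm.mul_prod hk.norm
  have h2 : Integrable (fun p : Plane × Plane => ‖u (p.1 + p.2)‖ * ‖k p.2‖)
      ((volume : Measure Plane).prod (volume : Measure Plane)) :=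
    hmp.integrable_comp_of_integrable h1
  have hm1 : AEStronglyMeasurable (fun p : Plane × Plane => u p.1)
      ((volume : Measure Plane).prod (volume : Measure Plane)) :=
    hu.aestronglyMeasurable.comp_fst
  have hm2 : AEStronglyMeasurable (fun p : Plane × Plane => u (p.1 + p.2))
      ((volume : Measure Plane).prod (volume : Measure Plane)) :=
    hm1.comp_measurePreserving hmp
  have hm3 : AEStronglyMeasurable (fun p : Plane × Plane => k p.2)
      ((volume : Measure Plane).prod (volume : Measure Plane)) :=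
    hk.aestronglyMeasurable.comp_snd
  refine (h2.add h1).mono' (hm3.mul (hm2.sub hm1).norm) (Filter.Eventually.of_forall ?_)
  intro p
  have h3 : ‖u (p.1 + p.2) - u p.1‖ ≤ ‖u (p.1 + p.2)‖ + ‖u p.1‖ := norm_sub_le _ _
  have h4 : 0 ≤ ‖k p.2‖ := norm_nonneg _
  simp only [norm_mul, norm_norm, Pi.add_apply]
  nlinarith [h3, h4]

/-- (Fub) -/
theorem fub_translate (k : Plane → ℝ) (hk : Integrable k) (hk0 : ∀ t, 0 ≤ k t) (R c : ℝ)
    (hsupp : ∀ t, R < ‖t‖ → k t = 0) (u : Plane → E) (hu : Integrable u)
    (h : ∀ t : Plane, ‖t‖ ≤ R → ∫ x, ‖u (x + t) - u x‖ ≤ c) :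
    Integrable (fun z => ∫ t, k t * ‖u (z + t) - u z‖) ∧
      ∫ z, ∫ t, k t * ‖u (z + t) - u z‖ ≤ c * ∫ t, k t := by
  have hF := fub_integrable k hk u hu
  refine ⟨hF.integral_prod_left, ?_⟩
  have hsw : ∫ z, ∫ t, k t * ‖u (z + t) - u z‖ = ∫ t, ∫ z, k t * ‖u (z + t) - u z‖ :=
    integral_integral_swap (f := fun z t : Plane => k t * ‖u (z + t) - u z‖) hF
  rw [hsw, ← integral_const_mul]
  refine integral_mono hF.integral_prod_right (hk.const_mul c) ?_
  intro t
  have h5 : ∫ z, k t * ‖u (z + t) - u z‖ = k t * ∫ z, ‖u (z + t) - u z‖ :=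
    integral_const_mul _ _
  change ∫ z, k t * ‖u (z + t) - u z‖ ≤ c * k t
  rw [h5]
  by_cases ht : ‖t‖ ≤ R
  · have := mul_le_mul_of_nonneg_left (h t ht) (hk0 t)
    linarith
  · rw [hsupp t (not_le.mp ht)]
    simp

/-- the indicator of the ball of radius `R` -/
noncomputable def trans3K (R : ℝ) : Plane → ℝ := (Metric.ball (0 : Plane) R).indicator (fun _ => (1 : ℝ))

theorem trans3_integrable (R : ℝ) : Integrable (trans3K R) :=
  (integrable_indicator_iff measurableSet_ball).2
    (integrableOn_const measure_ball_lt_top.ne)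

theorem trans3_nonneg (R : ℝ) (t : Plane) : 0 ≤ trans3K R t :=
  Set.indicator_nonneg (fun _ _ => zero_le_one) t

theorem trans3_supp (R : ℝ) (t : Plane) (ht : R < ‖t‖) : trans3K R t = 0 :=
  Set.indicator_of_notMem (by simp only [Metric.mem_ball, dist_zero_right, not_lt]; exact ht.le) _

theorem trans3_integral {R : ℝ} (hR : 0 < R) : ∫ t, trans3K R t = Real.pi * R ^ 2 := by
  unfold trans3K
  rw [integral_indicator measurableSet_ball, setIntegral_const, smul_eq_mul, mul_one,
    Measure.real, EuclideanSpace.volume_ball_fin_two, ENNReal.toReal_mul, ENNReal.toReal_pow,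
    ENNReal.toReal_ofReal hR.le, ENNReal.toReal_ofReal Real.pi_pos.le, mul_comm]

theorem trans3_ball_add (R : ℝ) (z : Plane) (Θ : Plane → ℝ) :
    ∫ y in Metric.ball z R, Θ y = ∫ t, trans3K R t * Θ (z + t) := by
  rw [← integral_indicator measurableSet_ball,
    ← integral_add_left_eq_self (fun y => (Metric.ball z R).indicator Θ y) z]
  refine integral_congr_ae (Eventually.of_forall fun t => ?_)
  show (Metric.ball z R).indicator Θ (z + t) = trans3K R t * Θ (z + t)
  unfold trans3K
  by_cases ht : t ∈ Metric.ball (0 : Plane) R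
  · have h1 : z + t ∈ Metric.ball z R := by
      simpa [Metric.mem_ball, dist_eq_norm] using ht
    rw [Set.indicator_of_mem h1, Set.indicator_of_mem ht, one_mul]
  · have h1 : z + t ∉ Metric.ball z R := by
      simpa [Metric.mem_ball, dist_eq_norm] using ht
    rw [Set.indicator_of_notMem h1, Set.indicator_of_notMem ht, zero_mul]

theorem trans3_ball_sub (R : ℝ) (z : Plane) (Θ : Plane → ℝ) :
    ∫ y in Metric.ball z R, Θ y = ∫ t, trans3K R t * Θ (z - t) := by
  rw [← integral_indicator measurableSet_ball,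
    ← integral_sub_left_eq_self (fun y => (Metric.ball z R).indicator Θ y) volume z]
  refine integral_congr_ae (Eventually.of_forall fun t => ?_)
  show (Metric.ball z R).indicator Θ (z - t) = trans3K R t * Θ (z - t)
  unfold trans3K
  by_cases ht : t ∈ Metric.ball (0 : Plane) R
  · have h1 : z - t ∈ Metric.ball z R := by
      simpa [Metric.mem_ball, dist_eq_norm] using ht
    rw [Set.indicator_of_mem h1, Set.indicator_of_mem ht, one_mul]
  · have h1 : z - t ∉ Metric.ball z R := by
      simpa [Metric.mem_ball, dist_eq_norm] using ht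
    rw [Set.indicator_of_notMem h1, Set.indicator_of_notMem ht, zero_mul]

/-- (Fub) for the indicator of a ball, written with set integrals over `ball z R`.
From `fub_translate` with `k = indicator (ball 0 R) 1`; `∫ y in ball z R, Θ y = ∫ t, k t * Θ (z + t)`
(`integral_indicator`, `integral_add_left_eq_self`), `∫ k = π R²` (`EuclideanSpace.volume_ball_fin_two`). -/
theorem fub_ball {R : ℝ} (hR : 0 < R) (c : ℝ) (u : Plane → E) (hu : Integrable u)
    (h : ∀ t : Plane, ‖t‖ ≤ R → ∫ x, ‖u (x + t) - u x‖ ≤ c) :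
    Integrable (fun z => ∫ y in Metric.ball z R, ‖u y - u z‖) ∧
      ∫ z, ∫ y in Metric.ball z R, ‖u y - u z‖ ≤ c * (Real.pi * R ^ 2) := by
  have h1 := fub_translate (trans3K R) (trans3_integrable R) (trans3_nonneg R) R c (trans3_supp R)
    u hu h
  have h2 : (fun z => ∫ y in Metric.ball z R, ‖u y - u z‖)
      = fun z => ∫ t, trans3K R t * ‖u (z + t) - u z‖ :=
    funext fun z => trans3_ball_add R z (fun y => ‖u y - u z‖)
  rw [trans3_integral hR] at h1
  rw [h2]
  exact h1

/-- Fubini: `∫_z ∫_{B(z,R)} Ψ = π R² ∫ Ψ`.  (Product integrability of `(z,t) ↦ 1_{‖t‖<R} Ψ (z+t)`, swap,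
`integral_add_right_eq_self`.) -/
theorem fub_ball_const {R : ℝ} (hR : 0 < R) (Ψ : Plane → ℝ) (hΨ : Integrable Ψ) :
    Integrable (fun z => ∫ y in Metric.ball z R, Ψ y) ∧
      ∫ z, ∫ y in Metric.ball z R, Ψ y = Real.pi * R ^ 2 * ∫ y, Ψ y := by
  have h2 : (fun z => ∫ y in Metric.ball z R, Ψ y)
      = convolution (trans3K R) Ψ (ContinuousLinearMap.mul ℝ ℝ) volume :=
    funext fun z => trans3_ball_sub R z Ψ
  rw [h2]
  refine ⟨(trans3_integrable R).integrable_convolution (ContinuousLinearMap.mul ℝ ℝ) hΨ, ?_⟩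
  rw [integral_convolution (ContinuousLinearMap.mul ℝ ℝ) (trans3_integrable R) hΨ,
    trans3_integral hR]
  rfl

end Claimed.Agent.R030
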